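import Vale.Agent.P166F.Energy

/-!
P166: step order parameters as laws on the unit interval.
-/

namespace Vale.Agent.P166F

open MeasureTheory Finset

variable {k : ℕ} {m p : Fin (k + 1) → ℝ}

/-- The cumulative parameters continued by one past the last level. -/
def cumul (m : Fin (k + 1) → ℝ) (i : ℕ) : ℝ := if h : i ≤ k then m ⟨i, by omega⟩ else 1

lemma lmass_eq (m : Fin (k + 1) → ℝ) (l : Fin (k + 1)) :
    lmass m l = cumul m ((l : ℕ) + 1) - cumul m l := by
  rw [lmass, cumul, cumul, dif_pos (Nat.le_of_lt_succ l.isLt)]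
  by_cases h : (l : ℕ) < k
  · rw [dif_pos h, dif_pos (show (l : ℕ) + 1 ≤ k by omega)]
  · rw [dif_neg h, dif_neg (show ¬((l : ℕ) + 1 ≤ k) by omega)]

lemma lmass_nonneg (hm : Levels m) (l : Fin (k + 1)) : 0 ≤ lmass m l := by
  rw [lmass]
  split_ifs with h
  · exact sub_nonneg.2 (hm.strict.monotone (Fin.mk_le_mk.2 (Nat.le_succ _)))
  · exact sub_nonneg.2 (hm.ltOne l).le

lemma sum_lmass_below (hm : Levels m) (j : ℕ) (hj : j ≤ k + 1) :
    ∑ l ∈ univ.filter (fun l : Fin (k + 1) => (l : ℕ) < j), lmass m l = cumul m j := by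
  have h0 : cumul m 0 = 0 := by rw [cumul, dif_pos k.zero_le]; exact hm.zero
  simp only [lmass_eq]
  rw [sum_filter, Fin.sum_univ_eq_sum_range (fun i => if i < j then cumul m (i + 1) - cumul m i else 0),
    ← sum_filter, show (range (k + 1)).filter (· < j) = range j by ext x; simp; omega, sum_range_sub,
    h0, sub_zero]

lemma sum_lmass (hm : Levels m) : ∑ l, lmass m l = 1 := by
  have h := sum_lmass_below hm (k + 1) le_rfl
  rw [filter_true_of_mem fun l _ => l.isLt, cumul, dif_neg (by omega)] at h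
  exact h

lemma integral_stepLaw (hm : Levels m) (f : ℝ → ℝ) :
    ∫ r, f r ∂stepLaw m p = ∑ l, lmass m l * f (p l) := by
  rw [stepLaw, integral_finsetSum_measure fun l _ =>
    ((integrable_dirac (by simp)).smul_measure ENNReal.ofReal_ne_top)]
  refine sum_congr rfl fun l _ => ?_
  rw [integral_smul_measure, integral_dirac, ENNReal.toReal_ofReal (lmass_nonneg hm l), smul_eq_mul]

theorem olaw_stepLaw (hm : Levels m) (hp : Path p) : OLaw (stepLaw m p) := by
  refine ⟨⟨?_⟩, ?_⟩
  · simp only [stepLaw, Measure.coe_finsetSum, Finset.sum_apply, Measure.smul_apply, measure_univ,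
      smul_eq_mul, mul_one]
    rw [← ENNReal.ofReal_sum_of_nonneg fun l _ => lmass_nonneg hm l, sum_lmass hm, ENNReal.ofReal_one]
  · rw [stepLaw, ae_iff]
    simp only [Measure.coe_finsetSum, Finset.sum_apply, Measure.smul_apply, smul_eq_mul,
      sum_eq_zero_iff, mem_univ, true_implies]
    intro l
    rw [Measure.dirac_apply, Set.indicator_of_notMem, mul_zero]
    simp only [Set.mem_setOf_eq, not_not, Set.mem_Icc]
    exact ⟨hp.nonneg l, (hp.ltOne l).le⟩

/-- The mean of the larger of `q` and the overlap, split at the first level above `q`. -/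
lemma integral_max_stepLaw (hm : Levels m) (hp : Path p) (q : ℝ) {j : ℕ} (hj : j ≤ k + 1)
    (hlo : ∀ l : Fin (k + 1), (l : ℕ) < j → p l ≤ q) (hhi : ∀ l : Fin (k + 1), j ≤ l → q ≤ p l) :
    ∫ r, max q r ∂stepLaw m p =
      q * cumul m j + ∑ l ∈ univ.filter (fun l : Fin (k + 1) => j ≤ l), lmass m l * p l := by
  rw [integral_stepLaw hm, ← sum_lmass_below hm j hj, mul_sum,
    ← sum_filter_add_sum_filter_not univ (fun l : Fin (k + 1) => (l : ℕ) < j)]
  refine congr_arg₂ (· + ·) (sum_congr rfl fun l hl => ?_) (sum_congr ?_ fun l hl => ?_)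
  · rw [max_eq_left (hlo l (mem_filter.1 hl).2), mul_comm]
  · exact filter_congr fun l _ => not_lt
  · rw [max_eq_right (hhi l (mem_filter.1 hl).2)]

end Vale.Agent.P166F
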