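import Vale.Agent.P166F.Sys

/-!
P166: elementary facts about the perturbed log-sums and replica averages of a finite system.
-/

namespace Vale.Agent.P166F

open MeasureTheory ProbabilityTheory
open scoped RealInnerProductSpace

variable {J : Type} [Fintype J] [DecidableEq J] {P : ℕ}

namespace Sys

/-- The disorder together with the Gaussian fields. -/
noncomputable def full (S : Sys J) (P : ℕ) : Measure (S.Ω × EuclideanSpace ℝ (GIdx J P S.D)) :=
  S.law.prod (stdGaussian (EuclideanSpace ℝ (GIdx J P S.D)))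

instance (S : Sys J) (P : ℕ) : IsProbabilityMeasure (S.full P) := by unfold full; infer_instance

lemma measurable_field (S : Sys J) (x : S.X) (e : Mon J P) :
    Measurable fun z : S.Ω × EuclideanSpace ℝ (GIdx J P S.D) => S.field z.1 z.2 x e := by
  unfold Sys.field
  refine Finset.measurable_fun_sum _ fun i _ => ?_
  refine Measurable.mul ?_ (Finset.measurable_fun_prod _ fun j _ =>
    Finset.measurable_fun_prod _ fun t _ => ?_)
  · exact (by fun_prop : Continuous fun g : EuclideanSpace ℝ (GIdx J P S.D) => g ⟨e, i⟩).measurable.comp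
      measurable_snd
  · exact ((by fun_prop : Continuous fun u : EuclideanSpace ℝ (Fin S.D) => u (i j t)).measurable.comp
      (S.measV x j)).comp measurable_fst

lemma measurable_ham (S : Sys J) (s : ℝ) (y : CIdx J P → ℝ) (x : S.X) :
    Measurable fun z : S.Ω × EuclideanSpace ℝ (GIdx J P S.D) => S.ham s y z.1 z.2 x := by
  unfold Sys.ham
  refine (Finset.measurable_fun_sum _ fun e _ => (S.measurable_field x e).const_mul _).add
    ((Finset.measurable_fun_sum _ fun j _ => ?_).const_mul _)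
  exact (((S.measV x j).comp measurable_fst).norm.pow_const 2).const_mul _

/-- The coefficients of one field have total square at most one. -/
lemma sum_coef_sq_le (S : Sys J) (ω : S.Ω) (x : S.X) (e : Mon J P) :
    ∑ i : (j : J) → Fin (e.1 j : ℕ) → Fin S.D, (∏ j, ∏ t, S.v ω x j (i j t)) ^ 2 ≤ 1 := by
  set c : ((j : J) → Fin (e.1 j : ℕ) → Fin S.D) → ℝ := fun i => ∏ j, ∏ t, S.v ω x j (i j t)
  change ∑ i, c i ^ 2 ≤ 1
  have h1 : ∀ j, ∑ i : Fin (e.1 j : ℕ) → Fin S.D, ∏ t, S.v ω x j (i t) ^ 2 =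
      (‖S.v ω x j‖ ^ 2) ^ (e.1 j : ℕ) := fun j => by
    rw [← Fintype.prod_sum (fun (_ : Fin (e.1 j : ℕ)) d => S.v ω x j d ^ 2),
      EuclideanSpace.real_norm_sq_eq]
    simp
  calc ∑ i, c i ^ 2 = ∑ i : (j : J) → Fin (e.1 j : ℕ) → Fin S.D,
        ∏ j, ∏ t, S.v ω x j (i j t) ^ 2 := by simp only [c, ← Finset.prod_pow]
    _ = ∏ j, ∑ i : Fin (e.1 j : ℕ) → Fin S.D, ∏ t, S.v ω x j (i t) ^ 2 :=
        (Fintype.prod_sum (fun j (i : Fin (e.1 j : ℕ) → Fin S.D) =>
          ∏ t, S.v ω x j (i t) ^ 2)).symm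
    _ ≤ 1 := Finset.prod_le_one (fun j _ => Finset.sum_nonneg fun i _ =>
        Finset.prod_nonneg fun t _ => sq_nonneg _) fun j _ => by
          rw [h1]
          exact pow_le_one₀ (sq_nonneg _) (pow_le_one₀ (norm_nonneg _) (S.norm ω x j))

/-- A field is at most the norm of the Gaussian vector. -/
lemma abs_field_le (S : Sys J) (ω : S.Ω) (g : EuclideanSpace ℝ (GIdx J P S.D)) (x : S.X)
    (e : Mon J P) : |S.field ω g x e| ≤ ‖g‖ := by
  set c : ((j : J) → Fin (e.1 j : ℕ) → Fin S.D) → ℝ := fun i => ∏ j, ∏ t, S.v ω x j (i j t)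
  have hc : ∑ i, c i ^ 2 ≤ 1 := S.sum_coef_sq_le ω x e
  have hg : ∑ i, g ⟨e, i⟩ ^ 2 ≤ ‖g‖ ^ 2 := by
    rw [EuclideanSpace.real_norm_sq_eq, Fintype.sum_sigma]
    exact Finset.single_le_sum
      (f := fun e' : Mon J P => ∑ i : (j : J) → Fin (e'.1 j : ℕ) → Fin S.D, g ⟨e', i⟩ ^ 2)
      (fun _ _ => Finset.sum_nonneg fun _ _ => sq_nonneg _) (Finset.mem_univ e)
  have h := Finset.sum_mul_sq_le_sq_mul_sq Finset.univ (fun i => g ⟨e, i⟩) c
  refine abs_le_of_sq_le_sq ?_ (norm_nonneg _)
  refine h.trans ?_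
  calc (∑ i, g ⟨e, i⟩ ^ 2) * ∑ i, c i ^ 2 ≤ ‖g‖ ^ 2 * 1 :=
        mul_le_mul hg hc (Finset.sum_nonneg fun _ _ => sq_nonneg _) (sq_nonneg _)
    _ = ‖g‖ ^ 2 := mul_one _

/-- The size of a change of the coefficients. -/
noncomputable def coefMove (s : ℝ) (y y' : CIdx J P → ℝ) {D : ℕ}
    (g : EuclideanSpace ℝ (GIdx J P D)) : ℝ :=
  (∑ e, |y (Sum.inl e) - y' (Sum.inl e)|) * ‖g‖ + |s| * ∑ j, |y (Sum.inr j) - y' (Sum.inr j)|

lemma abs_ham_sub_le (S : Sys J) (s : ℝ) (y y' : CIdx J P → ℝ) (ω : S.Ω)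
    (g : EuclideanSpace ℝ (GIdx J P S.D)) (x : S.X) :
    |S.ham s y ω g x - S.ham s y' ω g x| ≤ coefMove s y y' g := by
  have e : S.ham s y ω g x - S.ham s y' ω g x =
      ∑ e, (y (Sum.inl e) - y' (Sum.inl e)) * S.field ω g x e +
        s * ∑ j, (y (Sum.inr j) - y' (Sum.inr j)) * ‖S.v ω x j‖ ^ 2 := by
    simp only [Sys.ham, sub_mul, Finset.sum_sub_distrib]
    ring
  rw [e, coefMove, Finset.sum_mul, Finset.mul_sum, Finset.mul_sum]
  refine (abs_add_le _ _).trans (add_le_add ?_ ?_)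
  · refine (Finset.abs_sum_le_sum_abs _ _).trans (Finset.sum_le_sum fun e _ => ?_)
    rw [abs_mul]
    exact mul_le_mul_of_nonneg_left (S.abs_field_le ω g x e) (abs_nonneg _)
  · refine (Finset.abs_sum_le_sum_abs _ _).trans (Finset.sum_le_sum fun j _ => ?_)
    rw [abs_mul, abs_mul, abs_of_nonneg (sq_nonneg ‖S.v ω x j‖)]
    exact mul_le_mul_of_nonneg_left
      (mul_le_of_le_one_right (abs_nonneg _) (pow_le_one₀ (norm_nonneg _) (S.norm ω x j)))
      (abs_nonneg _)

lemma logSum_le_add {X : Type} [Fintype X] [Nonempty X] {f f' : X → ℝ} {c : ℝ}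
    (h : ∀ x, f x ≤ f' x + c) :
    Real.log (∑ x, Real.exp (f x)) ≤ Real.log (∑ x, Real.exp (f' x)) + c := by
  have hp : 0 < ∑ x, Real.exp (f' x) := Finset.sum_pos (fun _ _ => Real.exp_pos _) Finset.univ_nonempty
  refine (Real.log_le_log (Finset.sum_pos (fun _ _ => Real.exp_pos _) Finset.univ_nonempty)
    (Finset.sum_le_sum fun x _ => Real.exp_le_exp.2 (h x))).trans_eq ?_
  simp only [Real.exp_add, ← Finset.sum_mul]
  rw [Real.log_mul hp.ne' (Real.exp_pos _).ne', Real.log_exp]

lemma abs_logZ_sub_le (S : Sys J) (s : ℝ) (y y' : CIdx J P → ℝ)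
    (z : S.Ω × EuclideanSpace ℝ (GIdx J P S.D)) :
    |S.logZ s y z - S.logZ s y' z| ≤ coefMove s y y' z.2 := by
  have h := fun x => abs_le.1 (S.abs_ham_sub_le s y y' z.1 z.2 x)
  rw [abs_le]
  constructor
  · have := logSum_le_add (f := fun x => S.logw z.1 x + S.ham s y' z.1 z.2 x)
      (f' := fun x => S.logw z.1 x + S.ham s y z.1 z.2 x) (c := coefMove s y y' z.2)
      fun x => by linarith [(h x).1]
    simp only [Sys.logZ]
    linarith
  · have := logSum_le_add (f := fun x => S.logw z.1 x + S.ham s y z.1 z.2 x)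
      (f' := fun x => S.logw z.1 x + S.ham s y' z.1 z.2 x) (c := coefMove s y y' z.2)
      fun x => by linarith [(h x).2]
    simp only [Sys.logZ]
    linarith

lemma measurable_logZ (S : Sys J) (s : ℝ) (y : CIdx J P → ℝ) :
    Measurable fun z : S.Ω × EuclideanSpace ℝ (GIdx J P S.D) => S.logZ s y z :=
  (Finset.measurable_fun_sum _ fun x _ =>
    (((S.measW x).comp measurable_fst).add (S.measurable_ham s y x)).exp).log

lemma integrable_coefMove (S : Sys J) (s : ℝ) (y y' : CIdx J P → ℝ) :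
    Integrable (fun z => coefMove s y y' z.2) (S.full P) :=
  (((IsGaussian.integrable_id (μ := stdGaussian (EuclideanSpace ℝ (GIdx J P S.D)))).norm.const_mul
    _).add (integrable_const _)).comp_snd S.law

lemma integrable_logZ (S : Sys J) (s : ℝ) (y : CIdx J P → ℝ) :
    Integrable (fun z => S.logZ s y z) (S.full P) := by
  have hne := S.neX
  have hb : Integrable (fun z : S.Ω × EuclideanSpace ℝ (GIdx J P S.D) =>
      coefMove s y 0 z.2 + ((∑ x, |S.logw z.1 x|) + Real.log (Fintype.card S.X))) (S.full P) :=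
    (S.integrable_coefMove s y 0).add
      (((integrable_finsetSum _ fun x _ => (S.intW x).abs).add (integrable_const _)).comp_fst _)
  refine hb.mono' (S.measurable_logZ s y).aestronglyMeasurable (Filter.Eventually.of_forall fun z => ?_)
  have h1 := abs_le.1 (S.abs_logZ_sub_le s y 0 z)
  have e0 : ∀ x, S.ham s (0 : CIdx J P → ℝ) z.1 z.2 x = 0 := fun x => by simp [Sys.ham]
  set A := ∑ x, |S.logw z.1 x|
  have hA : ∀ x, |S.logw z.1 x| ≤ A := fun x =>
    Finset.single_le_sum (fun i _ => abs_nonneg (S.logw z.1 i)) (Finset.mem_univ x)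
  have hcard : (0 : ℝ) < Fintype.card S.X := by exact_mod_cast Fintype.card_pos
  have hl : 0 ≤ Real.log (Fintype.card S.X) :=
    Real.log_nonneg (by exact_mod_cast Fintype.card_pos)
  have h2 : S.logZ s (0 : CIdx J P → ℝ) z ≤ A + Real.log (Fintype.card S.X) := by
    simp only [Sys.logZ, e0, add_zero]
    refine (logSum_le_add (f' := fun _ => (0 : ℝ)) (c := A) fun x => by
      linarith [le_abs_self (S.logw z.1 x), hA x]).trans_eq ?_
    simp [add_comm]
  have h3 : -A ≤ S.logZ s (0 : CIdx J P → ℝ) z := by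
    simp only [Sys.logZ, e0, add_zero]
    obtain ⟨x⟩ := hne
    refine le_trans ?_ (Real.log_le_log (Real.exp_pos (S.logw z.1 x))
      (Finset.single_le_sum (fun i _ => (Real.exp_pos (S.logw z.1 i)).le) (Finset.mem_univ x)))
    rw [Real.log_exp]
    linarith [neg_abs_le (S.logw z.1 x), hA x]
  rw [Real.norm_eq_abs, abs_le]
  constructor <;> linarith

/-- The mean move of the coefficients. -/
noncomputable def meanMove (D : ℕ) (s : ℝ) (y y' : CIdx J P → ℝ) : ℝ :=
  ∫ g : EuclideanSpace ℝ (GIdx J P D), coefMove s y y' g ∂stdGaussian _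

lemma integral_coefMove (S : Sys J) (s : ℝ) (y y' : CIdx J P → ℝ) :
    ∫ z, coefMove s y y' z.2 ∂S.full P = meanMove S.D s y y' := by
  simp [Sys.full, meanMove, integral_fun_snd]

theorem abs_press_sub_le (S : Sys J) (s : ℝ) (y y' : CIdx J P → ℝ) :
    |S.press P s y - S.press P s y'| ≤ meanMove S.D s y y' := by
  rw [← S.integral_coefMove s y y']
  show |∫ z, S.logZ s y z ∂S.full P - ∫ z, S.logZ s y' z ∂S.full P| ≤ _
  rw [← integral_sub (S.integrable_logZ s y) (S.integrable_logZ s y')]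
  exact abs_integral_le_integral_abs.trans (integral_mono
    ((S.integrable_logZ s y).sub (S.integrable_logZ s y')).abs (S.integrable_coefMove s y y')
    fun z => S.abs_logZ_sub_le s y y' z)

theorem abs_dev_sub_le (S : Sys J) (s : ℝ) (y y' : CIdx J P → ℝ) :
    |S.dev P s y - S.dev P s y'| ≤ 2 * meanMove S.D s y y' := by
  set c := S.press P s y
  set c' := S.press P s y'
  show |∫ z, |S.logZ s y z - c| ∂S.full P - ∫ z, |S.logZ s y' z - c'| ∂S.full P| ≤ _
  have i1 : Integrable (fun z => |S.logZ s y z - c|) (S.full P) :=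
    ((S.integrable_logZ s y).sub (integrable_const c)).abs
  have i2 : Integrable (fun z => |S.logZ s y' z - c'|) (S.full P) :=
    ((S.integrable_logZ s y').sub (integrable_const c')).abs
  rw [← integral_sub i1 i2]
  refine abs_integral_le_integral_abs.trans ?_
  refine (integral_mono (i1.sub i2).abs
    ((S.integrable_coefMove s y y').add (integrable_const |c - c'|)) fun z => ?_).trans ?_
  · refine (abs_abs_sub_abs_le_abs_sub _ _).trans ?_
    simp only [Pi.add_apply, Pi.sub_apply]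
    calc |(S.logZ s y z - c) - (S.logZ s y' z - c')|
        = |(S.logZ s y z - S.logZ s y' z) - (c - c')| := by ring_nf
      _ ≤ |S.logZ s y z - S.logZ s y' z| + |c - c'| := abs_sub _ _
      _ ≤ _ := add_le_add (S.abs_logZ_sub_le s y y' z) le_rfl
  · rw [integral_add' (S.integrable_coefMove s y y') (integrable_const _), S.integral_coefMove,
      integral_const, probReal_univ, one_smul]
    linarith [S.abs_press_sub_le s y y']

end Sys

end Vale.Agent.P166F
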