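import Vale.Agent.P166F.Up.Base
import Vale.Agent.P166F.Up.SysFacts
import Vale.Agent.P166N.TreeRoot
import Vale.Agent.P157.Low.ParisiX

/-!
P166: the enriched system of the upper bound through its trees: the value without coupling and the
meeting law.
-/

namespace Vale.Agent.P166F

open MeasureTheory ProbabilityTheory Filter
open scoped Topology
open Vale.Agent.P157 (Low.potUp Low.incr)
open Vale.Agent.P166 (spin)
open Vale.Agent.P166N (Node Leaf meet spinG nonempty_leaf lip_spinG)
open Vale.Agent.P166N.Spectrum (OrthInvLaw)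

variable {K N n k P : ℕ}

/-- The log-sum over the spins in a field, with energies `E`. -/
noncomputable def spinE (E : (Fin N → Bool) → ℝ) (h : EuclideanSpace ℝ (Fin N)) : ℝ :=
  Real.log (∑ σ, Real.exp (E σ + ∑ i, h i * spin (σ i)))

lemma lip_spinE (E : (Fin N → Bool) → ℝ) : Vale.Agent.P157.RSB.Lip (N : ℝ) (spinE E) := by
  have hp : ∀ h : EuclideanSpace ℝ (Fin N), 0 < ∑ σ : Fin N → Bool,
      Real.exp (E σ + ∑ i, h i * spin (σ i)) := fun h =>
    Finset.sum_pos (fun _ _ => Real.exp_pos _) Finset.univ_nonempty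
  refine ⟨by unfold spinE; fun_prop, Nat.cast_nonneg N, fun x y => ?_⟩
  have hb : ∀ σ : Fin N → Bool, |∑ i, y i * spin (σ i)| ≤ (N : ℝ) * ‖y‖ := fun σ => by
    refine (Finset.abs_sum_le_sum_abs _ _).trans ?_
    refine (Finset.sum_le_sum fun i _ => ?_).trans_eq
      (by simp : ∑ _i : Fin N, ‖y‖ = (N : ℝ) * ‖y‖)
    rw [abs_mul, show |spin (σ i)| = 1 by cases σ i <;> norm_num [spin], mul_one, ← Real.norm_eq_abs]
    exact PiLp.norm_apply_le y i
  have e : ∀ σ : Fin N → Bool, ∑ i, (x + y) i * spin (σ i) =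
      (∑ i, x i * spin (σ i)) + ∑ i, y i * spin (σ i) := fun σ => by
    simp only [PiLp.add_apply, add_mul, Finset.sum_add_distrib]
  have h1 := Sys.logSum_le_add (f := fun σ => E σ + ∑ i, (x + y) i * spin (σ i))
    (f' := fun σ => E σ + ∑ i, x i * spin (σ i)) (c := (N : ℝ) * ‖y‖) fun σ => by
      rw [e σ]; linarith [(abs_le.1 (hb σ)).2]
  have h2 := Sys.logSum_le_add (f := fun σ => E σ + ∑ i, x i * spin (σ i))
    (f' := fun σ => E σ + ∑ i, (x + y) i * spin (σ i)) (c := (N : ℝ) * ‖y‖) fun σ => by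
      rw [e σ]; linarith [(abs_le.1 (hb σ)).1]
  simp only [spinE]
  rw [abs_le]
  constructor <;> linarith

lemma exp_spinE (E : (Fin N → Bool) → ℝ) (h : EuclideanSpace ℝ (Fin N)) :
    Real.exp (spinE E h) = ∑ σ, Real.exp (E σ + ∑ i, h i * spin (σ i)) :=
  Real.exp_log (Finset.sum_pos (fun _ _ => Real.exp_pos _) Finset.univ_nonempty)

lemma spinE_free (h : EuclideanSpace ℝ (Fin N)) :
    spinE (fun _ => -((N : ℝ) * Real.log 2)) h = spinG N h := by
  have e : ∑ σ : Fin N → Bool, Real.exp (-((N : ℝ) * Real.log 2) + ∑ i, h i * spin (σ i)) =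
      ∏ i, Real.cosh (h i) := by
    simp only [Real.exp_add, Real.exp_sum, ← Finset.mul_sum]
    rw [show -((N : ℝ) * Real.log 2) = ∑ _i : Fin N, -Real.log 2 by simp, Real.exp_sum,
      ← Fintype.prod_sum (fun i (b : Bool) => Real.exp (h i * spin b)), ← Finset.prod_mul_distrib]
    refine Finset.prod_congr rfl fun i _ => ?_
    rw [Real.exp_neg, Real.exp_log two_pos, Fintype.sum_bool, Real.cosh_eq]
    simp only [spin, if_true, Bool.false_eq_true, if_false, mul_one, mul_neg]
    ring
  rw [spinE, e, Real.log_prod fun i _ => (Real.cosh_pos _).ne']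
  rfl

/-! ### Exponents and variances as sequences -/

variable {m r : Fin (k + 1) → ℝ}

lemma treeParam_seq (hm : Levels m) (hr : Monotone r) (hr0 : ∀ l, 0 ≤ r l) :
    TreeParam k (seqOf m) (fun j (_ : Fin N) => seqOf r j) := by
  refine ⟨fun j h1 h2 => ⟨?_, hm.ltOne _⟩, fun j h1 h2 => ?_, fun _ => hr0 _, fun j hj _ => hr ?_⟩
  · rw [← hm.zero]
    refine hm.strict ?_
    show (0 : ℕ) < min j k
    omega
  · refine hm.strict ?_
    show min j k < min (j + 1) k
    omega
  · show min j k ≤ min (j + 1) k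
    omega

/-- The nested value of independent spins is a sum over the sites. -/
theorem nestVal_spinG (hm : Levels m) : ∀ (j : ℕ), j ≤ k → ∀ x : EuclideanSpace ℝ (Fin N),
    nestVal j (fun i => seqOf m (k - j + i)) (fun i _ => seqOf r (k - j + i)) (spinG N) x =
      ∑ i, Vale.Agent.P157.RSB.casc (gaussianReal 0 1) m (Vale.Agent.P157.Low.sigd (Low.incr r))
        ((Vale.Agent.P157.Low.lv k).drop (k - j)) (fun y => Real.log (Real.cosh y)) (x i)
  | 0, _, x => by
    rw [nestVal, Nat.sub_zero, List.drop_of_length_le (Vale.Agent.P157.Low.length_lv k).le]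
    rfl
  | j + 1, hj, x => by
    have hpos : ∀ l : Fin (k + 1), l ≠ 0 → 0 < m l := fun l hl => by
      rw [← hm.zero]
      exact hm.strict (Fin.pos_iff_ne_zero.2 hl)
    set σ := Vale.Agent.P157.Low.sigd (Low.incr r)
    set u : ℝ → ℝ := fun y => Real.log (Real.cosh y)
    set A := Vale.Agent.P157.RSB.casc (gaussianReal 0 1) m σ
      ((Vale.Agent.P157.Low.lv k).drop (k - j)) u
    set l0 : Fin (k + 1) := ⟨k - j, by omega⟩ with hl0
    have hne : l0 ≠ 0 := by
      rw [ne_eq, Fin.ext_iff, Fin.val_zero]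
      show ¬(k - j = 0)
      omega
    have e1 : seqOf m (k - (j + 1) + 1) = m l0 := by
      rw [seqOf]; congr 1; ext; show min (k - (j + 1) + 1) k = k - j; omega
    have ed : seqOf r (k - (j + 1) + 1) - seqOf r (k - (j + 1) + 0) = Low.incr r l0 := by
      rw [Low.incr, dif_neg (show ¬((l0 : ℕ) = 0) by show ¬(k - j = 0); omega), seqOf, seqOf]
      congr 1 <;> congr 1 <;> ext
      · show min (k - (j + 1) + 1) k = k - j; omega
      · show min (k - (j + 1) + 0) k = k - j - 1; omega
    have eseq : ∀ (f : Fin (k + 1) → ℝ), (fun i => seqOf f (k - (j + 1) + (i + 1))) =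
        fun i => seqOf f (k - j + i) := fun f => funext fun i => by congr 1; omega
    have eseq' : (fun i (_ : Fin N) => seqOf r (k - (j + 1) + (i + 1))) =
        fun i (_ : Fin N) => seqOf r (k - j + i) := funext fun i => by
      funext _; congr 1; omega
    have hw := fun i : Fin N => Vale.Agent.P157.RSB.casc_wgt (σ := σ) (i := l0)
      (ls := (Vale.Agent.P157.Low.lv k).drop (k - j))
      (by
        rw [← Vale.Agent.P157.Low.drop_lv (by omega : j + 1 ≤ k)]
        exact Vale.Agent.P157.Low.good_drop (Vale.Agent.P157.Low.good_lv hpos _) _)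
      (⟨(Real.continuous_cosh.log fun y => (Real.cosh_pos y).ne').measurable, zero_le_one, fun a b => by
        rw [one_mul, Real.norm_eq_abs]; exact Vale.Agent.P157.RSB.log_cosh_lip a b⟩ :
        Vale.Agent.P157.RSB.Lip 1 u) (x i)
    simp only [nestVal, eseq, eseq', e1]
    rw [Vale.Agent.P157.Low.drop_lv (by omega : j + 1 ≤ k)]
    have hfun : (fun z : EuclideanSpace ℝ (Fin N) => Real.exp (m l0 * nestVal j
        (fun i => seqOf m (k - j + i)) (fun i _ => seqOf r (k - j + i)) (spinG N)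
        (x + WithLp.toLp 2 fun i => Real.sqrt (seqOf r (k - (j + 1) + 1) - seqOf r (k - (j + 1) + 0)) * z i))) =
        fun z => ∏ i, Real.exp (m l0 * A (x i + σ l0 (z i))) := funext fun z => by
      rw [nestVal_spinG hm j (by omega), Finset.mul_sum, Real.exp_sum]
      simp only [PiLp.add_apply, ed]
      rfl
    rw [hfun]
    have hint : ∫ z : EuclideanSpace ℝ (Fin N), ∏ i, Real.exp (m l0 * A (x i + σ l0 (z i)))
        ∂stdGaussian (EuclideanSpace ℝ (Fin N)) =
        ∏ i, ∫ y, Real.exp (m l0 * A (x i + σ l0 y)) ∂gaussianReal 0 1 := by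
      rw [← map_pi_eq_stdGaussian, integral_map (by fun_prop) ?_]
      · exact integral_fintype_prod_eq_prod (fun i y => Real.exp (m l0 * A (x i + σ l0 y)))
      · exact (Finset.measurable_fun_prod _ fun i _ => ((hw i).meas.comp
          (by fun_prop : Measurable fun z : EuclideanSpace ℝ (Fin N) => z i)).const_mul _ |>.exp).aestronglyMeasurable
    rw [hint, Real.log_prod fun i _ => (hw i).pos.ne', Finset.sum_div]
    rfl

/-- The tree value of free spins. -/
theorem nestRoot_spinG (hm : Levels m) :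
    nestRoot k (seqOf m) (fun j (_ : Fin N) => seqOf r j) (spinG N) = N * Low.potUp m (Low.incr r) (fun y => Real.log (Real.cosh y)) (k + 1) 0 := by
  have hpos : ∀ l : Fin (k + 1), l ≠ 0 → 0 < m l := fun l hl => by
    rw [← hm.zero]
    exact hm.strict (Fin.pos_iff_ne_zero.2 hl)
  set A := Vale.Agent.P157.RSB.casc (gaussianReal 0 1) m (Vale.Agent.P157.Low.sigd (Low.incr r))
    (Vale.Agent.P157.Low.lv k) (fun y => Real.log (Real.cosh y))
  have e0 : seqOf r 0 = Low.incr r 0 := by
    simp [Low.incr, seqOf]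
  have h : ∀ x : EuclideanSpace ℝ (Fin N),
      nestVal k (seqOf m) (fun j _ => seqOf r j) (spinG N) x = ∑ i, A (x i) := fun x => by
    have := nestVal_spinG (r := r) hm k le_rfl x
    simpa using this
  have hA : Vale.Agent.P157.RSB.Lip 1 A :=
    Vale.Agent.P157.RSB.Lip.casc (Vale.Agent.P157.Low.good_lv hpos _)
      ⟨(Real.continuous_cosh.log fun y => (Real.cosh_pos y).ne').measurable, zero_le_one, fun a b => by
        rw [one_mul, Real.norm_eq_abs]; exact Vale.Agent.P157.RSB.log_cosh_lip a b⟩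
  have hi : Integrable (fun y => A (Real.sqrt (Low.incr r 0) * y)) (gaussianReal 0 1) := by
    refine ((integrable_const |A 0|).add
      ((Integrable.abs (IsGaussian.integrable_id (μ := gaussianReal 0 1))).const_mul
        (Real.sqrt (Low.incr r 0)))).mono' (hA.meas.comp (by fun_prop)).aestronglyMeasurable
      (Eventually.of_forall fun y => ?_)
    have h1 := hA.lip 0 (Real.sqrt (Low.incr r 0) * y)
    rw [zero_add, one_mul, Real.norm_eq_abs, abs_mul, abs_of_nonneg (Real.sqrt_nonneg _)] at h1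
    simp only [Pi.add_apply, id, Real.norm_eq_abs]
    linarith [abs_sub_abs_le_abs_sub (A (Real.sqrt (Low.incr r 0) * y)) (A 0)]
  simp only [nestRoot, h, e0]
  rw [Vale.Agent.P157.Low.potUp_root (fun l hl => (hpos l hl).ne') hm.zero,
    integral_finsetSum _ fun i _ => ?_]
  · have : ∀ i : Fin N, ∫ z : EuclideanSpace ℝ (Fin N), A (Real.sqrt (Low.incr r 0) * z i)
        ∂stdGaussian (EuclideanSpace ℝ (Fin N)) =
        ∫ y, A (Real.sqrt (Low.incr r 0) * y) ∂gaussianReal 0 1 := fun i => by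
      have hmp := Vale.Agent.P157.measurePreserving_coord (N := N) i
      rw [← hmp.map_eq, integral_map hmp.measurable.aemeasurable (by
        rw [hmp.map_eq]; exact hi.aestronglyMeasurable)]
    simp only [this, Finset.sum_const, Finset.card_univ, Fintype.card_fin, nsmul_eq_mul]
    rfl
  · exact (Vale.Agent.P157.measurePreserving_coord (N := N) i).integrable_comp_of_integrable hi

/-- The energy of the spins, without fields and weights. -/
noncomputable def uEn (a : Atoms K) (blk : Fin N → Fin K) (t s : ℝ) (y : CIdx (Fin K) P → ℝ)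
    (U : Fin N → Fin N → ℝ) (g : EuclideanSpace ℝ (GIdx (Fin K) P N)) (σ : Fin N → Bool) : ℝ :=
  t * N / 2 * ∑ i, a.lam i * ‖blockVec blk U σ i‖ ^ 2 - N * Real.log 2 +
    (∑ e : Mon (Fin K) P, y (Sum.inl e) *
      (∑ i : (j : Fin K) → Fin (e.1 j : ℕ) → Fin N,
        g ⟨e, i⟩ * ∏ j, ∏ u, toBall (blockVec blk U σ j) (i j u)) +
      s * ∑ j, y (Sum.inr j) * ‖toBall (blockVec blk U σ j)‖ ^ 2)

variable {a : Atoms K} {blk : Fin N → Fin K} {ν : Measure (Fin N → Fin N → ℝ)}

/-- At a fixed rotation and fixed Gaussians the log-sum is the log-average of a tree. -/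
lemma exp_logw_ham (hν : OrthInvLaw N ν) (hn : 1 ≤ n) (t s : ℝ) (y : CIdx (Fin K) P → ℝ)
    {ω : UOmega N n k} (hv : ∀ u, 0 < ω.2.1 u) (g : EuclideanSpace ℝ (GIdx (Fin K) P N))
    (σ : Fin N → Bool) (l : Leaf n k) :
    Real.exp ((uSys a blk hν hn t m r).logw ω (σ, l) + (uSys a blk hν hn t m r).ham s y ω g (σ, l)) =
      wgt n k (seqOf m) ω.2.1 l / (∑ l', wgt n k (seqOf m) ω.2.1 l') *
        Real.exp (uEn a blk t s y ω.1 g σ +
          ∑ i, leafPt k (fun j _ => seqOf r j) l ω.2.2 i * spin (σ i)) := by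
  have := nonempty_leaf hn k
  have hw := wgt_pos (m := seqOf m) hn hv
  have hW : 0 < wgt n k (seqOf m) ω.2.1 l / ∑ l', wgt n k (seqOf m) ω.2.1 l' :=
    div_pos (hw l) (Finset.sum_pos (fun l _ => hw l) Finset.univ_nonempty)
  show Real.exp (uLogw a blk t m r ω (σ, l) + (∑ e : Mon (Fin K) P, y (Sum.inl e) *
      (∑ i : (j : Fin K) → Fin (e.1 j : ℕ) → Fin N,
        g ⟨e, i⟩ * ∏ j, ∏ u, toBall (blockVec blk ω.1 σ j) (i j u)) +
      s * ∑ j, y (Sum.inr j) * ‖toBall (blockVec blk ω.1 σ j)‖ ^ 2)) = _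
  conv_rhs => arg 1; rw [← Real.exp_log hW]
  rw [← Real.exp_add]
  congr 1
  simp only [uLogw, uEn]
  ring

lemma sum_leaf_exp (hν : OrthInvLaw N ν) (hn : 1 ≤ n) (t s : ℝ) (y : CIdx (Fin K) P → ℝ)
    {ω : UOmega N n k} (hv : ∀ u, 0 < ω.2.1 u) (g : EuclideanSpace ℝ (GIdx (Fin K) P N)) (l : Leaf n k) :
    ∑ σ, Real.exp ((uSys a blk hν hn t m r).logw ω (σ, l) +
        (uSys a blk hν hn t m r).ham s y ω g (σ, l)) =
      wgt n k (seqOf m) ω.2.1 l * Real.exp (spinE (uEn a blk t s y ω.1 g)
        (leafPt k (fun j _ => seqOf r j) l ω.2.2)) / ∑ l', wgt n k (seqOf m) ω.2.1 l' := by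
  rw [Finset.sum_congr rfl fun σ _ => exp_logw_ham hν hn t s y hv g σ l, ← Finset.mul_sum, exp_spinE]
  ring

theorem uSys_press_zero_aux (a : Atoms K) (blk : Fin N → Fin K)
    {ν : Measure (Fin N → Fin N → ℝ)} (hν : OrthInvLaw N ν) {m r : Fin (k + 1) → ℝ}
    (hm : Levels m) (hr : Monotone r) (hr0 : ∀ l, 0 ≤ r l) (P : ℕ) (s : ℝ) :
    Tendsto (fun n => (uSys a blk hν (n := n + 1) (by omega) 0 m r).press P s 0) atTop
      (𝓝 (N * Low.potUp m (Low.incr r) (fun y => Real.log (Real.cosh y)) (k + 1) 0)) := by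
  have := hν.prob
  obtain ⟨L, hL⟩ := lip_spinG N
  rw [← nestRoot_spinG (N := N) (r := r) hm]
  refine ((tendsto_treeLog (treeParam_seq hm hr hr0) hL).comp (tendsto_add_atTop_nat 1)).congr
    fun n => ?_
  simp only [Function.comp]
  set S := uSys a blk hν (n := n + 1) (by omega : 1 ≤ n + 1) 0 m r
  set γ := stdGaussian (EuclideanSpace ℝ (GIdx (Fin K) P N))
  set T := treeLog (n := n + 1) k (seqOf m) (fun j (_ : Fin N) => seqOf r j) (spinG N)
  have h : (fun z : UOmega N (n + 1) k × EuclideanSpace ℝ (GIdx (Fin K) P N) => S.logZ s 0 z)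
      =ᵐ[(ν.prod (markLaw (n + 1) k (Fin N))).prod γ] fun z => T z.1.2 := by
    have hv : ∀ᵐ w ∂markLaw (n + 1) k (Fin N), ∀ u, 0 < w.1 u := by
      unfold markLaw
      exact Measure.quasiMeasurePreserving_fst.ae ae_node_pos'
    filter_upwards [Measure.quasiMeasurePreserving_fst.ae (Measure.quasiMeasurePreserving_snd.ae hv)]
      with z hz
    have hen : uEn a blk 0 s (0 : CIdx (Fin K) P → ℝ) z.1.1 z.2 = fun _ => -((N : ℝ) * Real.log 2) := by
      funext σ
      simp [uEn]
    show Real.log (∑ x : (Fin N → Bool) × Leaf (n + 1) k,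
      Real.exp (S.logw z.1 x + S.ham s 0 z.1 z.2 x)) = _
    rw [Fintype.sum_prod_type, Finset.sum_comm,
      Finset.sum_congr rfl fun l _ => sum_leaf_exp hν (by omega) 0 s 0 hz z.2 l, ← Finset.sum_div, hen]
    simp only [T, treeLog, spinE_free]
  show _ = ∫ z, S.logZ s 0 z ∂(ν.prod (markLaw (n + 1) k (Fin N))).prod γ
  rw [integral_congr_ae h, integral_fun_fst (fun p : UOmega N (n + 1) k => T p.2), probReal_univ,
    one_smul, integral_fun_snd (μ := ν) T, probReal_univ, one_smul]

theorem uSys_meet_aux (a : Atoms K) (blk : Fin N → Fin K) {ν : Measure (Fin N → Fin N → ℝ)}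
    (hν : OrthInvLaw N ν) {m r : Fin (k + 1) → ℝ} (hm : Levels m) (hr : Monotone r)
    (hr0 : ∀ l, 0 ≤ r l) (t s : ℝ) (y : CIdx (Fin K) P → ℝ) (j : Fin (k + 1)) :
    Tendsto (fun n => (uSys a blk hν (n := n + 1) (by omega) t m r).avg s y 2 fun _ x =>
        if (j : ℕ) ≤ meet k (x 0).2 (x 1).2 then (1 : ℝ) else 0) atTop (𝓝 (1 - m j)) := by
  have := hν.prob
  set γ := stdGaussian (EuclideanSpace ℝ (GIdx (Fin K) P N))
  set R := fun i (_ : Fin N) => seqOf r i
  set G := fun p : (Fin N → Fin N → ℝ) × EuclideanSpace ℝ (GIdx (Fin K) P N) =>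
    spinE (uEn a blk t s y p.1 p.2)
  set μ : ∀ n, Measure ((Node (n + 1) k → ℝ) × (Option (Node (n + 1) k) → EuclideanSpace ℝ (Fin N))) :=
    fun n => markLaw (n + 1) k (Fin N) with hμ
  have hpos : ∀ n, ∀ᵐ w ∂μ n, ∀ u, 0 < w.1 u := fun n => by
    simp only [hμ]
    unfold markLaw
    exact Measure.quasiMeasurePreserving_fst.ae ae_node_pos'
  have hmeas : ∀ n, Measurable fun q : ((Fin N → Fin N → ℝ) × EuclideanSpace ℝ (GIdx (Fin K) P N)) ×
      ((Node (n + 1) k → ℝ) × (Option (Node (n + 1) k) → EuclideanSpace ℝ (Fin N))) =>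
      meetGe (n := n + 1) k (seqOf m) R (G q.1) j q.2 := fun n => by
    have hb : ∀ (σ : Fin N → Bool) (i : Fin K),
        Measurable fun U : Fin N → Fin N → ℝ => toBall (blockVec blk U σ i) := fun σ i =>
      (continuous_toBall.comp (continuous_blockVec blk σ i)).measurable
    have hen : ∀ σ, Measurable fun p : (Fin N → Fin N → ℝ) × EuclideanSpace ℝ (GIdx (Fin K) P N) =>
        uEn a blk t s y p.1 p.2 σ := fun σ => by
      unfold uEn
      refine ((Measurable.const_mul (Finset.measurable_fun_sum _ fun i _ =>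
        (((continuous_blockVec blk σ i).measurable.comp measurable_fst).norm.pow_const 2).const_mul _) _).sub_const
          _).add ((Finset.measurable_fun_sum _ fun e _ => Measurable.const_mul ?_ _).add
            ((Finset.measurable_fun_sum _ fun i _ =>
              (((hb σ i).comp measurable_fst).norm.pow_const 2).const_mul _).const_mul _))
      refine Finset.measurable_fun_sum _ fun i _ => Measurable.mul (by fun_prop)
        (Finset.measurable_fun_prod _ fun u _ => Finset.measurable_fun_prod _ fun v _ => ?_)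
      exact ((by fun_prop : Measurable fun x : EuclideanSpace ℝ (Fin N) => x (i u v)).comp
        (hb σ u)).comp measurable_fst
    have hle : ∀ l : Leaf (n + 1) k, Measurable fun q : ((Fin N → Fin N → ℝ) ×
        EuclideanSpace ℝ (GIdx (Fin K) P N)) × ((Node (n + 1) k → ℝ) ×
        (Option (Node (n + 1) k) → EuclideanSpace ℝ (Fin N))) =>
        wgt (n + 1) k (seqOf m) q.2.1 l * Real.exp (G q.1 (leafPt k R l q.2.2)) := fun l => by
      refine ((measurable_wgt k (seqOf m) l).comp (measurable_fst.comp measurable_snd)).mul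
        (Measurable.exp ?_)
      refine (Finset.measurable_fun_sum _ fun σ _ => ((hen σ).comp measurable_fst).add ?_ |>.exp).log
      exact Finset.measurable_fun_sum _ fun i _ => (((continuous_leafPt R l i).measurable).comp
        (measurable_snd.comp measurable_snd)).mul_const _
    refine Measurable.div (Finset.measurable_fun_sum _ fun l _ => Finset.measurable_fun_sum _
      fun l' _ => ?_) ((Finset.measurable_fun_sum _ fun l _ => hle l).pow_const 2)
    by_cases hh : (j : ℕ) ≤ meet k l l'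
    · simp only [if_pos hh]
      exact (hle l).mul (hle l')
    · simp only [if_neg hh]
      exact measurable_const
  have hbd : ∀ (n : ℕ) (H : EuclideanSpace ℝ (Fin N) → ℝ), ∀ᵐ w ∂μ n,
      0 ≤ meetGe (n := n + 1) k (seqOf m) R H j w ∧ meetGe (n := n + 1) k (seqOf m) R H j w ≤ 1 :=
    fun n H => (hpos n).mono fun w hw => by
      have := nonempty_leaf (n := n + 1) (by omega) k
      have h0 : ∀ l, 0 < wgt (n + 1) k (seqOf m) w.1 l * Real.exp (H (leafPt k R l w.2)) :=
        fun l => mul_pos (wgt_pos (by omega) hw l) (Real.exp_pos _)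
      have hS := Finset.sum_pos (fun l _ => h0 l) Finset.univ_nonempty
      refine ⟨div_nonneg (Finset.sum_nonneg fun l _ => Finset.sum_nonneg fun l' _ => ?_)
        (sq_nonneg _), ?_⟩
      · split_ifs
        exacts [(mul_pos (h0 l) (h0 l')).le, le_rfl]
      · rw [meetGe, div_le_one (pow_pos hS 2), sq, Finset.sum_mul_sum]
        exact Finset.sum_le_sum fun l _ => Finset.sum_le_sum fun l' _ => by
          split_ifs
          exacts [le_rfl, (mul_pos (h0 l) (h0 l')).le]
  have hlim : ∀ p, Tendsto (fun n => ∫ w, meetGe (n := n + 1) k (seqOf m) R (G p) j w ∂μ n) atTop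
      (𝓝 (1 - m j)) := fun p => by
    rcases Nat.eq_zero_or_pos (j : ℕ) with hj | hj
    · have hj' : j = 0 := Fin.ext hj
      rw [hj', hm.zero, sub_zero]
      refine tendsto_const_nhds.congr fun n => ?_
      have := nonempty_leaf (n := n + 1) (by omega) k
      rw [integral_congr_ae ((hpos n).mono fun w hw => show meetGe (n := n + 1) k (seqOf m) R (G p)
        ((0 : Fin (k + 1)) : ℕ) w = (1 : ℝ) from ?_)]
      · simp [hμ]
      · have hS : 0 < ∑ l, wgt (n + 1) k (seqOf m) w.1 l * Real.exp (G p (leafPt k R l w.2)) :=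
          Finset.sum_pos (fun l _ => mul_pos (wgt_pos (by omega) hw l) (Real.exp_pos _))
            Finset.univ_nonempty
        simp only [meetGe, Fin.val_zero, zero_le, if_true, ← Finset.mul_sum, ← Finset.sum_mul, ← sq]
        exact div_self (pow_pos hS 2).ne'
    · have h := (tendsto_meetGe (treeParam_seq (N := N) hm hr hr0) (lip_spinE _) (j := (j : ℕ))
        (G := G p) hj (by omega)).comp (tendsto_add_atTop_nat 1)
      rwa [show seqOf m (j : ℕ) = m j by rw [seqOf]; congr 1; ext; show min (j : ℕ) k = j; omega] at h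
  have hDCT : Tendsto (fun n => ∫ p, (∫ w, meetGe (n := n + 1) k (seqOf m) R (G p) j w ∂μ n)
      ∂ν.prod γ) atTop (𝓝 (∫ _p, (1 - m j) ∂ν.prod γ)) := by
    refine tendsto_integral_of_dominated_convergence (fun _ => 1)
      (fun n => (hmeas n).aestronglyMeasurable.integral_prod_right') (integrable_const _)
      (fun n => Eventually.of_forall fun p => ?_) (Eventually.of_forall hlim)
    refine (norm_integral_le_of_norm_le_const (C := 1) ((hbd n (G p)).mono fun w hw => ?_)).trans_eq
      (by simp [hμ])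
    rw [Real.norm_eq_abs, abs_of_nonneg hw.1]
    exact hw.2
  rw [show ∫ _p, (1 - m j) ∂ν.prod γ = 1 - m j by simp] at hDCT
  refine hDCT.congr fun n => ?_
  set S := uSys a blk hν (n := n + 1) (by omega : 1 ≤ n + 1) t m r
  set F := fun q : ((Fin N → Fin N → ℝ) × EuclideanSpace ℝ (GIdx (Fin K) P N)) ×
      ((Node (n + 1) k → ℝ) × (Option (Node (n + 1) k) → EuclideanSpace ℝ (Fin N))) =>
    meetGe (n := n + 1) k (seqOf m) R (G q.1) j q.2
  have hre : MeasurePreserving (fun z : UOmega N (n + 1) k × EuclideanSpace ℝ (GIdx (Fin K) P N) =>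
      ((z.1.1, z.2), z.1.2)) ((ν.prod (μ n)).prod γ) ((ν.prod γ).prod (μ n)) :=
    ((measurePreserving_prodAssoc ν γ (μ n)).symm MeasurableEquiv.prodAssoc).comp
      (((MeasurePreserving.id ν).prod (Measure.measurePreserving_swap (μ := μ n) (ν := γ))).comp
        (measurePreserving_prodAssoc ν (μ n) γ))
  have hFi : Integrable F ((ν.prod γ).prod (μ n)) := by
    refine Integrable.of_bound (hmeas n).aestronglyMeasurable 1
      ((Measure.ae_prod_iff_ae_ae ((measurableSet_le (hmeas n).norm measurable_const))).2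
        (Eventually.of_forall fun p => (hbd n (G p)).mono fun w hw => ?_))
    rw [Real.norm_eq_abs, abs_of_nonneg hw.1]
    exact hw.2
  rw [← integral_prod _ hFi, ← hre.map_eq, integral_map hre.measurable.aemeasurable
    (hmeas n).aestronglyMeasurable]
  refine integral_congr_ae ?_
  filter_upwards [Measure.quasiMeasurePreserving_fst.ae (Measure.quasiMeasurePreserving_snd.ae (hpos n))]
    with z hz
  have hw := wgt_pos (m := seqOf m) (by omega : 1 ≤ n + 1) hz
  set W := ∑ l', wgt (n + 1) k (seqOf m) z.1.2.1 l'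
  have hW : W ≠ 0 := by
    have := nonempty_leaf (n := n + 1) (by omega) k
    exact (Finset.sum_pos (fun l _ => hw l) Finset.univ_nonempty).ne'
  have hsum := fun l => sum_leaf_exp (a := a) (blk := blk) (m := m) (r := r) hν
    (by omega : 1 ≤ n + 1) t s y hz z.2 l
  set A := fun x : (Fin N → Bool) × Leaf (n + 1) k => Real.exp (S.logw z.1 x + S.ham s y z.1 z.2 x)
  set B := fun l : Leaf (n + 1) k => wgt (n + 1) k (seqOf m) z.1.2.1 l *
    Real.exp (spinE (uEn a blk t s y z.1.1 z.2) (leafPt k R l z.1.2.2))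
  have hA : ∀ l, ∑ σ, A (σ, l) = B l / W := fun l => hsum l
  have hnum : ∑ x : Fin 2 → ((Fin N → Bool) × Leaf (n + 1) k),
      (∏ i, A (x i)) * (if (j : ℕ) ≤ meet k (x 0).2 (x 1).2 then (1 : ℝ) else 0) =
      ∑ l, ∑ l', (if (j : ℕ) ≤ meet k l l' then B l * B l' else 0) / (W * W) := by
    rw [← (finTwoArrowEquiv _).symm.sum_comp]
    simp only [Fin.prod_univ_two, finTwoArrowEquiv, Equiv.coe_fn_symm_mk, piFinTwoEquiv,
      Matrix.cons_val_zero, Matrix.cons_val_one, Fintype.sum_prod_type]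
    rw [Finset.sum_comm]
    refine Finset.sum_congr rfl fun l _ => ?_
    calc _ = ∑ σ, ∑ l', ∑ σ', A (σ, l) * A (σ', l') *
          (if (j : ℕ) ≤ meet k l l' then (1 : ℝ) else 0) := Finset.sum_congr rfl fun σ _ => Finset.sum_comm
      _ = ∑ l', ∑ σ, ∑ σ', A (σ, l) * A (σ', l') *
          (if (j : ℕ) ≤ meet k l l' then (1 : ℝ) else 0) := Finset.sum_comm
      _ = _ := Finset.sum_congr rfl fun l' _ => by
          simp only [← Finset.sum_mul, ← Finset.mul_sum, hA]
          split_ifs <;> simp [div_mul_div_comm]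
  have hden : ∑ x, A x = (∑ l, B l) / W := by
    rw [Fintype.sum_prod_type, Finset.sum_comm, Finset.sum_div]
    exact Finset.sum_congr rfl fun l _ => hA l
  show _ = (∑ x : Fin 2 → ((Fin N → Bool) × Leaf (n + 1) k),
    (∏ i, A (x i)) * (if (j : ℕ) ≤ meet k (x 0).2 (x 1).2 then (1 : ℝ) else 0)) / (∑ x, A x) ^ 2
  rw [hnum, hden]
  simp only [← Finset.sum_div, div_pow, ← sq]
  show (∑ l, ∑ l', if (j : ℕ) ≤ meet k l l' then B l * B l' else 0) / (∑ l, B l) ^ 2 = _
  have hW2 : W ^ 2 ≠ 0 := pow_ne_zero 2 hW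
  field_simp

end Vale.Agent.P166F
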