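import Vale.Agent.P166F.Up.Step

/-!
P166: the dependence of the enriched averages on the coefficients and on the inverse temperature.
-/

namespace Vale.Agent.P166F

open MeasureTheory ProbabilityTheory Filter
open scoped RealInnerProductSpace Topology
open Vale.Agent.P166 (spin)
open Vale.Agent.P166N (Node Leaf)
open Vale.Agent.P166N.Spectrum (OrthInvLaw)

variable {J : Type} [Fintype J] [DecidableEq J] {P : ℕ}

lemma gibW_congr {X : Type} [Fintype X] {e e' : X → ℝ} (h : ∀ x, e x = e' x) : gibW e = gibW e' :=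
  congrArg gibW (funext h)

lemma repAvg_one {X : Type} [Fintype X] (e : X → ℝ) (Θ : (Fin 1 → X) → ℝ) :
    repAvg e Θ = ∑ x, gibW e x * Θ fun _ => x :=
  Fintype.sum_equiv (Equiv.funUnique (Fin 1) X) _ _ fun x => by
    have h : (fun _ => x 0) = x := funext fun i => congrArg x (Subsingleton.elim 0 i)
    simp [h]

lemma integral_inner_zero {E : Type} [NormedAddCommGroup E] [InnerProductSpace ℝ E]
    [FiniteDimensional ℝ E] [MeasurableSpace E] [BorelSpace E] (v : E) :
    ∫ g, ⟪g, v⟫ ∂stdGaussian E = 0 := by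
  have h := integral_gram_eq (X := Unit) (fun _ => v) (fun _ => -v) (fun _ _ => by simp)
    (F := fun u => u ()) (measurable_pi_apply ())
  simp only [inner_neg_right, integral_neg] at h
  linarith

namespace Sys

/-- The exponents at a point of the randomness. -/
noncomputable def expOf (S : Sys J) (s : ℝ) (y : CIdx J P → ℝ)
    (z : S.Ω × EuclideanSpace ℝ (GIdx J P S.D)) (x : S.X) : ℝ :=
  S.logw z.1 x + S.ham s y z.1 z.2 x

lemma measurable_expOf (S : Sys J) (s : ℝ) (y : CIdx J P → ℝ) (x : S.X) :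
    Measurable fun z => S.expOf s y z x :=
  ((S.measW x).comp measurable_fst).add (S.measurable_ham s y x)

lemma avg_eq_repAvg (S : Sys J) (s : ℝ) (y : CIdx J P → ℝ) {q : ℕ}
    (Θ : S.Ω → (Fin q → S.X) → ℝ) :
    S.avg s y q Θ = ∫ z, repAvg (S.expOf s y z) (Θ z.1) ∂S.full P :=
  integral_congr_ae (Filter.Eventually.of_forall fun z => repAvg_eq (S.expOf s y z) (Θ z.1))

lemma abs_repAvg_sub_le {X : Type} [Fintype X] [Nonempty X] {Θ : (Fin 2 → X) → ℝ}
    (hΘ : ∀ x, |Θ x| ≤ 1) {e e' : X → ℝ} {c : ℝ} (h : ∀ x, |e' x - e x| ≤ c) {b : ℝ} (hb : 0 < b) :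
    |repAvg e' Θ - repAvg e Θ| ≤ b + 4 * c / b := by
  obtain ⟨d, rfl⟩ : ∃ d : X → ℝ, e' = fun x => e x + d x := ⟨fun x => e' x - e x, by funext x; ring⟩
  simp only [add_sub_cancel_left] at h
  rw [repAvg_add]
  refine (abs_tilt_sub_le (pairW_pos e) (sum_pairW e) (fun x => ∑ l, d (x l)) Θ hΘ).trans ?_
  set w := Real.log (∑ x, pairW e x * Real.exp (∑ l, d (x l))) - ∑ x, pairW e x * ∑ l, d (x l)
  have hd : ∀ x : Fin 2 → X, |∑ l, d (x l)| ≤ 2 * c := fun x => by
    refine (Finset.abs_sum_le_sum_abs _ _).trans ((Finset.sum_le_sum fun l _ => h (x l)).trans ?_)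
    simp [two_mul]
  have h0 : 0 ≤ w := sub_nonneg.2 (avg_le_log (pairW_pos e) (sum_pairW e) _)
  have hw : w ≤ 4 * c := by
    have h1 : Real.log (∑ x, pairW e x * Real.exp (∑ l, d (x l))) ≤ 2 * c := by
      rw [Real.log_le_iff_le_exp (sum_exp_pos (pairW_pos e) (sum_pairW e) _)]
      calc _ ≤ ∑ x, pairW e x * Real.exp (2 * c) := Finset.sum_le_sum fun x _ =>
            mul_le_mul_of_nonneg_left (Real.exp_le_exp.2 ((le_abs_self _).trans (hd x)))
              (pairW_pos e x).le
        _ = _ := by rw [← Finset.sum_mul, sum_pairW, one_mul]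
    have h2 : -(2 * c) ≤ ∑ x, pairW e x * ∑ l, d (x l) := by
      calc -(2 * c) = ∑ x, pairW e x * -(2 * c) := by rw [← Finset.sum_mul, sum_pairW, one_mul]
        _ ≤ _ := Finset.sum_le_sum fun x _ =>
            mul_le_mul_of_nonneg_left (abs_le.1 (hd x)).1 (pairW_pos e x).le
    simp only [w]
    linarith
  have e : b + w / b - 2 * Real.sqrt w = (b - Real.sqrt w) ^ 2 / b := by
    field_simp
    rw [sub_sq, Real.sq_sqrt h0]
    ring
  have h3 := div_le_div_of_nonneg_right hw hb.le
  have h4 : 0 ≤ (b - Real.sqrt w) ^ 2 / b := by positivity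
  linarith

lemma integrable_repAvg_two (S : Sys J) (s : ℝ) (y : CIdx J P → ℝ) {Θ : (Fin 2 → S.X) → ℝ}
    (hΘ : ∀ x, |Θ x| ≤ 1) : Integrable (fun z => repAvg (S.expOf s y z) Θ) (S.full P) := by
  refine Integrable.of_bound ?_ 1 (Filter.Eventually.of_forall fun z => abs_repAvg_le _ hΘ)
  refine Measurable.aestronglyMeasurable (Finset.measurable_fun_sum _ fun x _ =>
    (Finset.measurable_fun_prod _ fun l _ => ?_).mul_const _)
  exact (S.measurable_expOf s y (x l)).exp.div
    (Finset.measurable_fun_sum _ fun x' _ => (S.measurable_expOf s y x').exp)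

theorem abs_avg_sub_le (S : Sys J) (s : ℝ) (y y' : CIdx J P → ℝ) {Θ : (Fin 2 → S.X) → ℝ}
    (hΘ : ∀ x, |Θ x| ≤ 1) {b : ℝ} (hb : 0 < b) :
    |S.avg s y' 2 (fun _ x => Θ x) - S.avg s y 2 (fun _ x => Θ x)| ≤
      b + 4 * meanMove S.D s y' y / b := by
  have i := S.integrable_repAvg_two (P := P) s
  simp only [avg_eq_repAvg]
  rw [← integral_sub (i y' hΘ) (i y hΘ)]
  refine abs_integral_le_integral_abs.trans ((integral_mono ((i y' hΘ).sub (i y hΘ)).abs
    ((integrable_const b).add (((S.integrable_coefMove s y' y).const_mul 4).div_const b)) fun z =>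
      abs_repAvg_sub_le hΘ (c := coefMove s y' y z.2) (fun x => ?_) hb).trans (le_of_eq ?_))
  · simp only [expOf, add_sub_add_left_eq_sub]
    exact S.abs_ham_sub_le s y' y z.1 z.2 x
  · rw [integral_add' (integrable_const _)
      (((S.integrable_coefMove s y' y).const_mul 4).div_const b), integral_div, integral_const_mul,
      S.integral_coefMove, integral_const, probReal_univ, one_smul]

/-- The coefficients of the perturbing field. -/
noncomputable def fieldVec (S : Sys J) (y : CIdx J P → ℝ) (ω : S.Ω) (x : S.X) :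
    EuclideanSpace ℝ (GIdx J P S.D) :=
  WithLp.toLp 2 fun c => y (Sum.inl c.1) * ∏ j, ∏ t, S.v ω x j (c.2 j t)

lemma inner_fieldVec (S : Sys J) (y : CIdx J P → ℝ) (ω : S.Ω) (x : S.X)
    (g : EuclideanSpace ℝ (GIdx J P S.D)) :
    ⟪g, S.fieldVec y ω x⟫ = ∑ e, y (Sum.inl e) * S.field ω g x e := by
  simp only [fieldVec, PiLp.inner_apply, RCLike.inner_apply, conj_trivial, Fintype.sum_sigma,
    Sys.field, Finset.mul_sum]
  exact Finset.sum_congr rfl fun e _ => Finset.sum_congr rfl fun i _ => by ring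

lemma norm_fieldVec_le (S : Sys J) (y : CIdx J P → ℝ) (ω : S.Ω) (x : S.X) :
    ‖S.fieldVec y ω x‖ ^ 2 ≤ ∑ e, y (Sum.inl e) ^ 2 := by
  rw [EuclideanSpace.real_norm_sq_eq, Fintype.sum_sigma]
  refine Finset.sum_le_sum fun e _ => ?_
  simp only [fieldVec, mul_pow, ← Finset.mul_sum]
  exact mul_le_of_le_one_right (sq_nonneg _) (S.sum_coef_sq_le ω x e)

/-- The perturbation raises the mean log-sum, and by no more than its variance and its tilts. -/
theorem press_perturb (S : Sys J) {s : ℝ} (hs : 0 ≤ s) {y : CIdx J P → ℝ}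
    (hy : ∀ j, 0 ≤ y (Sum.inr j)) :
    S.press P s 0 ≤ S.press P s y ∧
      S.press P s y ≤ S.press P s 0 + (∑ e, y (Sum.inl e) ^ 2) / 2 + s * ∑ j, y (Sum.inr j) := by
  have e0 : ∀ z, S.logZ s (0 : CIdx J P → ℝ) z = lsum (S.logw z.1) := fun z => by
    simp [Sys.logZ, Sys.ham, lsum]
  have hpt : ∀ ω : S.Ω,
      lsum (S.logw ω) ≤ ∫ g, S.logZ s y (ω, g) ∂stdGaussian _ ∧
        ∫ g, S.logZ s y (ω, g) ∂stdGaussian _ ≤
          lsum (S.logw ω) + ((∑ e, y (Sum.inl e) ^ 2) / 2 + s * ∑ j, y (Sum.inr j)) := fun ω => by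
    set b := fun x => S.logw ω x + s * ∑ j, y (Sum.inr j) * ‖S.v ω x j‖ ^ 2 with hb
    have e1 : ∀ g, S.logZ s y (ω, g) = lsum b + addLog (gibW b) (S.fieldVec y ω) g := fun g => by
      rw [addLog, ← lsum_add]
      refine congrArg lsum (funext fun x => ?_)
      simp only [hb, inner_fieldVec, Sys.ham]
      ring
    have hi := integrable_addLog (gibW_pos b) (sum_gibW b) (S.fieldVec y ω)
    simp only [e1]
    rw [integral_add (integrable_const _) hi, integral_const, probReal_univ, one_smul]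
    have hlo : 0 ≤ ∫ g, addLog (gibW b) (S.fieldVec y ω) g ∂stdGaussian _ := by
      have iA : Integrable (fun g => ∑ x, gibW b x * ⟪g, S.fieldVec y ω x⟫) (stdGaussian _) :=
        integrable_finsetSum _ fun x _ => (integrable_inner (S.fieldVec y ω x)).const_mul _
      refine le_trans (le_of_eq ?_) (integral_mono iA hi fun g =>
        avg_le_log (gibW_pos b) (sum_gibW b) fun x => ⟪g, S.fieldVec y ω x⟫)
      rw [integral_finsetSum _ fun x _ => (integrable_inner (S.fieldVec y ω x)).const_mul _]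
      refine (Finset.sum_eq_zero fun x _ => ?_).symm
      rw [integral_const_mul, integral_inner_zero, mul_zero]
    have hhi := integral_addLog_le (gibW_pos b) (sum_gibW b) (S.fieldVec y ω)
      (S.norm_fieldVec_le y ω)
    have hl0 : ∀ x, 0 ≤ s * ∑ j, y (Sum.inr j) * ‖S.v ω x j‖ ^ 2 := fun x =>
      mul_nonneg hs (Finset.sum_nonneg fun j _ => mul_nonneg (hy j) (sq_nonneg _))
    have hl1 : ∀ x, s * ∑ j, y (Sum.inr j) * ‖S.v ω x j‖ ^ 2 ≤ s * ∑ j, y (Sum.inr j) := fun x =>
      mul_le_mul_of_nonneg_left (Finset.sum_le_sum fun j _ =>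
        mul_le_of_le_one_right (hy j) (pow_le_one₀ (norm_nonneg _) (S.norm ω x j))) hs
    have h1 : lsum (S.logw ω) ≤ lsum b := by
      have h := logSum_le_add (f := S.logw ω) (f' := b) (c := 0)
        fun x => by simp only [hb]; linarith [hl0 x]
      simpa [lsum] using h
    have h2 : lsum b ≤ lsum (S.logw ω) + s * ∑ j, y (Sum.inr j) :=
      logSum_le_add (f := b) (f' := S.logw ω) fun x => by simp only [hb]; linarith [hl1 x]
    constructor <;> linarith
  have i0 : Integrable (fun ω => lsum (S.logw ω)) S.law := by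
    have h := ((S.integrable_logZ s (0 : CIdx J P → ℝ)).congr
      (Filter.Eventually.of_forall e0)).integral_prod_left
    simpa [Sys.full] using h
  have iy := (S.integrable_logZ s y (P := P)).integral_prod_left
  have ep : ∀ y' : CIdx J P → ℝ, S.press P s y' =
      ∫ ω, ∫ g, S.logZ s y' (ω, g) ∂stdGaussian _ ∂S.law :=
    fun y' => integral_prod _ (S.integrable_logZ s y')
  have e00 : S.press P s 0 = ∫ ω, lsum (S.logw ω) ∂S.law := by simp [ep, e0]
  rw [e00, ep y]
  refine ⟨integral_mono i0 iy fun ω => (hpt ω).1, ?_⟩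
  refine (integral_mono iy (i0.add (integrable_const _)) fun ω => (hpt ω).2).trans_eq ?_
  rw [integral_add' i0 (integrable_const _), integral_const, probReal_univ, one_smul]
  ring

lemma meanMove_eq (D : ℕ) (s : ℝ) (y y' : CIdx J P → ℝ) :
    meanMove D s y y' = (∑ e, |y (Sum.inl e) - y' (Sum.inl e)|) *
      (∫ g : EuclideanSpace ℝ (GIdx J P D), ‖g‖ ∂stdGaussian _) +
        |s| * ∑ j, |y (Sum.inr j) - y' (Sum.inr j)| := by
  simp only [meanMove, coefMove]
  have iN : Integrable (fun g : EuclideanSpace ℝ (GIdx J P D) => ‖g‖) (stdGaussian _) :=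
    IsGaussian.integrable_id.norm
  rw [integral_add (iN.const_mul _) (integrable_const _),
    integral_const_mul, integral_const, probReal_univ, one_smul]

lemma continuous_meanMove (D : ℕ) (s : ℝ) (y : CIdx J P → ℝ) :
    Continuous fun y' => meanMove D s y' y := by
  simp only [meanMove_eq]
  fun_prop

lemma meanMove_self (D : ℕ) (s : ℝ) (y : CIdx J P → ℝ) : meanMove D s y y = 0 := by
  simp [meanMove_eq]

lemma continuous_press (S : Sys J) (s : ℝ) : Continuous fun y : CIdx J P → ℝ => S.press P s y := by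
  rw [continuous_iff_continuousAt]
  intro y
  refine tendsto_iff_norm_sub_tendsto_zero.2 (squeeze_zero (fun _ => norm_nonneg _)
    (fun y' => ?_) (((continuous_meanMove S.D s y).tendsto' y 0 (meanMove_self ..))))
  exact S.abs_press_sub_le s y' y

end Sys

/-- A pointwise bound, eventually uniform on a compact set for equicontinuous functions. -/
theorem eventually_forall_le {Y : Type} [TopologicalSpace Y] {K : Set Y} (hK : IsCompact K)
    {f : ℕ → Y → ℝ} {c : ℝ}
    (hg : ∀ y ∈ K, ∀ ε > 0, ∃ U ∈ 𝓝 y, ∀ n, ∀ y' ∈ U, f n y' ≤ f n y + ε)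
    (hf : ∀ y ∈ K, ∀ ε > 0, ∀ᶠ n in atTop, f n y ≤ c + ε) {ε : ℝ} (hε : 0 < ε) :
    ∀ᶠ n in atTop, ∀ y ∈ K, f n y ≤ c + ε := by
  choose! U hU hUf using fun y hy => hg y hy (ε / 2) (half_pos hε)
  obtain ⟨T, hT, hcov⟩ := hK.elim_nhds_subcover U hU
  have h : ∀ᶠ n in atTop, ∀ y ∈ T, f n y ≤ c + ε / 2 :=
    (Finset.eventually_all T).2 fun y hy => hf y (hT y hy) _ (half_pos hε)
  filter_upwards [h] with n hn y hy
  obtain ⟨y₀, hy₀, hyU⟩ := Set.mem_iUnion₂.1 (hcov hy)
  have := hUf y₀ (hT y₀ hy₀) n y hyU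
  linarith [hn y₀ hy₀]

variable {K N n k : ℕ} (a : Atoms K) (blk : Fin N → Fin K) {ν : Measure (Fin N → Fin N → ℝ)}
  (hν : OrthInvLaw N ν) (hn : 1 ≤ n) (m r : Fin (k + 1) → ℝ) (s : ℝ) (y : CIdx (Fin K) P → ℝ)

include hν in
lemma ae_orth_uSys (t : ℝ) :
    ∀ᵐ z ∂(uSys a blk hν hn t m r).full P,
      (Matrix.of z.1.1).transpose * Matrix.of z.1.1 = 1 :=
  Measure.quasiMeasurePreserving_fst.ae (Measure.quasiMeasurePreserving_fst.ae hν.orth)

lemma gram_diag (t : ℝ) {ω : UOmega N n k} (hU : (Matrix.of ω.1).transpose * Matrix.of ω.1 = 1)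
    (x : Fin 1 → (Fin N → Bool) × Leaf n k) (i : Fin K) :
    (uSys a blk hν hn t m r).gram ω x 0 0 i = ‖blockVec blk ω.1 (x 0).1 i‖ ^ 2 := by
  show ⟪toBall _, toBall _⟫ = _
  rw [toBall_of_le (norm_blockVec_le blk hU _ i), real_inner_self_eq_norm_sq]

include hν in
/-- The mean log-sum rises in the inverse temperature by at most the energy at the higher one. -/
theorem press_tangent (t t' : ℝ) :
    (uSys a blk hν hn t' m r).press P s y - (uSys a blk hν hn t m r).press P s y ≤
      (t' - t) * N * (uSys a blk hν hn t' m r).expect s y (n := 1)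
        fun R => (∑ i, a.lam i * R 0 0 i) / 2 := by
  set Φ : OArr (Fin K) 1 → ℝ := fun R => (∑ i, a.lam i * R 0 0 i) / 2 with hΦ
  set Sb := uSys a blk hν hn t' m r
  set Sa := uSys a blk hν hn t m r
  have hm : Measurable fun z : Sb.Ω × EuclideanSpace ℝ (GIdx (Fin K) P Sb.D) =>
      repAvg (Sb.expOf s y z) fun x => Φ (Sb.gram z.1 x) := by
    refine Finset.measurable_fun_sum _ fun x _ => (Finset.measurable_fun_prod _ fun l _ => ?_).mul ?_
    · exact (Sb.measurable_expOf s y (x l)).exp.div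
        (Finset.measurable_fun_sum _ fun x' _ => (Sb.measurable_expOf s y x').exp)
    · simp only [hΦ, Sys.gram]
      refine (Finset.measurable_fun_sum _ fun i _ => Measurable.const_mul ?_ _).div_const 2
      exact ((Sb.measV (x 0) i).comp measurable_fst).inner ((Sb.measV (x 0) i).comp measurable_fst)
  have hi : Integrable (fun z => repAvg (Sb.expOf s y z) fun x => Φ (Sb.gram z.1 x))
      (Sb.full P) := by
    refine Integrable.of_bound hm.aestronglyMeasurable ((∑ i, |a.lam i|) / 2)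
      (Filter.Eventually.of_forall fun z => ?_)
    rw [Real.norm_eq_abs, repAvg_one]
    refine (Finset.abs_sum_le_sum_abs _ _).trans ?_
    calc ∑ x, |gibW (Sb.expOf s y z) x * Φ (Sb.gram z.1 fun _ => x)|
        ≤ ∑ x, gibW (Sb.expOf s y z) x * ((∑ i, |a.lam i|) / 2) := Finset.sum_le_sum fun x _ => by
          rw [abs_mul, abs_of_pos (gibW_pos _ x)]
          refine mul_le_mul_of_nonneg_left ?_ (gibW_pos _ x).le
          simp only [hΦ, Sys.gram, abs_div, abs_two]
          refine div_le_div_of_nonneg_right ((Finset.abs_sum_le_sum_abs _ _).trans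
            (Finset.sum_le_sum fun i _ => ?_)) two_pos.le
          rw [abs_mul, real_inner_self_eq_norm_sq, abs_of_nonneg (sq_nonneg ‖Sb.v z.1 x i‖)]
          exact mul_le_of_le_one_right (abs_nonneg _) (pow_le_one₀ (norm_nonneg _) (Sb.norm z.1 x i))
      _ = _ := by rw [← Finset.sum_mul, sum_gibW, one_mul]
  rw [Sys.expect, Sys.avg_eq_repAvg, ← integral_const_mul]
  have e : Sb.press P s y - Sa.press P s y = ∫ z, (Sb.logZ s y z - Sa.logZ s y z) ∂Sb.full P :=
    (integral_sub (Sb.integrable_logZ s y) (Sa.integrable_logZ s y)).symm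
  rw [e]
  refine integral_mono_ae ((Sb.integrable_logZ s y).sub (Sa.integrable_logZ s y)) (hi.const_mul _) ?_
  filter_upwards [ae_orth_uSys a blk hν hn m r (P := P) t'] with z hz
  set eb := Sb.expOf s y z
  have hd : ∀ x : (Fin N → Bool) × Leaf n k, Sa.expOf s y z x =
      eb x + (t - t') * N * Φ (Sb.gram z.1 fun _ => x) := fun x => by
    simp only [hΦ, Sb, gram_diag a blk hν hn m r t' hz]
    show uLogw a blk t m r z.1 x + _ = uLogw a blk t' m r z.1 x + _ + _
    simp only [uLogw]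
    have : Sa.ham s y z.1 z.2 x = Sb.ham s y z.1 z.2 x := rfl
    rw [this]
    ring
  have hl : Sa.logZ s y z =
      lsum eb + Real.log (∑ x, gibW eb x * Real.exp ((t - t') * N * Φ (Sb.gram z.1 fun _ => x))) := by
    rw [← lsum_add]
    exact congrArg lsum (funext hd)
  have hj := avg_le_log (gibW_pos eb) (sum_gibW eb)
    fun x => (t - t') * N * Φ (Sb.gram z.1 fun _ => x)
  rw [repAvg_one]
  show lsum eb - Sa.logZ s y z ≤ _
  rw [hl]
  have e2 : ∑ x, gibW eb x * ((t - t') * N * Φ (Sb.gram z.1 fun _ => x)) =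
      -((t' - t) * N * ∑ x, gibW eb x * Φ (Sb.gram z.1 fun _ => x)) := by
    rw [Finset.mul_sum, ← Finset.sum_neg_distrib]
    exact Finset.sum_congr rfl fun x _ => by ring
  linarith

end Vale.Agent.P166F
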