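import Vale.Agent.P166F.Up.GaussFacts
import Vale.Agent.P157.Entropy

/-!
P166: the effect of one more small Gaussian field on a log-average and on replica averages.
-/

namespace Vale.Agent.P166F

open MeasureTheory ProbabilityTheory
open scoped RealInnerProductSpace

variable {X : Type} [Fintype X] {p : X → ℝ}
variable {E : Type} [NormedAddCommGroup E] [InnerProductSpace ℝ E] [FiniteDimensional ℝ E]
  [MeasurableSpace E] [BorelSpace E]

/-- Absolute moments of a standard Gaussian variable. -/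
noncomputable def gmom (q : ℕ) : ℝ :=
  ∫ g : EuclideanSpace ℝ (Fin 1), |g 0| ^ q ∂stdGaussian (EuclideanSpace ℝ (Fin 1))

lemma gmom_nonneg (q : ℕ) : 0 ≤ gmom q := integral_nonneg fun _ => by positivity

lemma integral_abs_inner_pow (v : E) (q : ℕ) :
    ∫ g, |⟪g, v⟫| ^ q ∂stdGaussian E = ‖v‖ ^ q * gmom q := by
  have h := integral_gram_eq (X := Unit) (fun _ => v)
    (fun _ => EuclideanSpace.single (0 : Fin 1) ‖v‖) (fun _ _ => by
      rw [EuclideanSpace.inner_single_left, conj_trivial, real_inner_self_eq_norm_sq]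
      simp [sq]) (F := fun u => |u ()| ^ q) (by fun_prop)
  simp only [EuclideanSpace.inner_single_right, conj_trivial] at h
  rw [h, gmom, ← integral_const_mul]
  refine integral_congr_ae (Filter.Eventually.of_forall fun g => ?_)
  simp [abs_mul, mul_pow]

lemma integrable_abs_inner_pow (v : E) (q : ℕ) :
    Integrable (fun g => |⟪g, v⟫| ^ q) (stdGaussian E) := by
  have h : Integrable (fun g : E => ‖g‖ ^ q) (stdGaussian E) :=
    (IsGaussian.memLp_id (μ := stdGaussian E) q (by simp)).integrable_norm_pow'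
  refine (h.const_mul (‖v‖ ^ q)).mono' (by fun_prop) (Filter.Eventually.of_forall fun g => ?_)
  rw [Real.norm_eq_abs, abs_pow, abs_abs, ← mul_pow, mul_comm]
  exact pow_le_pow_left₀ (abs_nonneg _) (abs_real_inner_le_norm g v) q

lemma integrable_inner (v : E) : Integrable (fun g => ⟪g, v⟫) (stdGaussian E) :=
  ((integrable_abs_inner_pow v 1).congr (Filter.Eventually.of_forall fun g => pow_one _)).mono'
    (by fun_prop) (Filter.Eventually.of_forall fun g => le_rfl)

lemma integral_exp_inner' (v : E) :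
    ∫ g, Real.exp ⟪g, v⟫ ∂stdGaussian E = Real.exp (‖v‖ ^ 2 / 2) := by
  have h := integral_gram_eq (X := Unit) (fun _ => v)
    (fun _ => EuclideanSpace.single (0 : Fin 1) ‖v‖) (fun _ _ => by
      rw [EuclideanSpace.inner_single_left, conj_trivial, real_inner_self_eq_norm_sq]
      simp [sq]) (F := fun u => Real.exp (u ())) (by fun_prop)
  simp only [EuclideanSpace.inner_single_right, conj_trivial] at h
  rw [h]
  have := mgf_gaussianReal (Vale.Agent.P157.measurePreserving_coord (0 : Fin 1)).map_eq ‖v‖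
  simpa [mgf] using this

lemma integrable_exp_inner' (v : E) : Integrable (fun g => Real.exp ⟪g, v⟫) (stdGaussian E) :=
  Integrable.of_integral_ne_zero (by rw [integral_exp_inner']; exact (Real.exp_pos _).ne')

/-- The log-average of the exponential of a new field. -/
noncomputable def addLog (p : X → ℝ) (Ψ : X → E) (g : E) : ℝ :=
  Real.log (∑ x, p x * Real.exp ⟪g, Ψ x⟫)

lemma sum_exp_pos (hp : ∀ x, 0 < p x) (hp1 : ∑ x, p x = 1) (y : X → ℝ) :
    0 < ∑ x, p x * Real.exp (y x) := by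
  have : Nonempty X := by
    by_contra hc
    rw [not_nonempty_iff] at hc
    simp at hp1
  exact Finset.sum_pos (fun x _ => mul_pos (hp x) (Real.exp_pos _)) Finset.univ_nonempty

lemma avg_le_log (hp : ∀ x, 0 < p x) (hp1 : ∑ x, p x = 1) (y : X → ℝ) :
    ∑ x, p x * y x ≤ Real.log (∑ x, p x * Real.exp (y x)) := by
  rw [Real.le_log_iff_exp_le (sum_exp_pos hp hp1 y)]
  exact convexOn_exp.map_sum_le (fun x _ => (hp x).le) hp1 (fun x _ => Set.mem_univ _)

lemma integrable_addLog (hp : ∀ x, 0 < p x) (hp1 : ∑ x, p x = 1) (Ψ : X → E) :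
    Integrable (addLog p Ψ) (stdGaussian E) := by
  have hS : Integrable (fun g => ∑ x, |⟪g, Ψ x⟫|) (stdGaussian E) :=
    integrable_finsetSum _ fun x _ => (integrable_inner (Ψ x)).abs
  have hm : Measurable (addLog p Ψ) := by unfold addLog; fun_prop
  refine hS.mono' hm.aestronglyMeasurable (Filter.Eventually.of_forall fun g => ?_)
  have hb : ∀ x, |⟪g, Ψ x⟫| ≤ ∑ x, |⟪g, Ψ x⟫| := fun x =>
    Finset.single_le_sum (fun i _ => abs_nonneg ⟪g, Ψ i⟫) (Finset.mem_univ x)
  rw [Real.norm_eq_abs, addLog, abs_le]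
  constructor
  · refine le_trans ?_ (avg_le_log hp hp1 _)
    calc -(∑ x, |⟪g, Ψ x⟫|) = ∑ x, p x * -(∑ x, |⟪g, Ψ x⟫|) := by rw [← Finset.sum_mul, hp1, one_mul]
      _ ≤ _ := Finset.sum_le_sum fun x _ => mul_le_mul_of_nonneg_left
          (by linarith [hb x, neg_abs_le ⟪g, Ψ x⟫]) (hp x).le
  · rw [Real.log_le_iff_le_exp (sum_exp_pos hp hp1 _)]
    calc ∑ x, p x * Real.exp ⟪g, Ψ x⟫ ≤ ∑ x, p x * Real.exp (∑ x, |⟪g, Ψ x⟫|) :=
          Finset.sum_le_sum fun x _ => mul_le_mul_of_nonneg_left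
            (Real.exp_le_exp.2 ((le_abs_self _).trans (hb x))) (hp x).le
      _ = _ := by rw [← Finset.sum_mul, hp1, one_mul]

theorem integral_addLog_le (hp : ∀ x, 0 < p x) (hp1 : ∑ x, p x = 1) (Ψ : X → E) {v : ℝ}
    (hΨ : ∀ x, ‖Ψ x‖ ^ 2 ≤ v) : ∫ g, addLog p Ψ g ∂stdGaussian E ≤ v / 2 := by
  have hi : ∀ x, Integrable (fun g => Real.exp ⟪g, Ψ x⟫) (stdGaussian E) :=
    fun x => integrable_exp_inner' (Ψ x)
  have hZ : Integrable (fun g => ∑ x, p x * Real.exp ⟪g, Ψ x⟫) (stdGaussian E) :=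
    integrable_finsetSum _ fun x _ => (hi x).const_mul _
  set M := Real.exp (v / 2) with hM
  have h1 : ∀ g, addLog p Ψ g ≤ v / 2 + ((∑ x, p x * Real.exp ⟪g, Ψ x⟫) / M - 1) := fun g => by
    have hs := sum_exp_pos hp hp1 fun x => ⟪g, Ψ x⟫
    have := Real.log_le_sub_one_of_pos (div_pos hs (Real.exp_pos (v / 2)))
    rw [Real.log_div hs.ne' (Real.exp_pos _).ne', Real.log_exp] at this
    rw [addLog, hM]
    linarith
  refine (integral_mono (integrable_addLog hp hp1 Ψ)
    ((integrable_const _).add ((hZ.div_const M).sub (integrable_const 1))) h1).trans ?_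
  rw [integral_add' (integrable_const _) ((hZ.div_const M).sub (integrable_const 1))]
  simp only [Pi.sub_apply]
  rw [integral_sub (hZ.div_const M) (integrable_const 1), integral_div, integral_div,
    integral_finsetSum _ fun x _ => (hi x).const_mul _]
  simp only [integral_const_mul, integral_const, probReal_univ, one_smul]
  have h2 : ∑ x, p x * ∫ g, Real.exp ⟪g, Ψ x⟫ ∂stdGaussian E ≤ M := by
    calc _ ≤ ∑ x, p x * M := Finset.sum_le_sum fun x _ => mul_le_mul_of_nonneg_left (by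
            rw [integral_exp_inner', hM]
            exact Real.exp_le_exp.2 (by linarith [hΨ x])) (hp x).le
      _ = M := by rw [← Finset.sum_mul, hp1, one_mul]
  have := (div_le_one (Real.exp_pos (v / 2))).2 h2
  linarith

/-- A new field moves the log-average by little in the mean. -/
theorem integral_abs_addLog_le (hp : ∀ x, 0 < p x) (hp1 : ∑ x, p x = 1) (Ψ : X → E) {v : ℝ}
    (hΨ : ∀ x, ‖Ψ x‖ ^ 2 ≤ v) :
    ∫ g, |addLog p Ψ g| ∂stdGaussian E ≤ v / 2 + 2 * Real.sqrt v * gmom 1 := by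
  have hm : ∫ g, ∑ x, p x * ⟪g, Ψ x⟫ ∂stdGaussian E = 0 := by
    rw [integral_finsetSum _ fun x _ => (integrable_inner (Ψ x)).const_mul _]
    refine Finset.sum_eq_zero fun x _ => ?_
    rw [integral_const_mul]
    have h := integral_gram_eq (X := Unit) (fun _ => Ψ x) (fun _ => -Ψ x) (fun _ _ => by simp)
      (F := fun u => u ()) (measurable_pi_apply ())
    simp only [inner_neg_right, integral_neg] at h
    have : ∫ g, ⟪g, Ψ x⟫ ∂stdGaussian E = 0 := by linarith
    rw [this, mul_zero]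
  have iS : Integrable (fun g => ∑ x, p x * |⟪g, Ψ x⟫|) (stdGaussian E) :=
    integrable_finsetSum _ fun x _ => (integrable_inner (Ψ x)).abs.const_mul _
  have iA : Integrable (fun g => ∑ x, p x * ⟪g, Ψ x⟫) (stdGaussian E) :=
    integrable_finsetSum _ fun x _ => (integrable_inner (Ψ x)).const_mul _
  refine (integral_mono (integrable_addLog hp hp1 Ψ).abs
    (((integrable_addLog hp hp1 Ψ).sub iA).add iS) fun g => ?_).trans ?_
  · have h0 := avg_le_log hp hp1 fun x => ⟪g, Ψ x⟫
    have h1 : |∑ x, p x * ⟪g, Ψ x⟫| ≤ ∑ x, p x * |⟪g, Ψ x⟫| :=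
      (Finset.abs_sum_le_sum_abs _ _).trans_eq (Finset.sum_congr rfl fun x _ => by
        rw [abs_mul, abs_of_pos (hp x)])
    simp only [Pi.add_apply, Pi.sub_apply, addLog]
    have := abs_le.1 h1
    rw [abs_le]
    constructor <;> linarith
  · rw [integral_add' ((integrable_addLog hp hp1 Ψ).sub iA) iS,
      integral_sub' (integrable_addLog hp hp1 Ψ) iA, hm, sub_zero,
      integral_finsetSum _ fun x _ => (integrable_inner (Ψ x)).abs.const_mul _]
    refine add_le_add (integral_addLog_le hp hp1 Ψ hΨ) ?_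
    calc ∑ x, ∫ g, p x * |⟪g, Ψ x⟫| ∂stdGaussian E ≤ ∑ x, p x * (2 * Real.sqrt v * gmom 1) :=
          Finset.sum_le_sum fun x _ => by
            rw [integral_const_mul]
            refine mul_le_mul_of_nonneg_left ?_ (hp x).le
            have h := integral_abs_inner_pow (Ψ x) 1
            simp only [pow_one] at h
            rw [h]
            refine mul_le_mul_of_nonneg_right ?_ (gmom_nonneg 1)
            have := Real.abs_le_sqrt (hΨ x)
            rw [abs_norm] at this
            linarith [Real.sqrt_nonneg v]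
      _ = _ := by rw [← Finset.sum_mul, hp1, one_mul]

/-- A new field moves the average of a bounded function by little in the mean. -/
theorem integral_tilt_sub_le (hp : ∀ x, 0 < p x) (hp1 : ∑ x, p x = 1) (Ψ : X → E) {v : ℝ}
    (hΨ : ∀ x, ‖Ψ x‖ ^ 2 ≤ v) (f : X → ℝ) (hf : ∀ x, |f x| ≤ 1) {a : ℝ} (ha : 0 < a) :
    ∫ g, |(∑ x, p x * Real.exp ⟪g, Ψ x⟫ * f x) / (∑ x, p x * Real.exp ⟪g, Ψ x⟫) -
        ∑ x, p x * f x| ∂stdGaussian E ≤ a + v / (2 * a) := by
  have iA : Integrable (fun g => ∑ x, p x * ⟪g, Ψ x⟫) (stdGaussian E) :=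
    integrable_finsetSum _ fun x _ => (integrable_inner (Ψ x)).const_mul _
  have hm : ∫ g, ∑ x, p x * ⟪g, Ψ x⟫ ∂stdGaussian E = 0 := by
    rw [integral_finsetSum _ fun x _ => (integrable_inner (Ψ x)).const_mul _]
    refine Finset.sum_eq_zero fun x _ => ?_
    rw [integral_const_mul]
    have h := integral_gram_eq (X := Unit) (fun _ => Ψ x) (fun _ => -Ψ x) (fun _ _ => by simp)
      (F := fun u => u ()) (measurable_pi_apply ())
    simp only [inner_neg_right, integral_neg] at h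
    have : ∫ g, ⟪g, Ψ x⟫ ∂stdGaussian E = 0 := by linarith
    rw [this, mul_zero]
  have hb : ∀ g : E, |(∑ x, p x * Real.exp ⟪g, Ψ x⟫ * f x) / (∑ x, p x * Real.exp ⟪g, Ψ x⟫) -
      ∑ x, p x * f x| ≤ a + (addLog p Ψ g - ∑ x, p x * ⟪g, Ψ x⟫) / a := fun g => by
    refine (abs_tilt_sub_le hp hp1 (fun x => ⟪g, Ψ x⟫) f hf).trans ?_
    have hd := sub_nonneg.2 (avg_le_log hp hp1 fun x => ⟪g, Ψ x⟫)
    rw [addLog, ← sub_nonneg]
    set w := Real.log (∑ x, p x * Real.exp ⟪g, Ψ x⟫) - ∑ x, p x * ⟪g, Ψ x⟫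
    have e : a + w / a - 2 * Real.sqrt w = (a - Real.sqrt w) ^ 2 / a := by
      field_simp
      rw [sub_sq, Real.sq_sqrt hd]
      ring
    rw [e]
    positivity
  have hi : Integrable (fun g => a + (addLog p Ψ g - ∑ x, p x * ⟪g, Ψ x⟫) / a) (stdGaussian E) :=
    (integrable_const a).add (((integrable_addLog hp hp1 Ψ).sub iA).div_const a)
  have hl : Integrable (fun g => |(∑ x, p x * Real.exp ⟪g, Ψ x⟫ * f x) /
      (∑ x, p x * Real.exp ⟪g, Ψ x⟫) - ∑ x, p x * f x|) (stdGaussian E) :=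
    hi.mono' (Measurable.aestronglyMeasurable (by fun_prop))
      (Filter.Eventually.of_forall fun g => by rw [Real.norm_eq_abs, abs_abs]; exact hb g)
  refine (integral_mono hl hi hb).trans ?_
  have iD : Integrable (fun g => (addLog p Ψ g - ∑ x, p x * ⟪g, Ψ x⟫) / a) (stdGaussian E) :=
    ((integrable_addLog hp hp1 Ψ).sub iA).div_const a
  rw [integral_add (integrable_const a) iD,
    integral_div, integral_sub (integrable_addLog hp hp1 Ψ) iA, hm, sub_zero, integral_const,
    probReal_univ, one_smul]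
  have := div_le_div_of_nonneg_right (integral_addLog_le hp hp1 Ψ hΨ) ha.le
  rw [div_div] at this
  linarith

/-- The mean gain of a small field is at least its first-order value less a higher-order remainder. -/
theorem integral_addLog_ge (hp : ∀ x, 0 < p x) (hp1 : ∑ x, p x = 1) (Ψ : X → E) {v : ℝ}
    (hΨ : ∀ x, ‖Ψ x‖ ^ 2 ≤ v) :
    (∑ x, p x * ‖Ψ x‖ ^ 2 - ∑ x, ∑ x', p x * p x' * ⟪Ψ x, Ψ x'⟫) / 2 -
        ((2 * Real.sqrt v) ^ 3 * gmom 3 + (2 * Real.sqrt v) ^ 4 * gmom 4 +
          (2 * Real.sqrt v) ^ 6 * gmom 6) ≤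
      ∫ g, addLog p Ψ g ∂stdGaussian E := by
  set m := ∑ x, p x • Ψ x with hmdef
  set Y := fun x => Ψ x - m with hY
  have hsum : ∀ g : E, ∑ x, p x * ⟪g, Y x⟫ = 0 := fun g => by
    simp only [Y, inner_sub_right, mul_sub, Finset.sum_sub_distrib, ← Finset.sum_mul, hp1, one_mul,
      hmdef, inner_sum, real_inner_smul_right, sub_self]
  have hlog : ∀ g : E, ⟪g, m⟫ + Real.log (∑ x, p x * Real.exp ⟪g, Y x⟫) = addLog p Ψ g := fun g => by
    simp only [Y, inner_sub_right, Real.exp_sub, mul_div_assoc', ← Finset.sum_div, addLog]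
    rw [Real.log_div (sum_exp_pos hp hp1 _).ne' (Real.exp_pos _).ne', Real.log_exp]
    ring
  have hpt : ∀ g : E, ⟪g, m⟫ + ((∑ x, p x * |⟪g, Y x⟫| ^ 2) / 2 - (∑ x, p x * |⟪g, Y x⟫| ^ 3 +
      ∑ x, p x * |⟪g, Y x⟫| ^ 4 + ∑ x, p x * |⟪g, Y x⟫| ^ 6)) ≤ addLog p Ψ g := fun g => by
    rw [← hlog]
    refine add_le_add le_rfl ?_
    have h := log_avg_exp_ge (fun x => (hp x).le) hp1 (fun x => ⟪g, Y x⟫) (hsum g)
    simpa only [sq_abs, (show Even 4 by decide).pow_abs, (show Even 6 by decide).pow_abs] using h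
  have hi : ∀ q, Integrable (fun g => ∑ x, p x * |⟪g, Y x⟫| ^ q) (stdGaussian E) := fun q =>
    integrable_finsetSum _ fun x _ => (integrable_abs_inner_pow (Y x) q).const_mul _
  have hrhs := (hi 3).add ((hi 4).add (hi 6))
  have key := integral_mono ((integrable_inner m).add ((((hi 2).div_const 2)).sub
    (((hi 3).add (hi 4)).add (hi 6)))) (integrable_addLog hp hp1 Ψ) hpt
  refine le_trans ?_ key
  rw [integral_add' (integrable_inner m) (((hi 2).div_const 2).sub (((hi 3).add (hi 4)).add (hi 6))),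
    integral_sub' ((hi 2).div_const 2) (((hi 3).add (hi 4)).add (hi 6)), integral_div,
    integral_add' ((hi 3).add (hi 4)) (hi 6), integral_add' (hi 3) (hi 4)]
  have hq : ∀ q, ∫ g, ∑ x, p x * |⟪g, Y x⟫| ^ q ∂stdGaussian E =
      (∑ x, p x * ‖Y x‖ ^ q) * gmom q := fun q => by
    rw [integral_finsetSum _ fun x _ => (integrable_abs_inner_pow (Y x) q).const_mul _, Finset.sum_mul]
    refine Finset.sum_congr rfl fun x _ => ?_
    rw [integral_const_mul, integral_abs_inner_pow]
    ring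
  simp only [hq]
  have hg2 : gmom 2 = 1 := by
    unfold gmom
    simp only [sq_abs]
    have h := Vale.Agent.P157.integral_inner_sq (EuclideanSpace.single (0 : Fin 1) (1 : ℝ))
    simp only [EuclideanSpace.inner_single_right, conj_trivial, one_mul] at h
    simpa using h
  have hm0 : ∫ g, ⟪g, m⟫ ∂stdGaussian E = 0 := by
    have h := integral_gram_eq (X := Unit) (fun _ => m) (fun _ => -m) (fun _ _ => by simp)
      (F := fun u => u ()) (measurable_pi_apply ())
    simp only [inner_neg_right, integral_neg] at h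
    linarith
  rw [hm0, zero_add, hg2, mul_one]
  have hnm : ‖m‖ ≤ Real.sqrt v := by
    refine (norm_sum_le _ _).trans ?_
    calc ∑ x, ‖p x • Ψ x‖ ≤ ∑ x, p x * Real.sqrt v := Finset.sum_le_sum fun x _ => by
          rw [norm_smul, Real.norm_of_nonneg (hp x).le]
          refine mul_le_mul_of_nonneg_left ?_ (hp x).le
          simpa using Real.abs_le_sqrt (hΨ x)
      _ = _ := by rw [← Finset.sum_mul, hp1, one_mul]
  have hYb : ∀ x, ‖Y x‖ ≤ 2 * Real.sqrt v := fun x => by
    have h1 : ‖Ψ x‖ ≤ Real.sqrt v := by simpa using Real.abs_le_sqrt (hΨ x)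
    linarith [norm_sub_le (Ψ x) m]
  have hup : ∀ q, (∑ x, p x * ‖Y x‖ ^ q) * gmom q ≤ (2 * Real.sqrt v) ^ q * gmom q := fun q => by
    refine mul_le_mul_of_nonneg_right ?_ (gmom_nonneg q)
    calc ∑ x, p x * ‖Y x‖ ^ q ≤ ∑ x, p x * (2 * Real.sqrt v) ^ q := Finset.sum_le_sum fun x _ =>
          mul_le_mul_of_nonneg_left (pow_le_pow_left₀ (norm_nonneg _) (hYb x) q) (hp x).le
      _ = _ := by rw [← Finset.sum_mul, hp1, one_mul]
  have hvar : ∑ x, p x * ‖Y x‖ ^ 2 =
      ∑ x, p x * ‖Ψ x‖ ^ 2 - ∑ x, ∑ x', p x * p x' * ⟪Ψ x, Ψ x'⟫ := by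
    have e : ∑ x, ∑ x', p x * p x' * ⟪Ψ x, Ψ x'⟫ = ∑ x, p x * ⟪Ψ x, m⟫ := by
      simp only [hmdef, inner_sum, real_inner_smul_right, Finset.mul_sum, mul_assoc]
    have e2 : ∑ x, p x * ⟪Ψ x, m⟫ = ‖m‖ ^ 2 := by
      rw [← real_inner_self_eq_norm_sq, hmdef, sum_inner]
      exact Finset.sum_congr rfl fun x _ => (real_inner_smul_left _ _ _).symm
    simp only [Y, norm_sub_sq_real, mul_add, mul_sub, Finset.sum_add_distrib, Finset.sum_sub_distrib,
      ← Finset.sum_mul, hp1, one_mul, mul_left_comm _ (2 : ℝ), ← Finset.mul_sum, e, e2]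
    ring
  rw [← hvar]
  linarith [hup 3, hup 4, hup 6]

end Vale.Agent.P166F
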