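import Vale.Agent.P166F.Up.Split
import Vale.Agent.P166F.Up.AddField

/-!
P166: raising the variances from one level on in the enriched system.
-/

namespace Vale.Agent.P166F

open MeasureTheory ProbabilityTheory
open scoped RealInnerProductSpace
open Vale.Agent.P166 (spin)
open Vale.Agent.P166N (Node Leaf unif meet nonempty_leaf)
open Vale.Agent.P166N.Spectrum (OrthInvLaw)

variable {K N n k P : ℕ}

section Finite

variable {X : Type} [Fintype X] [Nonempty X]

lemma gibW_pos (e : X → ℝ) (x : X) : 0 < gibW e x :=
  div_pos (Real.exp_pos _) (Finset.sum_pos (fun _ _ => Real.exp_pos _) Finset.univ_nonempty)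

lemma sum_gibW (e : X → ℝ) : ∑ x, gibW e x = 1 := by
  simp only [gibW, ← Finset.sum_div]
  exact div_self (Finset.sum_pos (fun _ _ => Real.exp_pos _) Finset.univ_nonempty).ne'

lemma abs_lsum_le (e : X → ℝ) : |lsum e| ≤ ∑ x, |e x| + Real.log (Fintype.card X) := by
  set A := ∑ x, |e x|
  have hA : ∀ x, |e x| ≤ A := fun x =>
    Finset.single_le_sum (fun i _ => abs_nonneg (e i)) (Finset.mem_univ x)
  have hp : 0 < ∑ x, Real.exp (e x) := Finset.sum_pos (fun _ _ => Real.exp_pos _) Finset.univ_nonempty
  have hc : (0 : ℝ) < Fintype.card X := by exact_mod_cast Fintype.card_pos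
  have hl : 0 ≤ Real.log (Fintype.card X) := Real.log_nonneg (by exact_mod_cast Fintype.card_pos)
  have h1 : lsum e ≤ A + Real.log (Fintype.card X) := by
    refine (Real.log_le_log hp (Finset.sum_le_sum fun x _ =>
      Real.exp_le_exp.2 ((le_abs_self _).trans (hA x)))).trans_eq ?_
    rw [Finset.sum_const, Finset.card_univ, nsmul_eq_mul, Real.log_mul hc.ne' (Real.exp_pos _).ne',
      Real.log_exp, add_comm]
  have h2 : -A ≤ lsum e := by
    obtain ⟨x⟩ := (inferInstance : Nonempty X)
    refine le_trans ?_ (Real.log_le_log (Real.exp_pos (e x))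
      (Finset.single_le_sum (fun i _ => (Real.exp_pos (e i)).le) (Finset.mem_univ x)))
    rw [Real.log_exp]
    linarith [neg_abs_le (e x), hA x]
  rw [abs_le]
  constructor <;> linarith

lemma lsum_add (e y : X → ℝ) :
    lsum (fun x => e x + y x) = lsum e + Real.log (∑ x, gibW e x * Real.exp (y x)) := by
  have hp : 0 < ∑ x, Real.exp (e x) := Finset.sum_pos (fun _ _ => Real.exp_pos _) Finset.univ_nonempty
  have h : ∑ x, gibW e x * Real.exp (y x) = (∑ x, Real.exp (e x + y x)) / ∑ x, Real.exp (e x) := by
    simp only [gibW, div_mul_eq_mul_div, ← Real.exp_add, ← Finset.sum_div]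
  rw [h, Real.log_div (Finset.sum_pos (fun _ _ => Real.exp_pos _) Finset.univ_nonempty).ne' hp.ne']
  simp only [lsum]
  ring

/-- The product weight of two replicas. -/
noncomputable def pairW (e : X → ℝ) (x : Fin 2 → X) : ℝ := ∏ l, gibW e (x l)

lemma sum_pairW (e : X → ℝ) : ∑ x, pairW e x = 1 := by
  simp only [pairW]
  rw [← Fintype.prod_sum (fun (_ : Fin 2) x => gibW e x)]
  simp [sum_gibW]

lemma pairW_pos (e : X → ℝ) (x : Fin 2 → X) : 0 < pairW e x :=
  Finset.prod_pos fun l _ => gibW_pos e _

lemma abs_repAvg_le (e : X → ℝ) {Θ : (Fin 2 → X) → ℝ} (hΘ : ∀ x, |Θ x| ≤ 1) :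
    |repAvg e Θ| ≤ 1 := by
  refine (Finset.abs_sum_le_sum_abs _ _).trans ((Finset.sum_le_sum (g := pairW e) fun x _ => ?_).trans
    (sum_pairW e).le)
  rw [abs_mul, abs_of_pos (Finset.prod_pos fun l _ => gibW_pos e _)]
  exact mul_le_of_le_one_right (pairW_pos e x).le (hΘ x)

lemma repAvg_add (e y : X → ℝ) (Θ : (Fin 2 → X) → ℝ) :
    repAvg (fun x => e x + y x) Θ =
      (∑ x, pairW e x * Real.exp (∑ l, y (x l)) * Θ x) /
        ∑ x, pairW e x * Real.exp (∑ l, y (x l)) := by
  have hp : 0 < ∑ x, Real.exp (e x) := Finset.sum_pos (fun _ _ => Real.exp_pos _) Finset.univ_nonempty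
  have hq : ∀ x : Fin 2 → X, pairW e x * Real.exp (∑ l, y (x l)) =
      (∏ l, Real.exp (e (x l) + y (x l))) / (∑ x, Real.exp (e x)) ^ 2 := fun x => by
    simp only [pairW, gibW, Finset.prod_div_distrib, Real.exp_sum, Real.exp_add,
      Finset.prod_mul_distrib, Finset.prod_const, Finset.card_univ, Fintype.card_fin]
    ring
  rw [← repAvg_eq]
  simp only [hq, div_mul_eq_mul_div, ← Finset.sum_div]
  rw [div_div_div_cancel_right₀ (pow_ne_zero 2 hp.ne'),
    ← Fintype.prod_sum (fun (_ : Fin 2) x => Real.exp (e x + y x))]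
  simp

end Finite

/-- The pair function of the overlap above level `j`. -/
noncomputable def ovlTh (N n k j : ℕ) (x : Fin 2 → (Fin N → Bool) × Leaf n k) : ℝ :=
  if j ≤ meet k (x 0).2 (x 1).2 then (∑ i, spin ((x 0).1 i) * spin ((x 1).1 i)) / N else 0

lemma abs_ovlTh_le (j : ℕ) (x : Fin 2 → (Fin N → Bool) × Leaf n k) : |ovlTh N n k j x| ≤ 1 := by
  unfold ovlTh
  split_ifs
  · rcases Nat.eq_zero_or_pos N with rfl | hN
    · simp
    rw [abs_div, Nat.abs_cast, div_le_one (by exact_mod_cast hN)]
    refine (Finset.abs_sum_le_sum_abs _ _).trans_eq ?_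
    have : ∀ b : Bool, |spin b| = 1 := fun b => by cases b <;> norm_num [spin]
    simp [abs_mul, this]
  · simp

lemma seqOf_bump (r : Fin (k + 1) → ℝ) {j : ℕ} (hj : j ≤ k) (h : ℝ) :
    seqOf (fun l => r l + bump j h l) = fun l => seqOf r l + bump j h l := by
  funext l
  simp only [seqOf, bump]
  congr 1
  by_cases hl : j ≤ l
  · rw [if_pos hl, if_pos (le_min hl hj)]
  · rw [if_neg hl, if_neg fun hc => hl (hc.trans (min_le_left _ _))]

/-- The remainder of the gain from a field of variance `v`. -/
noncomputable def gainRem (v : ℝ) : ℝ :=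
  (2 * Real.sqrt v) ^ 3 * gmom 3 + (2 * Real.sqrt v) ^ 4 * gmom 4 + (2 * Real.sqrt v) ^ 6 * gmom 6

variable (a : Atoms K) (blk : Fin N → Fin K) {ν : Measure (Fin N → Fin N → ℝ)}
  (hν : OrthInvLaw N ν) (hn : 1 ≤ n) (t : ℝ) (m r : Fin (k + 1) → ℝ) (s : ℝ)
  (y : CIdx (Fin K) P → ℝ)

/-- The exponent at given rest and field coordinates. -/
noncomputable def expo (p : RSp K N n k P) (g : FSp N n k) (x : (Fin N → Bool) × Leaf n k) : ℝ :=
  baseExp a blk hν hn t m s y p x + ⟪g, leafVec (seqOf r) x⟫

include hν in
lemma integrable_join {F : UOmega N n k × EuclideanSpace ℝ (GIdx (Fin K) P N) → ℝ}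
    (hF : Integrable F ((ν.prod (markLaw n k (Fin N))).prod
      (stdGaussian (EuclideanSpace ℝ (GIdx (Fin K) P N))))) :
    Integrable (fun p : RSp K N n k P × FSp N n k => F (joinR p))
      ((restLaw ν n k K P).prod (stdGaussian (FSp N n k))) := by
  have := hν.prob
  exact ((measurePreserving_joinR ν).integrable_comp hF.aestronglyMeasurable).2 hF

include hν in
lemma integral_join {F : UOmega N n k × EuclideanSpace ℝ (GIdx (Fin K) P N) → ℝ}
    (hF : Integrable F ((ν.prod (markLaw n k (Fin N))).prod
      (stdGaussian (EuclideanSpace ℝ (GIdx (Fin K) P N))))) :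
    ∫ z, F z ∂((ν.prod (markLaw n k (Fin N))).prod
        (stdGaussian (EuclideanSpace ℝ (GIdx (Fin K) P N)))) =
      ∫ p, ∫ g, F (joinR (p, g)) ∂stdGaussian (FSp N n k) ∂restLaw ν n k K P := by
  have := hν.prob
  have : IsProbabilityMeasure (restLaw ν n k K P) := by unfold restLaw; infer_instance
  rw [← (measurePreserving_joinR ν).map_eq, integral_map
    (measurePreserving_joinR ν).measurable.aemeasurable
    (by rw [(measurePreserving_joinR ν).map_eq]; exact hF.aestronglyMeasurable),
    integral_prod _ (integrable_join hν hF)]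

instance instNeConfLeaf [NeZero n] : Nonempty ((Fin N → Bool) × Leaf n k) := by
  have := nonempty_leaf (Nat.one_le_iff_ne_zero.2 (NeZero.ne n)) k
  infer_instance

lemma press_eq :
    (uSys a blk hν hn t m r).press P s y =
      ∫ p, ∫ g, lsum (expo a blk hν hn t m r s y p g) ∂stdGaussian (FSp N n k)
        ∂restLaw ν n k K P := by
  refine (integral_join hν ((uSys a blk hν hn t m r).integrable_logZ s y)).trans ?_
  simp only [logZ_joinR]
  rfl

lemma dev_eq :
    (uSys a blk hν hn t m r).dev P s y =
      ∫ p, ∫ g, |lsum (expo a blk hν hn t m r s y p g) - (uSys a blk hν hn t m r).press P s y|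
        ∂stdGaussian (FSp N n k) ∂restLaw ν n k K P := by
  have := hν.prob
  refine (integral_join hν (((uSys a blk hν hn t m r).integrable_logZ s y).sub
    (integrable_const ((uSys a blk hν hn t m r).press P s y))).abs).trans ?_
  refine integral_congr_ae (Filter.Eventually.of_forall fun p => ?_)
  refine integral_congr_ae (Filter.Eventually.of_forall fun g => ?_)
  show |(uSys a blk hν hn t m r).logZ s y (joinR (p, g)) - _| = _
  rw [logZ_joinR]
  rfl

lemma measurable_repAvg_expo (Θ : (Fin 2 → (Fin N → Bool) × Leaf n k) → ℝ) :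
    Measurable fun z : UOmega N n k × EuclideanSpace ℝ (GIdx (Fin K) P N) =>
      repAvg (fun x => (uSys a blk hν hn t m r).logw z.1 x +
        (uSys a blk hν hn t m r).ham s y z.1 z.2 x) Θ := by
  have h : ∀ x, Measurable fun z : UOmega N n k × EuclideanSpace ℝ (GIdx (Fin K) P N) =>
      Real.exp ((uSys a blk hν hn t m r).logw z.1 x + (uSys a blk hν hn t m r).ham s y z.1 z.2 x) :=
    fun x => ((((uSys a blk hν hn t m r).measW x).comp measurable_fst).add
      ((uSys a blk hν hn t m r).measurable_ham s y x)).exp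
  exact Finset.measurable_fun_sum _ fun x _ => (Finset.measurable_fun_prod _ fun l _ =>
    (h (x l)).div (Finset.measurable_fun_sum _ fun x' _ => h x')).mul_const _

lemma avg_eq [NeZero n] {Θ : (Fin 2 → (Fin N → Bool) × Leaf n k) → ℝ} (hΘ : ∀ x, |Θ x| ≤ 1) :
    (uSys a blk hν hn t m r).avg s y 2 (fun _ x => Θ x) =
      ∫ p, ∫ g, repAvg (expo a blk hν hn t m r s y p g) Θ ∂stdGaussian (FSp N n k)
        ∂restLaw ν n k K P := by
  have := hν.prob
  have e : (uSys a blk hν hn t m r).avg s y 2 (fun _ x => Θ x) =
      ∫ z, repAvg (fun x => (uSys a blk hν hn t m r).logw z.1 x +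
        (uSys a blk hν hn t m r).ham s y z.1 z.2 x) Θ ∂((ν.prod (markLaw n k (Fin N))).prod
        (stdGaussian (EuclideanSpace ℝ (GIdx (Fin K) P N)))) := by
    refine integral_congr_ae (Filter.Eventually.of_forall fun z => ?_)
    exact repAvg_eq (fun x => (uSys a blk hν hn t m r).logw z.1 x +
      (uSys a blk hν hn t m r).ham s y z.1 z.2 x) Θ
  rw [e, integral_join hν (Integrable.of_bound
    (measurable_repAvg_expo a blk hν hn t m r s y Θ).aestronglyMeasurable 1
    (Filter.Eventually.of_forall fun z => abs_repAvg_le _ hΘ))]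
  refine integral_congr_ae (Filter.Eventually.of_forall fun p => ?_)
  refine integral_congr_ae (Filter.Eventually.of_forall fun g => ?_)
  exact congrArg (fun e => repAvg e Θ) (funext fun x => exponent_joinR a blk hν hn t m r s y (p, g) x)

lemma pair_leafVec_bump {j : ℕ} {h : ℝ} (hh : 0 ≤ h)
    (x : Fin 2 → (Fin N → Bool) × Leaf n k) :
    ⟪leafVec (bump j h) (x 0), leafVec (bump j h) (x 1)⟫ = h * N * ovlTh N n k j x := by
  rw [inner_leafVec (bump_nonneg hh 0) fun l _ => bump_mono hh l]
  simp only [ovlTh, bump]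
  split_ifs with hc
  · rcases Nat.eq_zero_or_pos N with rfl | hN
    · simp
    · have : (N : ℝ) ≠ 0 := by exact_mod_cast hN.ne'
      field_simp
  · simp

lemma sum_pair_inner {j : ℕ} {h : ℝ} (hh : 0 ≤ h) (w : (Fin N → Bool) × Leaf n k → ℝ) :
    ∑ x, ∑ x', w x * w x' * ⟪leafVec (bump j h) x, leafVec (bump j h) x'⟫ =
      h * N * ∑ x : Fin 2 → (Fin N → Bool) × Leaf n k, (∏ l, w (x l)) * ovlTh N n k j x := by
  rw [Finset.mul_sum, ← Fintype.sum_prod_type']
  refine (Fintype.sum_equiv (finTwoArrowEquiv _) _ _ fun x => ?_).symm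
  show _ = w (x 0) * w (x 1) * ⟪leafVec (bump j h) (x 0), leafVec (bump j h) (x 1)⟫
  rw [pair_leafVec_bump hh, Fin.prod_univ_two]
  ring

lemma norm_leafVec_bump_eq {j : ℕ} (hj : j ≤ k) {h : ℝ} (hh : 0 ≤ h)
    (x : (Fin N → Bool) × Leaf n k) : ‖leafVec (bump j h) x‖ ^ 2 = h * N := by
  rw [← real_inner_self_eq_norm_sq, inner_leafVec (bump_nonneg hh 0) fun l _ => bump_mono hh l,
    Vale.Agent.P166N.meet_self]
  simp [bump, hj, ← sq, spin_sq]

/-- The gain from one more field on the levels from `j` on, at given exponents. -/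
lemma integral_lsum_bump_ge [NeZero n] {j : ℕ} (hj : j ≤ k) {h : ℝ} (hh : 0 ≤ h)
    (e : (Fin N → Bool) × Leaf n k → ℝ) :
    lsum e + h * N / 2 * (1 - repAvg e (ovlTh N n k j)) - gainRem (h * N) ≤
      ∫ g, lsum (fun x => e x + ⟪g, leafVec (bump j h) x⟫) ∂stdGaussian (FSp N n k) := by
  have hp := gibW_pos e
  have hi := integrable_addLog hp (sum_gibW e) (fun x => leafVec (bump j h) x)
  have key := integral_addLog_ge hp (sum_gibW e) (fun x => leafVec (bump j h) x) (v := h * N)
    fun x => (norm_leafVec_bump_eq hj hh x).le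
  have e0 : ∀ g, lsum (fun x => e x + ⟪g, leafVec (bump j h) x⟫) =
      lsum e + addLog (gibW e) (fun x => leafVec (bump j h) x) g := fun g => lsum_add _ _
  simp only [e0]
  rw [integral_add (integrable_const _) hi, integral_const, probReal_univ, one_smul]
  simp only [norm_leafVec_bump_eq hj hh, ← Finset.sum_mul, sum_gibW, one_mul, sum_pair_inner hh]
    at key
  simp only [gainRem, repAvg, addLog] at key ⊢
  linarith

include hν in
/-- Raising the variances from level `j` on raises the log-sum to first order by what the replicas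
fail to share. -/
theorem press_bump_ge [NeZero n] (hr : Monotone r) (hr0 : ∀ l, 0 ≤ r l) {j : ℕ} (hj : j ≤ k)
    {h : ℝ} (hh : 0 ≤ h) :
    (uSys a blk hν hn t m r).press P s y +
        h * N / 2 * (1 - (uSys a blk hν hn t m r).avg s y 2 fun _ x => ovlTh N n k j x) -
        gainRem (h * N) ≤
      (uSys a blk hν hn t m fun l => r l + bump j h l).press P s y := by
  have := hν.prob
  have : IsProbabilityMeasure (restLaw ν n k K P) := by unfold restLaw; infer_instance
  have hR : ∀ l < k, seqOf r l ≤ seqOf r (l + 1) := fun l _ => hr (Fin.mk_le_mk.2 (by omega))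
  set r' := fun l : Fin (k + 1) => r l + bump j h l with hr'
  have hA : Integrable (fun p : RSp K N n k P × FSp N n k =>
      lsum (expo a blk hν hn t m r s y p.1 p.2)) ((restLaw ν n k K P).prod (stdGaussian _)) := by
    refine (integrable_join hν ((uSys a blk hν hn t m r).integrable_logZ s y)).congr
      (Filter.Eventually.of_forall fun p => ?_)
    show (uSys a blk hν hn t m r).logZ s y (joinR p) = _
    rw [logZ_joinR]
    rfl
  have hA' : Integrable (fun p : RSp K N n k P × FSp N n k =>
      lsum (expo a blk hν hn t m r' s y p.1 p.2)) ((restLaw ν n k K P).prod (stdGaussian _)) := by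
    refine (integrable_join hν ((uSys a blk hν hn t m r').integrable_logZ s y)).congr
      (Filter.Eventually.of_forall fun p => ?_)
    show (uSys a blk hν hn t m r').logZ s y (joinR p) = _
    rw [logZ_joinR]
    rfl
  have hB : Integrable (fun p : RSp K N n k P × FSp N n k =>
      repAvg (expo a blk hν hn t m r s y p.1 p.2) (ovlTh N n k j))
      ((restLaw ν n k K P).prod (stdGaussian _)) := by
    refine (integrable_join hν (Integrable.of_bound
      (measurable_repAvg_expo a blk hν hn t m r s y (ovlTh N n k j)).aestronglyMeasurable 1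
      (Filter.Eventually.of_forall fun z => abs_repAvg_le _ (abs_ovlTh_le j)))).congr
      (Filter.Eventually.of_forall fun p => ?_)
    exact congrArg (fun e => repAvg e (ovlTh N n k j))
      (funext fun x => exponent_joinR a blk hν hn t m r s y p x)
  have hL := (hA.add ((((integrable_const (1 : ℝ)).sub hB).const_mul (h * N / 2)).sub
    (integrable_const (gainRem (h * N))))).integral_prod_left
  rw [press_eq a blk hν hn t m r', press_eq a blk hν hn t m r, avg_eq a blk hν hn t m r s y
    (abs_ovlTh_le j)]
  refine le_trans (le_of_eq ?_) (integral_mono hL hA'.integral_prod_left fun p => ?_)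
  · rw [← integral_prod _ hA, ← integral_prod _ hB, ← integral_prod _ (hA.add
      ((((integrable_const (1 : ℝ)).sub hB).const_mul (h * N / 2)).sub (integrable_const _))),
      integral_add' hA ((((integrable_const (1 : ℝ)).sub hB).const_mul _).sub (integrable_const _)),
      integral_sub' (((integrable_const (1 : ℝ)).sub hB).const_mul _) (integrable_const _)]
    simp only [Pi.sub_apply, integral_const_mul]
    rw [integral_sub (integrable_const _) hB]
    simp only [integral_const, probReal_univ, one_smul]
    ring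
  · show ∫ g, _ ∂stdGaussian (FSp N n k) ≤ ∫ g, _ ∂stdGaussian (FSp N n k)
    set b : (Fin N → Bool) × Leaf n k → ℝ := baseExp a blk hν hn t m s y p with hb
    have e1 : ∀ g, expo a blk hν hn t m r' s y p g =
        fun x => b x + ⟪g, leafVec (fun l => seqOf r l + bump j h l) x⟫ := fun g => by
      funext x
      rw [expo, hr', seqOf_bump r hj h, hb]
    set F : ((Fin N → Bool) × Leaf n k → ℝ) → ℝ := fun u => lsum fun x => b x + u x with hF
    have hFm : Measurable F := by rw [hF]; unfold lsum; fun_prop
    have hint : Integrable (fun q : FSp N n k × FSp N n k =>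
        F fun x => ⟪q.1, leafVec (seqOf r) x⟫ + ⟪q.2, leafVec (bump j h) x⟫)
        ((stdGaussian (FSp N n k)).prod (stdGaussian (FSp N n k))) := by
      refine Integrable.mono' ((integrable_finsetSum Finset.univ fun x _ => (((integrable_const |b x|).add
        ((integrable_inner (leafVec (seqOf r) x)).abs.comp_fst _)).add
        ((integrable_inner (leafVec (bump j h) x)).abs.comp_snd _))).add
        (integrable_const (Real.log (Fintype.card ((Fin N → Bool) × Leaf n k)))))
        (hFm.comp (by fun_prop)).aestronglyMeasurable (Filter.Eventually.of_forall fun q => ?_)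
      refine (abs_lsum_le _).trans (add_le_add (Finset.sum_le_sum fun x _ => ?_) le_rfl)
      simp only [Pi.add_apply]
      rw [add_assoc]
      exact (abs_add_le _ _).trans (add_le_add le_rfl (abs_add_le _ _))
    simp only [e1, Pi.add_apply, Pi.sub_apply]
    refine le_trans ?_ (integral_bump (hr0 _) hR j hh hFm hint).ge
    have hiA : Integrable (fun g => lsum (expo a blk hν hn t m r s y p g)) (stdGaussian _) := by
      refine Integrable.mono' ((integrable_finsetSum Finset.univ fun x _ => ((integrable_const |b x|).add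
        (integrable_inner (leafVec (seqOf r) x)).abs)).add
        (integrable_const (Real.log (Fintype.card ((Fin N → Bool) × Leaf n k)))))
        (hFm.comp (by fun_prop : Measurable fun g : FSp N n k =>
          fun x => ⟪g, leafVec (seqOf r) x⟫)).aestronglyMeasurable
        (Filter.Eventually.of_forall fun g => ?_)
      exact (abs_lsum_le _).trans (add_le_add (Finset.sum_le_sum fun x _ => abs_add_le _ _) le_rfl)
    have hiB : Integrable (fun g => repAvg (expo a blk hν hn t m r s y p g) (ovlTh N n k j))
        (stdGaussian _) := by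
      refine Integrable.of_bound ?_ 1
        (Filter.Eventually.of_forall fun g => abs_repAvg_le _ (abs_ovlTh_le j))
      refine Measurable.aestronglyMeasurable (Finset.measurable_fun_sum _ fun x _ => ?_)
      simp only [gibW, expo]
      fun_prop
    refine integral_mono (hiA.add ((((integrable_const (1 : ℝ)).sub hiB).const_mul (h * N / 2)).sub
      (integrable_const (gainRem (h * N))))) hint.integral_prod_left fun g => ?_
    have key := integral_lsum_bump_ge hj hh (expo a blk hν hn t m r s y p g)
    simp only [Pi.add_apply, Pi.sub_apply] at key ⊢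
    refine le_trans (le_of_eq ?_) (key.trans (le_of_eq ?_))
    · ring
    · refine integral_congr_ae (Filter.Eventually.of_forall fun g' => congrArg lsum ?_)
      funext x
      simp only [expo, hb]
      ring

end Vale.Agent.P166F
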