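import Vale.Agent.P166F.Up.Dev.Rot
import Vale.Agent.P166F.Up.Dev.Root

/-!
P166: deviation of the pressure of the enriched system.
-/

namespace Vale.Agent.P166F

open MeasureTheory ProbabilityTheory Matrix Filter Dev
open scoped RealInnerProductSpace
open Vale.Agent.P166 (spin)
open Vale.Agent.P166N (Node Leaf unif feat0 meet meet_self nonempty_leaf)
open Vale.Agent.P166N.Spectrum (OrthInvLaw spins)

variable {K N n k P : ℕ}

namespace Dev

/-- The configuration constants of a tree with given weights. -/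
noncomputable def leafConst (m : Fin (k + 1) → ℝ) (v : Node n k → ℝ)
    (x : (Fin N → Bool) × Leaf n k) : ℝ :=
  -(N * Real.log 2) + Real.log (wgt n k (seqOf m) v x.2 / ∑ l, wgt n k (seqOf m) v l)

lemma abs_qwt_le (a : Atoms K) (blk : Fin N → Fin K) {t T s S : ℝ} {y : CIdx (Fin K) P → ℝ}
    (hN : 1 ≤ N) (ht : 0 ≤ t) (hT : t ≤ T) (hs0 : 0 ≤ s) (hs : s ^ 2 ≤ N) (hy : ∀ i, 0 ≤ y i ∧ y i ≤ S)
    (c : Fin N) : |qwt a blk t s y c| ≤ T * ∑ i, |a.lam i| + 2 * S / Real.sqrt N := by
  have hN0 : (0 : ℝ) < N := by exact_mod_cast hN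
  have hS : 0 ≤ S := (hy (Sum.inr (blk c))).1.trans (hy _).2
  refine (abs_add_le _ _).trans (add_le_add ?_ ?_)
  · rw [abs_mul, abs_of_nonneg ht]
    exact mul_le_mul hT (Finset.single_le_sum (f := fun i => |a.lam i|) (fun i _ => abs_nonneg _)
      (Finset.mem_univ _)) (abs_nonneg _) (ht.trans hT)
  · rw [abs_of_nonneg (div_nonneg (mul_nonneg (mul_nonneg zero_le_two hs0) (hy _).1) hN0.le)]
    have h1 : s ≤ Real.sqrt N := Real.le_sqrt_of_sq_le hs
    have h2 : Real.sqrt N * Real.sqrt N = N := Real.mul_self_sqrt hN0.le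
    rw [div_le_div_iff₀ hN0 (Real.sqrt_pos.2 hN0)]
    have h3 : s * y (Sum.inr (blk c)) ≤ Real.sqrt N * S :=
      mul_le_mul h1 (hy _).2 (hy _).1 (Real.sqrt_nonneg _)
    nlinarith [mul_le_mul_of_nonneg_right h3 (Real.sqrt_nonneg (N : ℝ))]

lemma dev_arith {rN S s L A C0 sc Kr Pr D Lam lz : ℝ} (hrN : 1 ≤ rN) (hS : 0 ≤ S) (hs : 0 ≤ s)
    (hL : 0 ≤ L) (hA : 0 ≤ A) (hK : 0 ≤ Kr) (hP : 0 ≤ Pr) (hsc : 0 ≤ sc) (hD : sc * (1 + Pr) ≤ D)
    (hD1 : 1 ≤ D) (hlz : lz ≤ (1 + L) * rN) (hLam : Lam * rN ≤ A * rN + 2 * S) :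
    2 * (3 * lz + 3 * (S * sc) + (8 * Lam * rN + 20 * (S * sc * (Kr * Pr) + 1)) + C0) ≤
      2 * (3 + 8 * A + 20 + |C0| + (3 + 16 + 20 * Kr)) * (1 + L) *
        ((1 + (S / rN) ^ 2) * rN + S + s) * D ^ 2 := by
  set X := (1 + (S / rN) ^ 2) * rN + S + s
  have hXN : rN + S ≤ X := by
    have : 0 ≤ (S / rN) ^ 2 * rN := by positivity
    simp only [X]
    linarith
  have hX0 : 0 ≤ X := by linarith
  have hD2 : D ≤ D ^ 2 := le_self_pow₀ hD1 two_ne_zero
  set G := (1 + L) * X * D ^ 2
  have h1 : (1 + L) * X * 1 ≤ G := mul_le_mul_of_nonneg_left (hD1.trans hD2) (by positivity)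
  have h2 : 1 * X * D ≤ G :=
    mul_le_mul (mul_le_mul_of_nonneg_right (by linarith) hX0) hD2 (by linarith) (by positivity)
  have g1 : (1 + L) * rN ≤ G :=
    le_trans (mul_le_mul_of_nonneg_left (show rN ≤ X by linarith) (by linarith)) (by linarith)
  have g2 : S * D ≤ G :=
    le_trans (mul_le_mul_of_nonneg_right (show S ≤ X by linarith) (by linarith)) (by linarith)
  have g3 : rN ≤ G := le_trans (le_mul_of_one_le_left (by linarith) (by linarith)) g1
  have g4 : S ≤ G := le_trans (le_mul_of_one_le_right hS hD1) g2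
  have g5 : S * sc ≤ G := le_trans (mul_le_mul_of_nonneg_left (by nlinarith) hS) g2
  have g6 : S * sc * (Kr * Pr) ≤ Kr * G := by
    calc S * sc * (Kr * Pr) = Kr * (S * (sc * Pr)) := by ring
      _ ≤ Kr * (S * D) :=
          mul_le_mul_of_nonneg_left (mul_le_mul_of_nonneg_left (by nlinarith) hS) hK
      _ ≤ _ := mul_le_mul_of_nonneg_left g2 hK
  have g7 : A * rN ≤ A * G := mul_le_mul_of_nonneg_left g3 hA
  have g8 : C0 ≤ |C0| * G := (le_abs_self _).trans (le_mul_of_one_le_right (abs_nonneg _) (hrN.trans g3))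
  have q2 : 8 * Lam * rN ≤ 8 * A * G + 16 * G := by linarith
  have hG1 : (1 : ℝ) ≤ G := hrN.trans g3
  calc _ ≤ 2 * ((3 + 8 * A + 20 + |C0| + (3 + 16 + 20 * Kr)) * G) := by linarith
    _ = _ := by ring

end Dev

/-- The deviation by coordinates. -/
theorem dev_le (a : Atoms K) {T : ℝ} {m : Fin (k + 1) → ℝ} (hm : Levels m) (blk : Fin N → Fin K)
    {ν : Measure (Fin N → Fin N → ℝ)} (hν : OrthInvLaw N ν) {t : ℝ} {r : Fin (k + 1) → ℝ}
    {s S L : ℝ} {y : CIdx (Fin K) P → ℝ} (hN : 1 ≤ N) (ht : 0 ≤ t) (hT : t ≤ T) (hr : Monotone r)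
    (hrb : ∀ l, 0 ≤ r l ∧ r l ≤ L) (hs1 : 1 ≤ s) (hs : s ^ 2 ≤ N) (hS : 0 ≤ S)
    (hy : ∀ i, 0 ≤ y i ∧ y i ≤ S) :
    ∀ᶠ n in atTop, (uSys a blk hν (n := n + 1) (by omega) t m r).dev P s y ≤
      2 * (3 * Real.sqrt (L * N) + 3 * (S * Real.sqrt (Fintype.card (CIdx (Fin K) P))) +
        (8 * (T * ∑ i, |a.lam i| + 2 * S / Real.sqrt N) * Real.sqrt N +
          20 * (S * Real.sqrt (Fintype.card (CIdx (Fin K) P)) * (K * P) + 1)) +
        (devConst k (seqOf m) + 2)) := by
  have := hν.prob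
  have hstab := Orth.OrthInvLaw.stabLaw hν
  have hm1 : ∀ j, 1 ≤ j → j ≤ k → 0 < seqOf m j ∧ seqOf m j < 1 := fun j h1 h2 => by
    refine ⟨?_, hm.ltOne _⟩
    rw [← hm.zero]
    exact hm.strict (Fin.lt_def.2 (by simp; omega))
  have hm2 : ∀ j, 1 ≤ j → j < k → seqOf m j < seqOf m (j + 1) := fun j h1 h2 =>
    hm.strict (Fin.lt_def.2 (by simp; omega))
  set R : ℕ → Fin N → ℝ := fun j _ => seqOf r j
  set Λ := T * ∑ i, |a.lam i| + 2 * S / Real.sqrt N
  have hΛ : ∀ c, |qwt a blk t s y c| ≤ Λ := abs_qwt_le a blk hN ht hT (by linarith) hs hy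
  have hΛ0 : 0 ≤ Λ := (abs_nonneg _).trans (hΛ ⟨0, hN⟩)
  have hy2 : ∀ e : Mon (Fin K) P, y (Sum.inl e) ^ 2 ≤ S ^ 2 := fun e =>
    pow_le_pow_left₀ (hy _).1 (hy _).2 2
  set sc := Real.sqrt (Fintype.card (CIdx (Fin K) P))
  set γg := stdGaussian (GSp K N P)
  set b : (Fin N → Fin N → ℝ) × GSp K N P → (Fin N → Bool) → ℝ :=
    fun q σ => expo a blk t s y q.2 σ q.1
  have hbc : Continuous b := continuous_pi fun σ => continuous_expo a blk t s y σ
  have hbi : Integrable (fun q => ‖b q‖) (ν.prod γg) := by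
    have h1 : Integrable (fun g : GSp K N P => ‖g‖) γg := (IsGaussian.integrable_id (μ := γg)).norm
    refine ((integrable_const (Λ * N)).add ((h1.mul_const (S * sc)).comp_snd ν)).mono'
      hbc.norm.aestronglyMeasurable ?_
    filter_upwards [Measure.quasiMeasurePreserving_fst.ae hν.orth] with q hq
    rw [norm_norm]
    refine (pi_norm_le_iff_of_nonneg (add_nonneg (mul_nonneg hΛ0 (Nat.cast_nonneg N))
      (mul_nonneg (norm_nonneg _) (mul_nonneg hS (Real.sqrt_nonneg _))))).2 fun σ => ?_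
    rw [Real.norm_eq_abs]
    refine (abs_add_le _ _).trans (add_le_add (abs_quad_le hΛ hq _) ?_)
    refine (abs_real_inner_le_norm _ _).trans (mul_le_mul_of_nonneg_left ?_ (norm_nonneg _))
    rw [← Real.sqrt_sq hS, ← Real.sqrt_mul (sq_nonneg S), mul_comm]
    exact Real.le_sqrt_of_sq_le (norm_feat_sq_le blk hq σ y hy2)
  filter_upwards [(tendsto_add_atTop_nat 1).eventually
    (eventually_mean_rootDev hm1 hm2 (R := R) hbc.measurable hbi)] with n hroot
  obtain ⟨hri, hrb'⟩ := hroot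
  have hn : 1 ≤ n + 1 := by omega
  have := nonempty_leaf hn k
  set Sy := uSys a blk hν hn t m r
  set μV := Measure.pi fun _ : Node (n + 1) k => unif
  set γz := stdGaussian (FSp N (n + 1) k)
  set wlaw := ν.prod (γg.prod γz)
  set F : (Node (n + 1) k → ℝ) × ((Fin N → Fin N → ℝ) × (GSp K N P × FSp N (n + 1) k)) → ℝ :=
    fun p => restLse a blk t s y Prod.fst (leafConst m p.1) (leafVec (seqOf r)) p.2 with hF
  have hFm : Measurable F := by
    refine (Finset.measurable_fun_sum _ fun x _ => Measurable.exp ?_).log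
    refine Measurable.add ?_ (Measurable.add ?_ (by fun_prop))
    · exact ((continuous_expo a blk t s y x.1).comp
        (continuous_fst.prodMk (continuous_fst.comp continuous_snd))).measurable.comp measurable_snd
    · exact (((((measurable_wgt k (seqOf m) x.2).div
        (Finset.measurable_fun_sum _ fun l _ => measurable_wgt k (seqOf m) l)).log).comp
          measurable_fst).const_add _)
  -- the layout of the randomness
  set φ : RSp K N (n + 1) k P × FSp N (n + 1) k →
      (Node (n + 1) k → ℝ) × ((Fin N → Fin N → ℝ) × (GSp K N P × FSp N (n + 1) k)) :=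
    fun p => (p.1.1.2, (p.1.1.1, (p.1.2, p.2)))
  have hφ : MeasurePreserving φ ((restLaw ν (n + 1) k K P).prod γz) (μV.prod wlaw) := by
    have h1 := (measurePreserving_prodAssoc μV ν (γg.prod γz)).comp
      (((Measure.measurePreserving_swap (μ := ν) (ν := μV)).prod
        (MeasurePreserving.id (γg.prod γz))).comp (measurePreserving_prodAssoc (ν.prod μV) γg γz))
    exact h1
  have hJ := measurePreserving_joinR (K := K) (N := N) (n := n + 1) (k := k) (P := P) ν
  have hZ : Measurable fun z => Sy.logZ s y z := Sy.measurable_logZ s y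
  have hZi : Integrable (fun z => Sy.logZ s y z) (Sy.full P) := Sy.integrable_logZ s y
  have hZF : (fun p => Sy.logZ s y (joinR p)) =ᵐ[(restLaw ν (n + 1) k K P).prod γz]
      fun p => F (φ p) := by
    filter_upwards [(hφ.quasiMeasurePreserving.ae (Measure.quasiMeasurePreserving_snd.ae
      (Measure.quasiMeasurePreserving_fst.ae hν.orth)))] with p hp
    rw [logZ_joinR a blk hν hn t m r s y p, hF]
    refine congrArg lsum (funext fun x => ?_)
    have e := expo_eq a blk hν hn t m (fun _ => (0 : ℝ)) s y (p.1.1.1, (p.1.1.2, 0)) hp p.1.2 x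
    simp only [baseExp, restLogw, leafConst, φ] at e ⊢
    rw [← e]
    simp only [Pi.zero_def]
    ring
  have hFi : Integrable F (μV.prod wlaw) :=
    (hφ.integrable_comp hFm.aestronglyMeasurable).1
      (((hJ.integrable_comp hZ.aestronglyMeasurable).2 hZi).congr hZF)
  -- the comparison with the value at the root
  set H : (Fin N → Fin N → ℝ) × (GSp K N P × FSp N (n + 1) k) → ℝ := fun w =>
    -(N * Real.log 2) + nestVal k (seqOf m) R (spinG (b (w.1, w.2.1))) (rootPt R (byNode w.2.2 none))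
  have hHc : Continuous H := by
    refine continuous_const.add ((continuous_rootVal (R := R) fun j h1 h2 => (hm1 j h1 h2).1).comp
      ((hbc.comp (continuous_fst.prodMk (continuous_fst.comp continuous_snd))).prodMk ?_))
    fun_prop
  set ψ : (Node (n + 1) k → ℝ) × ((Fin N → Fin N → ℝ) × (GSp K N P × FSp N (n + 1) k)) →
      ((Fin N → Fin N → ℝ) × GSp K N P) ×
        ((Node (n + 1) k → ℝ) × (Option (Node (n + 1) k) → EuclideanSpace ℝ (Fin N))) :=
    fun p => ((p.2.1, p.2.2.1), (p.1, byNode p.2.2.2))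
  have hψ : MeasurePreserving ψ (μV.prod wlaw) ((ν.prod γg).prod (markLaw (n + 1) k (Fin N))) := by
    have h1 : MeasurePreserving
        (fun p : (Node (n + 1) k → ℝ) × ((Fin N → Fin N → ℝ) × (GSp K N P × FSp N (n + 1) k)) =>
          ((p.2.1, p.2.2.1), (p.1, p.2.2.2)))
        (μV.prod wlaw) ((ν.prod γg).prod (μV.prod γz)) := by
      have s1 := (MeasurePreserving.id μV).prod
        ((measurePreserving_prodAssoc ν γg γz).symm MeasurableEquiv.prodAssoc)
      have s2 := (measurePreserving_prodAssoc μV (ν.prod γg) γz).symm MeasurableEquiv.prodAssoc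
      have s3 := (Measure.measurePreserving_swap (μ := μV) (ν := ν.prod γg)).prod (MeasurePreserving.id γz)
      exact (measurePreserving_prodAssoc (ν.prod γg) μV γz).comp (s3.comp (s2.comp s1))
    unfold markLaw
    exact ((MeasurePreserving.id (ν.prod γg)).prod
      ((MeasurePreserving.id μV).prod (measurePreserving_byNode _ N))).comp h1
  set D : ((Fin N → Fin N → ℝ) × GSp K N P) ×
      ((Node (n + 1) k → ℝ) × (Option (Node (n + 1) k) → EuclideanSpace ℝ (Fin N))) → ℝ := fun q =>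
    treeLog (n := n + 1) k (seqOf m) R (spinG (b q.1)) q.2 -
      nestVal k (seqOf m) R (spinG (b q.1)) (rootPt R (q.2.2 none))
  have hDm : Measurable D := by
    refine Measurable.sub ?_ (((continuous_rootVal (R := R) fun j h1 h2 => (hm1 j h1 h2).1).measurable).comp
      ((hbc.measurable.comp measurable_fst).prodMk (by fun_prop)))
    refine Measurable.log (Measurable.div ?_ ?_)
    · refine Finset.measurable_fun_sum _ fun l _ => Measurable.mul
        ((measurable_wgt k (seqOf m) l).comp (measurable_fst.comp measurable_snd)) (Measurable.exp ?_)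
      refine continuous_lsum.measurable.comp (measurable_pi_lambda _ fun σ => Measurable.add
        (((continuous_apply σ).comp hbc).measurable.comp measurable_fst) ?_)
      exact Finset.measurable_fun_sum _ fun i _ => (((continuous_leafPt R l i).measurable).comp
        (measurable_snd.comp measurable_snd)).mul_const _
    · exact Finset.measurable_fun_sum _ fun l _ =>
        (measurable_wgt k (seqOf m) l).comp (measurable_fst.comp measurable_snd)
  have hDi : Integrable D ((ν.prod γg).prod (markLaw (n + 1) k (Fin N))) :=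
    (integrable_prod_iff hDm.aestronglyMeasurable).2
      ⟨Eventually.of_forall fun q => integrable_rootDiff hm1 hm2 hn (b q), by
        simpa only [Real.norm_eq_abs, rootDev, D] using hri⟩
  have hFD : (fun p => F p - H p.2) =ᵐ[μV.prod wlaw] fun p => D (ψ p) := by
    filter_upwards [Measure.quasiMeasurePreserving_fst.ae (ae_node_pos' (n := n + 1) (k := k))] with p hp
    have hwp := wgt_pos (m := seqOf m) hn hp
    have hW : 0 < ∑ l, wgt (n + 1) k (seqOf m) p.1 l :=
      Finset.sum_pos (fun l _ => hwp l) Finset.univ_nonempty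
    have hsum : ∑ x : (Fin N → Bool) × Leaf (n + 1) k, Real.exp (expo a blk t s y p.2.2.1 x.1 p.2.1 +
        (leafConst m p.1 x + ⟪p.2.2.2, leafVec (seqOf r) x⟫)) =
        Real.exp (-(N * Real.log 2)) * ((∑ l, wgt (n + 1) k (seqOf m) p.1 l *
          Real.exp (spinG (b (p.2.1, p.2.2.1)) (leafPt k R l (byNode p.2.2.2)))) /
            ∑ l, wgt (n + 1) k (seqOf m) p.1 l) := by
      rw [Fintype.sum_prod_type, Finset.sum_comm, Finset.sum_div, Finset.mul_sum]
      refine Finset.sum_congr rfl fun l _ => ?_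
      rw [spinG, lsum, Real.exp_log (Finset.sum_pos (fun _ _ => Real.exp_pos _) Finset.univ_nonempty),
        Finset.mul_sum, Finset.sum_div, Finset.mul_sum]
      refine Finset.sum_congr rfl fun σ _ => ?_
      rw [← leafPt_byNode (seqOf r) (σ, l) p.2.2.2]
      simp only [leafConst, Real.exp_add, Real.exp_log (div_pos (hwp l) hW), b, R]
      ring
    have hS0 : 0 < (∑ l, wgt (n + 1) k (seqOf m) p.1 l *
        Real.exp (spinG (b (p.2.1, p.2.2.1)) (leafPt k R l (byNode p.2.2.2)))) /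
          ∑ l, wgt (n + 1) k (seqOf m) p.1 l :=
      div_pos (Finset.sum_pos (fun l _ => mul_pos (hwp l) (Real.exp_pos _)) Finset.univ_nonempty) hW
    simp only [F, H, D, ψ, restLse, lsum, treeLog]
    rw [hsum, Real.log_mul (Real.exp_pos _).ne' hS0.ne', Real.log_exp]
    ring
  have hdi : Integrable (fun p => F p - H p.2) (μV.prod wlaw) :=
    ((hψ.integrable_comp hDm.aestronglyMeasurable).2 hDi).congr hFD.symm
  have hHi : Integrable H wlaw :=
    (measurePreserving_snd (μ := μV).integrable_comp hHc.aestronglyMeasurable).1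
      ((hFi.sub hdi).congr (Eventually.of_forall fun p => sub_sub_cancel _ _))
  set c := ∫ w, H w ∂wlaw
  -- transport
  have htr : ∫ z, |Sy.logZ s y z - c| ∂Sy.full P = ∫ p, |F p - c| ∂μV.prod wlaw := by
    have e1 := integral_map (μ := (restLaw ν (n + 1) k K P).prod γz) (φ := joinR) hJ.measurable.aemeasurable
      (f := fun z => |Sy.logZ s y z - c|) (hZ.sub_const c).abs.aestronglyMeasurable
    rw [hJ.map_eq] at e1
    refine e1.trans ?_
    rw [← hφ.map_eq, integral_map hφ.measurable.aemeasurable (hFm.sub_const c).abs.aestronglyMeasurable]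
    exact integral_congr_ae (hZF.mono fun p hp => by simp only [hp])
  have htree : ∫ p, |F p - H p.2| ∂μV.prod wlaw ≤ devConst k (seqOf m) + 2 := by
    rw [integral_congr_ae (hFD.mono fun p hp => congrArg abs hp),
      ← integral_map hψ.measurable.aemeasurable hDm.abs.aestronglyMeasurable, hψ.map_eq,
      integral_prod _ hDi.abs]
    exact hrb'
  have hL0 : 0 ≤ L := (hrb 0).1.trans (hrb 0).2
  have hlz : ∀ x : (Fin N → Bool) × Leaf (n + 1) k, ‖leafVec (seqOf r) x‖ ≤ Real.sqrt (L * N) := fun x => by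
    refine Real.le_sqrt_of_sq_le ?_
    have h0 : 0 ≤ seqOf r 0 := (hrb _).1
    have hR : ∀ j < k, seqOf r j ≤ seqOf r (j + 1) := fun j hj =>
      hr (Fin.le_def.2 (show min j k ≤ min (j + 1) k by omega))
    rw [← real_inner_self_eq_norm_sq, inner_leafVec h0 hR]
    have e : ∑ i, spin (x.1 i) * spin (x.1 i) = (N : ℝ) := by simp [← sq, spin_sq]
    rw [e]
    exact mul_le_mul_of_nonneg_right (hrb _).2 (Nat.cast_nonneg _)
  set B := 3 * Real.sqrt (L * N) + 3 * (S * sc) + (8 * Λ * Real.sqrt N +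
        20 * (S * sc * (K * P) + 1))
  have hrest : ∫ p, |F p - c| ∂μV.prod wlaw ≤ B + (devConst k (seqOf m) + 2) := by
    refine (mad_prod hFi c).trans (add_le_add ?_ ((mean_dist_le hFi hHi).trans htree))
    refine (integral_mono_ae (hFi.sub (hFi.integral_prod_left.comp_fst _)).abs.integral_prod_left
      (integrable_const B) (Eventually.of_forall fun v => ?_)).trans_eq (by simp)
    exact mad_restLse a blk hstab t s y Prod.fst (leafConst m v) (leafVec (seqOf r)) hN hS hΛ hy2 hlz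
  exact
    (mad_le_two (μ := Sy.full P) hZi c).trans (mul_le_mul_of_nonneg_left (htr.le.trans hrest) zero_le_two)

theorem uSys_dev_aux (a : Atoms K) (T : ℝ) {m : Fin (k + 1) → ℝ} (hm : Levels m) :
    ∃ C, ∀ (N : ℕ) (blk : Fin N → Fin K) (ν : Measure (Fin N → Fin N → ℝ)) (hν : OrthInvLaw N ν)
      (t : ℝ) (r : Fin (k + 1) → ℝ) (P : ℕ) (s S L : ℝ) (y : CIdx (Fin K) P → ℝ),
      1 ≤ N → 0 ≤ t → t ≤ T → Monotone r → (∀ l, 0 ≤ r l ∧ r l ≤ L) → 1 ≤ s → s ^ 2 ≤ N →
      0 ≤ S → (∀ i, 0 ≤ y i ∧ y i ≤ S) →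
      ∀ᶠ n in atTop, (uSys a blk hν (n := n + 1) (by omega) t m r).dev P s y ≤
        C * (1 + L) * ((1 + (S / Real.sqrt N) ^ 2) * Real.sqrt N + S + s) *
          (Fintype.card (CIdx (Fin K) P) * (P + 1) : ℝ) ^ 2 := by
  refine ⟨2 * (3 + 8 * (|T| * ∑ i, |a.lam i|) + 20 + |devConst k (seqOf m) + 2| + (3 + 16 + 20 * K)),
    fun N blk ν hν t r P s S L y hN ht hT hr hrb hs1 hs hS hy => ?_⟩
  -- the arithmetic
  filter_upwards [dev_le a hm blk hν hN ht hT hr hrb hs1 hs hS hy] with n hdev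
  refine hdev.trans ?_
  have hL0 : 0 ≤ L := (hrb 0).1.trans (hrb 0).2
  have hN0 : (0 : ℝ) < N := by exact_mod_cast hN
  have hK : 0 < K := by
    rcases Nat.eq_zero_or_pos K with rfl | h
    · simpa using a.total
    · exact h
  have hcard : (1 : ℝ) ≤ Fintype.card (CIdx (Fin K) P) := by
    exact_mod_cast (show 1 ≤ Fintype.card (CIdx (Fin K) P) by simp [Fintype.card_sum]; omega)
  refine dev_arith (Real.one_le_sqrt.2 (by exact_mod_cast hN)) hS (by linarith) hL0 (by positivity)
    (Nat.cast_nonneg K) (Nat.cast_nonneg P) (Real.sqrt_nonneg _) ?_ ?_ ?_ ?_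
  · rw [add_comm (1 : ℝ)]
    refine mul_le_mul_of_nonneg_right ?_ (by positivity)
    rw [Real.sqrt_le_iff]
    exact ⟨by linarith, le_self_pow₀ hcard two_ne_zero⟩
  · nlinarith [Nat.cast_nonneg (α := ℝ) P]
  · rw [Real.sqrt_mul hL0]
    refine mul_le_mul_of_nonneg_right ?_ (Real.sqrt_nonneg _)
    rw [Real.sqrt_le_iff]
    exact ⟨by linarith, by nlinarith⟩
  · rw [add_mul, div_mul_cancel₀ _ (Real.sqrt_pos.2 hN0).ne']
    gcongr
    exact le_abs_self T

end Vale.Agent.P166F
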