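import Vale.Agent.P166F.Up.Loop

/-!
P166: the loop equation of the enriched system in terms of its averages of overlaps.
-/

namespace Vale.Agent.P166F

open MeasureTheory ProbabilityTheory Matrix
open scoped RealInnerProductSpace
open Vale.Agent.P166 (spin)
open Vale.Agent.P166N (Node Leaf nonempty_leaf)
open Vale.Agent.P166N.Spectrum (OrthInvLaw)
open Loop2

variable {K N n k P : ℕ}

lemma sum_fin3 {X : Type} [Fintype X] (H : X → ℝ) (Θ : (Fin 3 → X) → ℝ) :
    (∑ x : Fin 3 → X, (∏ l, Real.exp (H (x l))) * Θ x) / (∑ x, Real.exp (H x)) ^ 3 =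
      avg3 H fun a b c => Θ ![a, b, c] := by
  let e : X × X × X ≃ (Fin 3 → X) :=
    { toFun := fun p => ![p.1, p.2.1, p.2.2]
      invFun := fun x => (x 0, x 1, x 2)
      left_inv := fun p => by simp
      right_inv := fun x => by funext l; fin_cases l <;> rfl }
  rw [← e.sum_comp]
  simp only [Fintype.sum_prod_type, Fin.prod_univ_three, Finset.sum_div, avg3, gw]
  refine Finset.sum_congr rfl fun a _ => Finset.sum_congr rfl fun b _ => Finset.sum_congr rfl fun c _ => ?_
  show Real.exp (H a) * Real.exp (H b) * Real.exp (H c) * Θ ![a, b, c] / _ = _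
  simp only [div_eq_mul_inv]
  ring

lemma sum_fin2 {X : Type} [Fintype X] [Nonempty X] (H : X → ℝ) (Θ : (Fin 2 → X) → ℝ) :
    (∑ x : Fin 2 → X, (∏ l, Real.exp (H (x l))) * Θ x) / (∑ x, Real.exp (H x)) ^ 2 =
      avg3 H fun a b _ => Θ ![a, b] := by
  let e : X × X ≃ (Fin 2 → X) :=
    { toFun := fun p => ![p.1, p.2]
      invFun := fun x => (x 0, x 1)
      left_inv := fun p => by simp
      right_inv := fun x => by funext l; fin_cases l <;> rfl }
  rw [← e.sum_comp]
  simp only [Fintype.sum_prod_type, Fin.prod_univ_two, Finset.sum_div, avg3]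
  refine Finset.sum_congr rfl fun a _ => Finset.sum_congr rfl fun b _ => ?_
  rw [← Finset.sum_mul, ← Finset.mul_sum, sum_gw, mul_one]
  show Real.exp (H a) * Real.exp (H b) * Θ ![a, b] / _ = _
  simp only [gw, div_eq_mul_inv]
  ring

/-- The overlaps of all blocks add up to the overlap of the spins. -/
lemma sum_ov (blk : Fin N → Fin K) (σ τ : Fin N → Bool) {U : Orth.Arr2 N}
    (hU : (Matrix.of U)ᵀ * Matrix.of U = 1) :
    ∑ l, ov blk l σ τ U = (∑ b, spin (σ b) * spin (τ b)) / N := by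
  simp only [ov_eq]
  rw [Finset.sum_fiberwise]
  set x := fun j => spin (σ j)
  set x' := fun j => spin (τ j)
  have e : (Matrix.of U *ᵥ x) ⬝ᵥ (Matrix.of U *ᵥ x') = x ⬝ᵥ x' := by
    rw [dotProduct_mulVec, ← mulVec_transpose, mulVec_mulVec, hU, one_mulVec]
  rw [show (∑ b, spin (σ b) * spin (τ b)) = x ⬝ᵥ x' from rfl, ← e]
  rw [show (Matrix.of U *ᵥ x) ⬝ᵥ (Matrix.of U *ᵥ x') = ∑ b, (Matrix.of U *ᵥ x) b * (Matrix.of U *ᵥ x') b
    from rfl, Finset.sum_div]
  refine Finset.sum_congr rfl fun b _ => ?_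
  simp only [uc, dotProduct, mulVec, Orth.proj, of_apply, x, x']
  rw [div_mul_div_comm, Real.mul_self_sqrt (Nat.cast_nonneg N)]

lemma ov_comm (blk : Fin N → Fin K) (l : Fin K) (σ τ : Fin N → Bool) (U : Orth.Arr2 N) :
    ov blk l σ τ U = ov blk l τ σ U :=
  real_inner_comm _ _

/-- An average of overlaps of the enriched system as an average over three replicas. -/
lemma expect_three (a : Atoms K) (blk : Fin N → Fin K) {ν : Measure (Fin N → Fin N → ℝ)}
    (hν : OrthInvLaw N ν) (hn : 1 ≤ n) (t : ℝ) (m r : Fin (k + 1) → ℝ) (s : ℝ)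
    (y : CIdx (Fin K) P → ℝ) (Φ : OArr (Fin K) 3 → ℝ) :
    (uSys a blk hν hn t m r).expect s y Φ =
      ∫ z, avg3 (hz a blk t s m r y z) (fun x x' w =>
        Φ fun p q l => ov blk l (![x, x', w] p).1 (![x, x', w] q).1 z.1.1)
      ∂(ν.prod (markLaw n k (Fin N))).prod (stdGaussian (GSpace K N P)) := by
  have := hν.prob
  refine integral_congr_ae ((Measure.quasiMeasurePreserving_fst.ae
    (Measure.quasiMeasurePreserving_fst.ae hν.orth)).mono fun z hz' => ?_)
  have hb : ∀ (x : (Fin N → Bool) × Leaf n k) (l : Fin K),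
      toBall (blockVec blk z.1.1 x.1 l) = blockVec blk z.1.1 x.1 l := fun x l =>
    toBall_of_le (norm_blockVec_le blk hz' x.1 l)
  refine Eq.trans ?_ (sum_fin3 (hz a blk t s m r y z) fun x => Φ fun p q l => ov blk l (x p).1 (x q).1 z.1.1)
  refine congrArg₂ (· / ·) (Finset.sum_congr rfl fun x _ => congrArg₂ (· * ·)
    (Finset.prod_congr rfl fun l _ => congrArg Real.exp (logw_add_ham a blk hν hn t s m r y z hz' (x l)))
    (congrArg Φ (funext fun p => funext fun q => funext fun l => ?_)))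
    (congrArg (· ^ 3) (Finset.sum_congr rfl fun x _ =>
      congrArg Real.exp (logw_add_ham a blk hν hn t s m r y z hz' x)))
  show ⟪toBall (blockVec blk z.1.1 (x p).1 l), toBall (blockVec blk z.1.1 (x q).1 l)⟫ = _
  exact congrArg₂ (fun u v => ⟪u, v⟫) (hb (x p) l) (hb (x q) l)

/-- An average of overlaps of two replicas. -/
lemma expect_two (a : Atoms K) (blk : Fin N → Fin K) {ν : Measure (Fin N → Fin N → ℝ)}
    (hν : OrthInvLaw N ν) (hn : 1 ≤ n) (t : ℝ) (m r : Fin (k + 1) → ℝ) (s : ℝ)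
    (y : CIdx (Fin K) P → ℝ) (Φ : OArr (Fin K) 2 → ℝ) :
    (uSys a blk hν hn t m r).expect s y Φ =
      ∫ z, avg3 (hz a blk t s m r y z) (fun x x' _ =>
        Φ fun p q l => ov blk l (![x, x'] p).1 (![x, x'] q).1 z.1.1)
      ∂(ν.prod (markLaw n k (Fin N))).prod (stdGaussian (GSpace K N P)) := by
  have := hν.prob
  have := nonempty_leaf hn k
  refine integral_congr_ae ((Measure.quasiMeasurePreserving_fst.ae
    (Measure.quasiMeasurePreserving_fst.ae hν.orth)).mono fun z hz' => ?_)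
  have hb : ∀ (x : (Fin N → Bool) × Leaf n k) (l : Fin K),
      toBall (blockVec blk z.1.1 x.1 l) = blockVec blk z.1.1 x.1 l := fun x l =>
    toBall_of_le (norm_blockVec_le blk hz' x.1 l)
  refine Eq.trans ?_ (sum_fin2 (hz a blk t s m r y z) fun x => Φ fun p q l => ov blk l (x p).1 (x q).1 z.1.1)
  refine congrArg₂ (· / ·) (Finset.sum_congr rfl fun x _ => congrArg₂ (· * ·)
    (Finset.prod_congr rfl fun l _ => congrArg Real.exp (logw_add_ham a blk hν hn t s m r y z hz' (x l)))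
    (congrArg Φ (funext fun p => funext fun q => funext fun l => ?_)))
    (congrArg (· ^ 2) (Finset.sum_congr rfl fun x _ =>
      congrArg Real.exp (logw_add_ham a blk hν hn t s m r y z hz' x)))
  show ⟪toBall (blockVec blk z.1.1 (x p).1 l), toBall (blockVec blk z.1.1 (x q).1 l)⟫ = _
  exact congrArg₂ (fun u v => ⟪u, v⟫) (hb (x p) l) (hb (x q) l)

/-- The loop equation holds up to the shares of the blocks and the size of the perturbation. -/
theorem uSys_loop_bound (K : ℕ) :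
    ∃ C, ∀ (N : ℕ) (a : Atoms K) (blk : Fin N → Fin K) (ν : Measure (Fin N → Fin N → ℝ))
      (hν : OrthInvLaw N ν) (n kk : ℕ) (hn : 1 ≤ n) (m r : Fin (kk + 1) → ℝ) (t s S : ℝ) (P : ℕ)
      (y : CIdx (Fin K) P → ℝ) (φ : ℝ → ℝ) (B ε : ℝ) (i j : Fin K),
      1 ≤ N → 0 ≤ s → s ≤ S → (∀ e, 0 ≤ y e ∧ y e ≤ S) → Continuous φ → (∀ x, |φ x| ≤ B) →
      (∀ l, |((Finset.univ.filter fun b => blk b = l).card : ℝ) / N - a.wt l| ≤ ε) →
      |(uSys a blk hν hn t m r).expect s y (fun R : OArr (Fin K) 3 =>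
          φ (∑ l, R 0 1 l) * loopPoly a t id i j R)| ≤
        C * B * (ε + (S / Real.sqrt N + S ^ 2 / N) * (Fintype.card (CIdx (Fin K) P) * (P + 1) : ℝ) ^ 2) ∧
      |(uSys a blk hν hn t m r).expect s y (fun R : OArr (Fin K) 2 =>
          a.wt i * R 0 0 j - a.wt j * R 0 0 i + t * (a.lam i - a.lam j) *
            (R 0 0 i * R 0 0 j - R 0 1 i * R 0 1 j))| ≤
        C * (ε + (S / Real.sqrt N + S ^ 2 / N) * (Fintype.card (CIdx (Fin K) P) * (P + 1) : ℝ) ^ 2) := by
  refine ⟨20 * (K : ℝ) + 16, fun N a blk ν hν n kk hn m r t s S P y φ B ε i j hN hs0 hs hy hφ hB hε => ?_⟩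
  have := hν.prob
  have := nonempty_leaf hn kk
  set μ := (ν.prod (markLaw n kk (Fin N))).prod (stdGaussian (GSpace K N P)) with hμ
  have hμp : IsProbabilityMeasure μ := by rw [hμ]; infer_instance
  set Q : ℝ := (Fintype.card (CIdx (Fin K) P) : ℝ) * (P + 1) with hQ
  set R : ℝ := ε + (S / Real.sqrt N + S ^ 2 / N) * Q ^ 2 with hR
  have hQ1 : 1 ≤ Q := by
    have h1 : (1 : ℝ) ≤ Fintype.card (CIdx (Fin K) P) := by
      exact_mod_cast Fintype.card_pos_iff.2 ⟨Sum.inr i⟩
    have h2 : (1 : ℝ) ≤ (P : ℝ) + 1 := by linarith [(Nat.cast_nonneg P : (0 : ℝ) ≤ P)]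
    simp only [Q]
    nlinarith
  have hS0 : 0 ≤ S := hs0.trans hs
  have hε0 : 0 ≤ ε := (abs_nonneg _).trans (hε i)
  have hB0 : 0 ≤ B := (abs_nonneg _).trans (hB 0)
  have hK : (0 : ℝ) ≤ K := Nat.cast_nonneg K
  have hR0 : 0 ≤ R := by positivity
  have hbd : ∀ b : ℝ, 0 ≤ b → b * (2 * ε + 16 * (S ^ 2 / N) +
      20 * K * (S / Real.sqrt N) * Q) ≤ (20 * (K : ℝ) + 16) * b * R := fun b hb => by
    have hQ2 : Q ≤ Q ^ 2 := le_self_pow₀ hQ1 two_ne_zero
    have hQ3 : 1 ≤ Q ^ 2 := hQ1.trans hQ2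
    have h1 : 0 ≤ S / Real.sqrt N := by positivity
    have h2 : 0 ≤ S ^ 2 / (N : ℝ) := by positivity
    rw [show (20 * (K : ℝ) + 16) * b * R = b * ((20 * (K : ℝ) + 16) * R) by ring]
    refine mul_le_mul_of_nonneg_left ?_ hb
    simp only [hR]
    nlinarith [mul_le_mul_of_nonneg_left hQ2 (mul_nonneg hK h1), mul_le_mul_of_nonneg_left hQ3 h2,
      mul_nonneg hK hε0, mul_nonneg hK (mul_nonneg h2 (sq_nonneg Q)), mul_nonneg h1 (sq_nonneg Q)]
  have hy' : ∀ e, |y e| ≤ S := fun e => by rw [abs_of_nonneg (hy e).1]; exact (hy e).2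
  have hs' : |s| ≤ S := by rwa [abs_of_nonneg hs0]
  have horth : ∀ᵐ z ∂μ, (Matrix.of z.1.1)ᵀ * Matrix.of z.1.1 = 1 :=
    Measure.quasiMeasurePreserving_fst.ae (Measure.quasiMeasurePreserving_fst.ae hν.orth)
  refine ⟨?_, ?_⟩
  · rw [expect_three]
    rcases eq_or_ne i j with rfl | hij
    · simp [loopPoly, avg3]
      positivity
    refine le_trans (le_of_eq ?_) ((loop_bound (sel := fun _ τ => τ)
      (c := fun σ τ => φ ((∑ b, spin (σ b) * spin (τ b)) / N)) (a := a) (blk := blk) (t := t) (s := s)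
      (m := m) (r := r) (y := y) hν hn hN hij hs' hy' (fun σ τ => hB _) hε).trans (hbd B hB0))
    refine congrArg _ (integral_congr_ae (horth.mono fun z hz' => ?_))
    refine congrArg _ ?_
    funext x x' w
    simp only [loopPoly, poly, id_eq, Matrix.cons_val_zero, Matrix.cons_val_one, Matrix.cons_val_two,
      Matrix.head_cons, Matrix.tail_cons, sum_ov blk _ _ hz']
    rw [ov_comm blk j w.1 x'.1, ov_comm blk j x'.1 x.1]
  · rw [expect_two]
    rcases eq_or_ne i j with rfl | hij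
    · simp [avg3]
      positivity
    set Z := fun z : UOmega N n kk × GSpace K N P => avg3 (hz a blk t s m r y z) fun x x' w =>
      (1 : ℝ) * poly a blk t i j (fun σ _ => σ) z.1.1 x.1 x'.1 w.1 with hZ
    have hb := (loop_bound (sel := fun σ _ => σ) (c := fun _ _ => 1) (a := a) (blk := blk) (t := t)
      (s := s) (m := m) (r := r) (y := y) hν hn hN hij hs' hy' (B := 1) (fun σ τ => by simp) hε).trans
      (hbd 1 zero_le_one)
    rw [mul_one] at hb
    refine le_trans (le_of_eq ?_) hb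
    refine congrArg _ (integral_congr_ae (Filter.Eventually.of_forall fun z => ?_))
    simp only [poly, one_mul, Matrix.cons_val_zero, Matrix.cons_val_one, Matrix.head_cons]
    set H := hz a blk t s m r y z
    set U := z.1.1
    have e : ∀ x x' w : (Fin N → Bool) × Leaf n kk,
        a.wt i * ov blk j x.1 x.1 U - a.wt j * ov blk i x.1 x.1 U + t * (a.lam i - a.lam j) *
          (ov blk i x.1 x.1 U * ov blk j x.1 x.1 U + ov blk i x.1 x'.1 U * ov blk j x.1 x'.1 U -
            2 * (ov blk i x.1 w.1 U * ov blk j x.1 w.1 U)) =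
        (a.wt i * ov blk j x.1 x.1 U - a.wt j * ov blk i x.1 x.1 U + t * (a.lam i - a.lam j) *
          (ov blk i x.1 x.1 U * ov blk j x.1 x.1 U - ov blk i x.1 x'.1 U * ov blk j x.1 x'.1 U)) +
        (2 * (t * (a.lam i - a.lam j))) * (ov blk i x.1 x'.1 U * ov blk j x.1 x'.1 U +
          (-1) * (ov blk i x.1 w.1 U * ov blk j x.1 w.1 U)) := fun x x' w => by ring
    simp only [e]
    set P0 := fun (x x' _w : (Fin N → Bool) × Leaf n kk) =>
      a.wt i * ov blk j x.1 x.1 U - a.wt j * ov blk i x.1 x.1 U + t * (a.lam i - a.lam j) *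
        (ov blk i x.1 x.1 U * ov blk j x.1 x.1 U - ov blk i x.1 x'.1 U * ov blk j x.1 x'.1 U)
    set X12 := fun (x x' _w : (Fin N → Bool) × Leaf n kk) => ov blk i x.1 x'.1 U * ov blk j x.1 x'.1 U
    set X13 := fun (x _x' w : (Fin N → Bool) × Leaf n kk) => ov blk i x.1 w.1 U * ov blk j x.1 w.1 U
    have key : avg3 H (fun x x' w => P0 x x' w + 2 * (t * (a.lam i - a.lam j)) *
        (X12 x x' w + (-1) * X13 x x' w)) = avg3 H P0 := by
      rw [avg3_add H P0, avg3_mul H (2 * (t * (a.lam i - a.lam j))), avg3_add H X12, avg3_mul H (-1),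
        avg3_swap H X13]
      ring
    exact key.symm

end Vale.Agent.P166F
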