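import Vale.Agent.P166F.Up.Base
import Vale.Agent.P166F.Up.FromTree
import Vale.Agent.P166F.Loop
import Vale.Agent.P166F.Up.Dev
import Vale.Agent.P166F.Up.LoopMain

/-!
P166: what the upper bound uses about the enriched system: its value without coupling, deviation,
meeting law and loop equation.
-/

namespace Vale.Agent.P166F

open MeasureTheory Filter
open scoped Topology
open Vale.Agent.P157.Low (potUp incr)
open Vale.Agent.P166N (meet)
open Vale.Agent.P166N.Spectrum (OrthInvLaw)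

variable {K N k P : ℕ}

/-- The single-spin value at field variances `r`. -/
noncomputable def xzero (m r : Fin (k + 1) → ℝ) : ℝ :=
  potUp m (incr r) (fun y => Real.log (Real.cosh y)) (k + 1) 0

/-- Coefficients of size at most `S`. -/
def CBox (S : ℝ) : Set (CIdx (Fin K) P → ℝ) := {y | ∀ i, 0 ≤ y i ∧ y i ≤ S}

theorem uSys_press_zero (a : Atoms K) (blk : Fin N → Fin K)
    {ν : Measure (Fin N → Fin N → ℝ)} (hν : OrthInvLaw N ν) {m r : Fin (k + 1) → ℝ}
    (hm : Levels m) (hr : Monotone r) (hr0 : ∀ l, 0 ≤ r l) (P : ℕ) (s : ℝ) :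
    Tendsto (fun n => (uSys a blk hν (n := n + 1) (by omega) 0 m r).press P s 0) atTop
      (𝓝 (N * xzero m r)) :=
  uSys_press_zero_aux a blk hν hm hr hr0 P s

theorem uSys_dev (a : Atoms K) (T : ℝ) {m : Fin (k + 1) → ℝ} (hm : Levels m) :
    ∃ C, ∀ (N : ℕ) (blk : Fin N → Fin K) (ν : Measure (Fin N → Fin N → ℝ)) (hν : OrthInvLaw N ν)
      (t : ℝ) (r : Fin (k + 1) → ℝ) (P : ℕ) (s S L : ℝ) (y : CIdx (Fin K) P → ℝ),
      1 ≤ N → 0 ≤ t → t ≤ T → Monotone r → (∀ l, 0 ≤ r l ∧ r l ≤ L) → 1 ≤ s → s ^ 2 ≤ N →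
      0 ≤ S → y ∈ CBox S →
      ∀ᶠ n in atTop, (uSys a blk hν (n := n + 1) (by omega) t m r).dev P s y ≤
        C * (1 + L) * ((1 + (S / Real.sqrt N) ^ 2) * Real.sqrt N + S + s) *
          (Fintype.card (CIdx (Fin K) P) * (P + 1) : ℝ) ^ 2 :=
  uSys_dev_aux a T hm

theorem uSys_meet (a : Atoms K) (blk : Fin N → Fin K) {ν : Measure (Fin N → Fin N → ℝ)}
    (hν : OrthInvLaw N ν) {m r : Fin (k + 1) → ℝ} (hm : Levels m) (hr : Monotone r)
    (hr0 : ∀ l, 0 ≤ r l) (t s : ℝ) (y : CIdx (Fin K) P → ℝ) (j : Fin (k + 1)) :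
    Tendsto (fun n => (uSys a blk hν (n := n + 1) (by omega) t m r).avg s y 2 fun _ x =>
        if (j : ℕ) ≤ meet k (x 0).2 (x 1).2 then (1 : ℝ) else 0) atTop (𝓝 (1 - m j)) :=
  uSys_meet_aux a blk hν hm hr hr0 t s y j

/-- The loop equation holds up to the shares of the blocks and the size of the perturbation. -/
theorem uSys_loop (K : ℕ) :
    ∃ C, ∀ (N : ℕ) (a : Atoms K) (blk : Fin N → Fin K) (ν : Measure (Fin N → Fin N → ℝ))
      (hν : OrthInvLaw N ν) (n kk : ℕ) (hn : 1 ≤ n) (m r : Fin (kk + 1) → ℝ) (t s S : ℝ) (P : ℕ)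
      (y : CIdx (Fin K) P → ℝ) (φ : ℝ → ℝ) (B ε : ℝ) (i j : Fin K),
      1 ≤ N → 0 ≤ s → s ≤ S → y ∈ CBox S → Continuous φ → (∀ x, |φ x| ≤ B) →
      (∀ l, |((Finset.univ.filter fun b => blk b = l).card : ℝ) / N - a.wt l| ≤ ε) →
      |(uSys a blk hν hn t m r).expect s y (fun R : OArr (Fin K) 3 =>
          φ (∑ l, R 0 1 l) * loopPoly a t id i j R)| ≤
        C * B * (ε + (S / Real.sqrt N + S ^ 2 / N) * (Fintype.card (CIdx (Fin K) P) * (P + 1) : ℝ) ^ 2) ∧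
      |(uSys a blk hν hn t m r).expect s y (fun R : OArr (Fin K) 2 =>
          a.wt i * R 0 0 j - a.wt j * R 0 0 i + t * (a.lam i - a.lam j) *
            (R 0 0 i * R 0 0 j - R 0 1 i * R 0 1 j))| ≤
        C * (ε + (S / Real.sqrt N + S ^ 2 / N) * (Fintype.card (CIdx (Fin K) P) * (P + 1) : ℝ) ^ 2) :=
  uSys_loop_bound K

end Vale.Agent.P166F
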