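import Vale.Agent.P166F.Loop

/-!
P166: along systems with vanishing defects whose tails lie below those of a step path, the energy is
at most the slope of that path.
-/

namespace Vale.Agent.P166F

open MeasureTheory Filter
open scoped Topology

variable {K : ℕ}

/-- What is known along a sequence of enriched systems at the inverse temperature `t`. -/
structure GoodSeq (a : Atoms K) (t : ℝ) (ν₀ : Measure ℝ) (S : ℕ → Sys (Fin K)) (s : ℕ → ℝ)
    {P : ℕ → ℕ} (y : ∀ i, CIdx (Fin K) (P i) → ℝ) : Prop where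
  diag : ∀ j, Tendsto (fun i => (S i).expect (s i) (y i) (n := 1) fun R =>
      |R 0 0 j - (S i).expect (s i) (y i) (n := 1) fun R' => R' 0 0 j|) atTop (𝓝 0)
  gg : ∀ (n : ℕ) (l : Fin n) (Φ : OArr (Fin K) n → ℝ) (e : Fin K → ℕ), Continuous Φ →
    (∃ C, ∀ R, |Φ R| ≤ C) → 0 < ∑ j, e j →
    Tendsto (fun i => (n : ℝ) * (S i).expect (s i) (y i) (fun R : OArr (Fin K) (n + 1) =>
        Φ (osub R Fin.castSucc) * monom e (R l.castSucc (Fin.last n))) -
      ((S i).expect (s i) (y i) Φ *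
          (S i).expect (s i) (y i) (fun R : OArr (Fin K) 2 => monom e (R 0 1)) +
        ∑ l' ∈ Finset.univ.erase l,
          (S i).expect (s i) (y i) fun R : OArr (Fin K) n => Φ R * monom e (R l l'))) atTop (𝓝 0)
  unit : Tendsto (fun i => (S i).expect (s i) (y i) (n := 1) fun R => |∑ j, R 0 0 j - 1|) atTop (𝓝 0)
  two : ∀ k l (φ : ℝ → ℝ), Continuous φ → (∃ C, ∀ x, |φ x| ≤ C) →
    Tendsto (fun i => (S i).expect (s i) (y i) fun R : OArr (Fin K) 3 =>
      φ (∑ j, R 0 1 j) * loopPoly a t id k l R) atTop (𝓝 0)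
  one : ∀ k l, Tendsto (fun i => (S i).expect (s i) (y i) fun R : OArr (Fin K) 2 =>
      a.wt k * R 0 0 l - a.wt l * R 0 0 k + t * (a.lam k - a.lam l) *
        (R 0 0 k * R 0 0 l - R 0 1 k * R 0 1 l)) atTop (𝓝 0)
  tails : ∀ q ∈ Set.Icc (0 : ℝ) 1, ∀ ε > 0, ∀ᶠ i in atTop,
    (∫ r, max q r ∂ν₀) - ε ≤
      (S i).expect (s i) (y i) fun R : OArr (Fin K) 2 => max q (∑ j, R 0 1 j)

variable {a : Atoms K} {t : ℝ} {ν₀ : Measure ℝ} {S : ℕ → Sys (Fin K)} {s : ℕ → ℝ} {P : ℕ → ℕ}
  {y : ∀ i, CIdx (Fin K) (P i) → ℝ}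

lemma JArr.ae_two {J : Type} [Fintype J] [DecidableEq J] {v : J → ℝ} (A : JArr J v) :
    ∀ᵐ R ∂A.law 2, ∀ j, R 0 0 j = v j ∧ 0 ≤ R 0 1 j ∧ R 0 1 j ≤ v j := by
  filter_upwards [A.diag 2, A.nonneg] with R h h' j
  exact ⟨congrFun (h 0) j, h' j⟩

lemma integrable_jarr {J : Type} [Fintype J] {v : J → ℝ} (A : JArr J v) {n : ℕ}
    {F : OArr J n → ℝ} (hF : Continuous F) : Integrable F (A.law n) := by
  have := A.prob n
  have hK : IsCompact (Set.pi Set.univ fun _ : Fin n => Set.pi Set.univ fun _ : Fin n =>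
      Set.pi Set.univ fun _ : J => Set.Icc (-1 : ℝ) 1) :=
    isCompact_univ_pi fun _ => isCompact_univ_pi fun _ => isCompact_univ_pi fun _ => isCompact_Icc
  obtain ⟨C, hC⟩ := hK.exists_bound_of_continuousOn hF.continuousOn
  refine Integrable.of_bound hF.aestronglyMeasurable C ((A.bdd n).mono fun R hR => hC R ?_)
  simp only [Set.mem_univ_pi, Set.mem_Icc]
  exact fun a b j => abs_le.1 (hR a b j)

theorem slope_bound_of_conv (ht : 0 ≤ t) (hν₀ : OLaw ν₀) (h : GoodSeq a t ν₀ S s y)
    {φ : ℕ → ℕ} (hφ : StrictMono φ) {v : Fin K → ℝ} (A : JArr (Fin K) v)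
    (hconv : ∀ n (Φ : OArr (Fin K) n → ℝ), Continuous Φ →
      Tendsto (fun i => (S (φ i)).expect (s (φ i)) (y (φ i)) Φ) atTop (𝓝 (∫ R, Φ R ∂A.law n))) :
    (∑ j, a.lam j * v j) / 2 ≤ a.slope t ν₀ := by
  have := A.prob 1
  have := A.prob 2
  have := A.prob 3
  have hv : ∑ j, v j = 1 := by
    have h0 := tendsto_nhds_unique (hconv 1 (fun R => |∑ j, R 0 0 j - 1|) (by fun_prop))
      (h.unit.comp hφ.tendsto_atTop)
    have e : ∫ R, |∑ j, R 0 0 j - 1| ∂A.law 1 = |∑ j, v j - 1| := by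
      rw [integral_congr_ae (g := fun _ => |∑ j, v j - 1|) ((A.diag 1).mono fun R hR => by
        simp only [hR 0])]
      simp
    rw [e] at h0
    exact sub_eq_zero.1 (abs_eq_zero.1 h0)
  have hloop : LoopEq a t id A := by
    refine ⟨Function.injective_id, hv, fun k l => ?_, fun k l φ' hφ' => ?_⟩
    · set Φ : OArr (Fin K) 2 → ℝ := fun R => a.wt k * R 0 0 l - a.wt l * R 0 0 k +
        t * (a.lam k - a.lam l) * (R 0 0 k * R 0 0 l - R 0 1 k * R 0 1 l) with hΦ
      have h0 : ∫ R, Φ R ∂A.law 2 = 0 :=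
        tendsto_nhds_unique (hconv 2 Φ (by fun_prop)) ((h.one k l).comp hφ.tendsto_atTop)
      simp only [id_eq]
      refine Eq.trans ?_ h0
      simp only [hΦ]
      have e : ∀ᵐ R ∂A.law 2, a.wt k * R 0 0 l - a.wt l * R 0 0 k + t * (a.lam k - a.lam l) *
          (R 0 0 k * R 0 0 l - R 0 1 k * R 0 1 l) =
          a.wt k * v l - a.wt l * v k + t * (a.lam k - a.lam l) * (v k * v l) -
            t * (a.lam k - a.lam l) * (R 0 1 k * R 0 1 l) :=
        (A.diag 2).mono fun R hR => by rw [hR 0]; ring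
      rw [integral_congr_ae e, integral_sub (integrable_const _)
        ((integrable_jarr A (F := fun R => R 0 1 k * R 0 1 l) (by fun_prop)).const_mul _),
        integral_const_mul, integral_const, probReal_univ, one_smul]
      ring
    · set φc : ℝ → ℝ := fun x => φ' (max (-(K : ℝ)) (min (K : ℝ) x)) with hφc
      have hc : Continuous φc := by fun_prop
      obtain ⟨C, hC⟩ := (isCompact_Icc (a := -(K : ℝ)) (b := (K : ℝ))).exists_bound_of_continuousOn
        hφ'.continuousOn
      have hb : ∀ x, |φc x| ≤ C := fun x => hC _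
        ⟨le_max_left _ _, max_le (neg_le_self (Nat.cast_nonneg K)) (min_le_left _ _)⟩
      set Φ : OArr (Fin K) 3 → ℝ := fun R => φc (∑ j, R 0 1 j) * loopPoly a t id k l R with hΦ
      have hcl : Continuous fun R : OArr (Fin K) 3 => loopPoly a t id k l R := by
        simp only [loopPoly, id_eq]
        fun_prop
      have hΦc : Continuous Φ := (hc.comp (by fun_prop)).mul hcl
      have h0 : ∫ R, Φ R ∂A.law 3 = 0 :=
        tendsto_nhds_unique (hconv 3 Φ hΦc) ((h.two k l φc hc ⟨C, hb⟩).comp hφ.tendsto_atTop)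
      refine Eq.trans (integral_congr_ae ?_) h0
      filter_upwards [A.bdd 3] with R hR
      simp only [hΦ, hφc, id_eq]
      have hs : |∑ j, R 0 1 j| ≤ (K : ℝ) :=
        (Finset.abs_sum_le_sum_abs _ _).trans ((Finset.sum_le_sum fun j _ => hR 0 1 j).trans
          (by simp))
      rw [min_eq_right (abs_le.1 hs).2, max_eq_right (abs_le.1 hs).1]
  obtain ⟨hlv, -⟩ := hloop.solve ht
  set ν := A.total id with hνdef
  have hm : Measurable fun R : OArr (Fin K) 2 => ∑ j, R 0 1 (id j) := by fun_prop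
  have : IsProbabilityMeasure ν := Measure.isProbabilityMeasure_map hm.aemeasurable
  have hν : OLaw ν := ⟨inferInstance, by
    simp only [hνdef, JArr.total]
    refine (ae_map_iff hm.aemeasurable (measurableSet_Icc : MeasurableSet (Set.Icc (0 : ℝ) 1))).2 ?_
    filter_upwards [A.ae_two] with R hR
    exact ⟨Finset.sum_nonneg fun j _ => (hR j).2.1,
      (Finset.sum_le_sum fun j _ => (hR j).2.2).trans hv.le⟩⟩
  have htail : ∀ q ∈ Set.Icc (0 : ℝ) 1, tail ν q ≤ tail ν₀ q := fun q hq => by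
    have h1 : ∫ r, max q r ∂ν₀ ≤ ∫ r, max q r ∂ν := by
      refine le_of_forall_pos_le_add fun ε hε => ?_
      have h2 : ∫ r, max q r ∂ν = ∫ R, max q (∑ j, R 0 1 j) ∂A.law 2 := by
        rw [hνdef, JArr.total, integral_map hm.aemeasurable
          (by fun_prop : Continuous fun r : ℝ => max q r).aestronglyMeasurable]
        rfl
      have h3 := ge_of_tendsto (hconv 2 (fun R => max q (∑ j, R 0 1 j)) (by fun_prop))
        (hφ.tendsto_atTop.eventually (h.tails q hq ε hε))
      linarith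
    have hi : ∀ m : Measure ℝ, OLaw m → Integrable (fun r => max q r) m := fun m hm' => by
      have := hm'.prob
      exact Integrable.of_bound (by fun_prop : Continuous fun r : ℝ => max q r).aestronglyMeasurable 1
        (hm'.unit.mono fun r hr => by
          rw [Real.norm_of_nonneg (le_max_of_le_left hq.1)]
          exact max_le hq.2 hr.2)
    have := hν₀.prob
    simp only [tail]
    rw [integral_sub (integrable_const _) (hi ν hν), integral_sub (integrable_const _) (hi ν₀ hν₀)]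
    simp only [integral_const, probReal_univ, one_smul]
    linarith
  refine le_trans (le_of_eq ?_) (a.slope_mono ht hν hν₀ htail)
  simp only [Atoms.slope]
  congr 1
  exact Finset.sum_congr rfl fun j _ => by rw [← hlv j]; rfl

/-- Along a good sequence the energy is eventually at most the slope of the path. -/
theorem GoodSeq.energy_le (ht : 0 ≤ t) (hν₀ : OLaw ν₀) (h : GoodSeq a t ν₀ S s y) {ε : ℝ}
    (hε : 0 < ε) :
    ∀ᶠ i in atTop, ((S i).expect (s i) (y i) (n := 1) fun R => (∑ j, a.lam j * R 0 0 j) / 2) ≤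
      a.slope t ν₀ + ε := by
  by_contra hcon
  rw [not_eventually] at hcon
  obtain ⟨ψ, hψ, hbad⟩ := extraction_of_frequently_atTop hcon
  obtain ⟨φ, hφ, v, A, hconv⟩ := exists_conv (P := fun i => P (ψ i)) (fun i => S (ψ i))
    (fun i => s (ψ i)) (fun i => y (ψ i)) (fun j => (h.diag j).comp hψ.tendsto_atTop)
    (fun n l Φ e hΦ hb he => (h.gg n l Φ e hΦ hb he).comp hψ.tendsto_atTop)
  have hc := hconv 1 (fun R => (∑ j, a.lam j * R 0 0 j) / 2) (by fun_prop)
  have e : ∫ R, (∑ j, a.lam j * R 0 0 j) / 2 ∂A.law 1 = (∑ j, a.lam j * v j) / 2 := by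
    have := A.prob 1
    rw [integral_congr_ae (g := fun _ => (∑ j, a.lam j * v j) / 2) ((A.diag 1).mono fun R hR => by
      simp only [hR 0])]
    simp
  rw [e] at hc
  have hb := slope_bound_of_conv ht hν₀ h (φ := fun i => ψ (φ i)) (hψ.comp hφ) A hconv
  have := ge_of_tendsto hc (Eventually.of_forall fun i => (le_of_not_ge (hbad (φ i))))
  linarith

end Vale.Agent.P166F
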