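import Vale.Agent.P166F.Up.Maximiser
import Vale.Agent.P166F.Up.StepLaw
import Vale.Agent.P166F.Up.Limit

/-!
P166: maximisers form good sequences.
-/

namespace Vale.Agent.P166F

open MeasureTheory Filter
open scoped Topology
open Vale.Agent.P166 (spin)
open Vale.Agent.P166N (Node Leaf meet)
open Vale.Agent.P166N.Spectrum (OrthInvLaw)

variable {K N k P : ℕ}

lemma expect_nonneg {J : Type} [Fintype J] [DecidableEq J] {q : ℕ} (S : Sys J) (s : ℝ)
    (y : CIdx J P → ℝ) {Φ : OArr J q → ℝ} (h : ∀ R, 0 ≤ Φ R) : 0 ≤ S.expect s y Φ := by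
  rw [Sys.expect, Sys.avg_eq_repAvg]
  exact integral_nonneg fun z => Finset.sum_nonneg fun x _ =>
    mul_nonneg (Finset.prod_nonneg fun l _ => (gibW_pos _ _).le) (h _)

lemma abs_sum_spin_le (x x' : Fin N → Bool) : |(∑ b, spin (x b) * spin (x' b)) / (N : ℝ)| ≤ 1 := by
  rw [abs_div, Nat.abs_cast]
  refine div_le_one_of_le₀ ((Finset.abs_sum_le_sum_abs _ _).trans_eq ?_) (Nat.cast_nonneg N)
  have : ∀ b : Bool, |spin b| = 1 := fun b => by cases b <;> norm_num [spin]
  simp [abs_mul, this]

variable (a : Atoms K) (blk : Fin N → Fin K) {ν : Measure (Fin N → Fin N → ℝ)}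
  (hν : OrthInvLaw N ν) (n : ℕ) (t : ℝ) (m r : Fin (k + 1) → ℝ) (s : ℝ) (y : CIdx (Fin K) P → ℝ)

include hν in
lemma expect_unit (hN : 1 ≤ N) :
    (uSys a blk hν (n := n + 1) (by omega) t m r).expect s y (n := 1)
      (fun R => |∑ j, R 0 0 j - 1|) = 0 := by
  rw [Sys.expect, Sys.avg_eq_repAvg]
  refine integral_eq_zero_of_ae ?_
  filter_upwards [ae_orth_uSys a blk hν (n := n + 1) (by omega) m r (P := P) t] with z hz
  refine Finset.sum_eq_zero fun x _ => mul_eq_zero_of_right _ ?_
  rw [abs_eq_zero, sub_eq_zero, gram_uSys a blk hν (n := n + 1) (by omega) t m r hz x 0 0]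
  have h : ∀ b : Bool, spin b * spin b = 1 := fun b => by cases b <;> norm_num [spin]
  simp only [h, Finset.sum_const, Finset.card_univ, Fintype.card_fin, nsmul_eq_mul, mul_one]
  exact div_self (by exact_mod_cast Nat.one_le_iff_ne_zero.1 hN)

include hν in
/-- Where the overlaps above every level are large, the tails lie below those of the path. -/
theorem tails_bound {p : Fin (k + 1) → ℝ} (hm : Levels m) (hp : Path p) {e e' : ℝ} (he : 0 ≤ e)
    (he' : 0 ≤ e')
    (hov : ∀ j : Fin (k + 1), (∑ l ∈ Finset.univ.filter (fun l => j ≤ l), lmass m l * p l) - e ≤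
      (uSys a blk hν (n := n + 1) (by omega) t m r).avg s y 2 fun _ x => ovlTh N (n + 1) k j x)
    (hmeet : ∀ j : Fin (k + 1), ((uSys a blk hν (n := n + 1) (by omega) t m r).avg s y 2
      fun _ x => if (j : ℕ) ≤ meet k (x 0).2 (x 1).2 then (1 : ℝ) else 0) ≤ 1 - m j + e')
    {q : ℝ} (hq : q ∈ Set.Icc (0 : ℝ) 1) :
    (∫ x, max q x ∂stepLaw m p) - (e + e') ≤
      (uSys a blk hν (n := n + 1) (by omega) t m r).expect s y
        fun R : OArr (Fin K) 2 => max q (∑ j, R 0 1 j) := by
  set S := uSys a blk hν (n := n + 1) (by omega) t m r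
  have hm1 : Measurable fun z : S.Ω × EuclideanSpace ℝ (GIdx (Fin K) P S.D) =>
      repAvg (S.expOf s y z) fun x : Fin 2 → S.X => max q (∑ j, S.gram z.1 x 0 1 j) := by
    refine Finset.measurable_fun_sum _ fun x _ => (Finset.measurable_fun_prod _ fun l _ => ?_).mul ?_
    · exact (S.measurable_expOf s y (x l)).exp.div
        (Finset.measurable_fun_sum _ fun x' _ => (S.measurable_expOf s y x').exp)
    · exact measurable_const.max (Finset.measurable_fun_sum _ fun j _ =>
        ((S.measV (x 0) j).comp measurable_fst).inner ((S.measV (x 1) j).comp measurable_fst))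
  have hsum : ∀ᵐ z ∂S.full P, ∀ x : Fin 2 → S.X,
      ∑ j, S.gram z.1 x 0 1 j = (∑ b, spin ((x 0).1 b) * spin ((x 1).1 b)) / N :=
    (ae_orth_uSys a blk hν (n := n + 1) (by omega) m r (P := P) t).mono fun z hz x =>
      gram_uSys a blk hν (n := n + 1) (by omega) t m r hz x 0 1
  have hi1 : Integrable (fun z => repAvg (S.expOf s y z) fun x : Fin 2 → S.X => max q (∑ j, S.gram z.1 x 0 1 j))
      (S.full P) := by
    refine Integrable.of_bound hm1.aestronglyMeasurable 1 (hsum.mono fun z hz => ?_)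
    refine abs_repAvg_le _ fun x => ?_
    rw [hz x, abs_of_nonneg (le_max_of_le_left hq.1)]
    exact max_le hq.2 ((le_abs_self _).trans (abs_sum_spin_le _ _))
  rw [Sys.expect, Sys.avg_eq_repAvg]
  rcases (Finset.univ.filter fun l : Fin (k + 1) => q ≤ p l).eq_empty_or_nonempty with h0 | h0
  · have hlo : ∀ l, p l ≤ q := fun l => le_of_lt (by
      by_contra hc
      exact (Finset.notMem_empty l) (h0 ▸ Finset.mem_filter.2 ⟨Finset.mem_univ l, not_lt.1 hc⟩))
    rw [integral_max_stepLaw hm hp q le_rfl (fun l _ => hlo l)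
      (fun l hl => absurd hl (by have := l.isLt; omega)), cumul, dif_neg (by omega), mul_one,
      Finset.filter_false_of_mem fun l _ => by have := l.isLt; omega, Finset.sum_empty, add_zero]
    have h : ∫ _z, q ∂S.full P ≤
        ∫ z, repAvg (S.expOf s y z) (fun x : Fin 2 → S.X => max q (∑ j, S.gram z.1 x 0 1 j)) ∂S.full P :=
      integral_mono (integrable_const q) hi1 fun z =>
      calc q = ∑ x : Fin 2 → S.X, pairW (S.expOf s y z) x * q := by
            rw [← Finset.sum_mul, sum_pairW, one_mul]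
        _ ≤ _ := Finset.sum_le_sum fun x _ =>
            mul_le_mul_of_nonneg_left (le_max_left _ _) (pairW_pos _ x).le
    rw [integral_const, probReal_univ, one_smul] at h
    linarith
  set j := (Finset.univ.filter fun l : Fin (k + 1) => q ≤ p l).min' h0 with hj
  have hjq : q ≤ p j := (Finset.mem_filter.1 (Finset.min'_mem _ h0)).2
  have hlo : ∀ l : Fin (k + 1), (l : ℕ) < j → p l ≤ q := fun l hl => le_of_lt (lt_of_not_ge fun hc =>
    absurd (Finset.min'_le _ l (Finset.mem_filter.2 ⟨Finset.mem_univ l, hc⟩)) (not_le.2 hl))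
  rw [integral_max_stepLaw hm hp q (by omega) hlo fun l hl => hjq.trans (hp.mono hl),
    cumul, dif_pos (Nat.le_of_lt_succ j.isLt)]
  have hA := hov j
  have hB := hmeet j
  simp only [Sys.avg_eq_repAvg] at hA hB
  set Θ₁ : (Fin 2 → S.X) → ℝ := fun x => ovlTh N (n + 1) k j x
  set Θ₂ : (Fin 2 → S.X) → ℝ := fun x => if (j : ℕ) ≤ meet k (x 0).2 (x 1).2 then (1 : ℝ) else 0
  have hi2 := S.integrable_repAvg_two s y (Θ := Θ₁) (abs_ovlTh_le _)
  have hi3 := S.integrable_repAvg_two s y (Θ := Θ₂) fun x => by simp only [Θ₂]; split_ifs <;> simp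
  have key : ∫ z, (q - q * repAvg (S.expOf s y z) Θ₂ + repAvg (S.expOf s y z) Θ₁) ∂S.full P ≤
      ∫ z, repAvg (S.expOf s y z) (fun x : Fin 2 → S.X => max q (∑ i, S.gram z.1 x 0 1 i)) ∂S.full P := by
    refine integral_mono_ae (((integrable_const q).sub (hi3.const_mul q)).add hi2) hi1
      (hsum.mono fun z hz => ?_)
    show q - q * repAvg (S.expOf s y z) Θ₂ + repAvg (S.expOf s y z) Θ₁ ≤ _
    calc q - q * repAvg (S.expOf s y z) Θ₂ + repAvg (S.expOf s y z) Θ₁
        = ∑ x, pairW (S.expOf s y z) x * (q - q * Θ₂ x + Θ₁ x) := by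
          simp only [mul_add, mul_sub, Finset.sum_add_distrib, Finset.sum_sub_distrib]
          rw [← Finset.sum_mul, sum_pairW, one_mul]
          simp only [repAvg, pairW, Finset.mul_sum]
          congr 2
          exact Finset.sum_congr rfl fun x _ => by ring
      _ ≤ _ := Finset.sum_le_sum fun x _ => mul_le_mul_of_nonneg_left ?_ (pairW_pos _ x).le
    rw [hz x]
    by_cases hc : (j : ℕ) ≤ meet k (x 0).2 (x 1).2
    · simp only [Θ₁, Θ₂, ovlTh, if_pos hc, mul_one, sub_self, zero_add]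
      exact le_max_right _ _
    · simp only [Θ₁, Θ₂, ovlTh, if_neg hc, mul_zero, sub_zero, add_zero]
      exact le_max_left _ _
  have e1 : (Finset.univ.filter fun l : Fin (k + 1) => (j : ℕ) ≤ l) =
      Finset.univ.filter fun l => j ≤ l := Finset.filter_congr fun l _ => Iff.rfl
  have e2 : ∫ z, (q - q * repAvg (S.expOf s y z) Θ₂ + repAvg (S.expOf s y z) Θ₁) ∂S.full P =
      q - q * (∫ z, repAvg (S.expOf s y z) Θ₂ ∂S.full P) +
        ∫ z, repAvg (S.expOf s y z) Θ₁ ∂S.full P := by
    rw [integral_add (f := fun z => q - q * repAvg (S.expOf s y z) Θ₂)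
      ((integrable_const q).sub (hi3.const_mul q)) hi2,
      integral_sub (integrable_const q) (hi3.const_mul q), integral_const_mul, integral_const,
      probReal_univ, one_smul]
  have h1 := mul_le_mul_of_nonneg_left hB hq.1
  have h2 := mul_le_mul_of_nonneg_right hq.2 he'
  rw [e1]
  linarith

/-- What a choice of the width of the trees secures at size `N`. -/
def Sized (a : Atoms K) (blk : Fin N → Fin K) {ν : Measure (Fin N → Fin N → ℝ)}
    (hν : OrthInvLaw N ν) (m : Fin (k + 1) → ℝ) (C L : ℝ) (T : Finset ℝ) (n : ℕ) : Prop :=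
  ∀ r ∈ rgrid N k L,
    (uSys a blk hν (n := n + 1) (by omega) 0 m r).press (degr N) (scl N) 0 ≤ N * xzero m r + 1 ∧
    ∀ t ∈ T, ∀ y ∈ (CBox (2 * scl N) : Set (CIdx (Fin K) (degr N) → ℝ)),
      (uSys a blk hν (n := n + 1) (by omega) t m r).dev (degr N) (scl N) y ≤
          devB K (C * (1 + (L + 2))) N ∧
      ∀ j : Fin (k + 1), (uSys a blk hν (n := n + 1) (by omega) t m r).avg (scl N) y 2
        (fun _ x => if (j : ℕ) ≤ meet k (x 0).2 (x 1).2 then (1 : ℝ) else 0) ≤
          1 - m j + 1 / ((N : ℝ) + 1)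

/-- Maximisers at one inverse temperature form a good sequence. -/
theorem goodSeq_max {a : Atoms K} {blk : (N : ℕ) → Fin N → Fin K} (hb : Balanced a blk)
    {ν : (N : ℕ) → Measure (Fin N → Fin N → ℝ)} (hν : ∀ N, OrthInvLaw N (ν N))
    {m p : Fin (k + 1) → ℝ} (hm : Levels m) (hp : Path p) {β C L : ℝ} (hC : 0 ≤ C) (hL0 : 0 ≤ L)
    (hL : ∀ r' : Fin (k + 1) → ℝ, Monotone r' → (∀ l, 0 ≤ r' l) → L ≤ r' (Fin.last k) →
      xbar m r' + pairing m p r' ≤ -(β * a.size + 2))
    {T : Finset ℝ} {t : ℝ} (htT : t ∈ T) (ht : 0 ≤ t) (htβ : t ≤ β) {nn : ℕ → ℕ}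
    (hn : ∀ N, 1 ≤ N → Sized a (blk N) (hν N) m C L T (nn N))
    (r : ℕ → Fin (k + 1) → ℝ) (y : ∀ N, CIdx (Fin K) (degr N) → ℝ)
    (hr : ∀ N, r N ∈ rgrid N k L) (hy : ∀ N, y N ∈ ybox K N)
    (hmax : ∀ N, ∀ r' ∈ rgrid N k L, ∀ y' ∈ ybox K N,
      objF a (blk N) (hν N) (nn N) m p t r' y' ≤ objF a (blk N) (hν N) (nn N) m p t (r N) (y N)) :
    GoodSeq a t (stepLaw m p)
      (fun N => uSys a (blk N) (hν N) (n := nn N + 1) (by omega) t m (r N)) scl y := by
  have hC' : 0 ≤ C * (1 + (L + 2)) := mul_nonneg hC (by linarith)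
  have hpin : ∀ᶠ N in atTop, Pinned (uSys a (blk N) (hν N) (n := nn N + 1) (by omega) t m (r N))
      (scl N) (y N) (pen K N) (devB K (C * (1 + (L + 2))) N) (rad N) := by
    filter_upwards [eventually_ge_atTop 1, tendsto_bs.eventually_ge_atTop 4] with N hN h4
    refine max_pinned (hν N) hN (hr N) (hy N) (hmax N) ?_ fun y' hy' =>
      ((hn N hN (r N) (hr N)).2 t htT y' hy').1
    rw [rad, scl, le_div_iff₀ (by norm_num : (0 : ℝ) < 4), pow_succ (bs N) 2]
    exact mul_le_mul_of_nonneg_left h4 (sq_nonneg _)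
  have hp0 : ∀ N, 0 ≤ pinErr (scl N) (pen K N) (devB K (C * (1 + (L + 2))) N) (rad N) := fun N => by
    have := cnum_nonneg K N
    have := scl_nonneg N
    have hr : 0 ≤ rad N := sq_nonneg _
    unfold pinErr pen devB
    positivity
  have hgain0 : ∀ N, 0 ≤ 2 * gainRem (stp N * N) / (stp N * N) := fun N => by
    have := gmom_nonneg 3
    have := gmom_nonneg 4
    have := gmom_nonneg 6
    have := stp_pos N
    unfold gainRem
    positivity
  have hshare : Tendsto (fun N => ∑ l,
      |((Finset.univ.filter fun b => blk N b = l).card : ℝ) / N - a.wt l|) atTop (𝓝 0) := by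
    have h := tendsto_finsetSum (Finset.univ : Finset (Fin K))
      fun l _ => ((hb l).sub_const (a.wt l)).abs
    simpa using h
  refine ⟨fun j => ?_, fun q l Φ e hΦ hB he => ?_, ?_, fun i j φ hφ hB => ?_, fun i j => ?_,
    fun q hq ε hε => ?_⟩
  · refine squeeze_zero' (Eventually.of_forall fun N => expect_nonneg _ _ _ fun R => abs_nonneg _) ?_
      (tendsto_pin K hC')
    filter_upwards [hpin] with N hN
    refine (diag_concentrates _ hN j).trans ?_
    exact le_mul_of_one_le_left (hp0 N) (le_add_of_nonneg_left (Nat.cast_nonneg _))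
  · obtain ⟨B, hB⟩ := hB
    have hlim := (tendsto_pin K hC').const_mul (B * (2 * K + 1))
    rw [mul_zero] at hlim
    refine squeeze_zero_norm' ?_ hlim
    filter_upwards [hpin, tendsto_degr.eventually_ge_atTop (∑ j, e j)] with N hN hd
    have hej : ∀ j, e j < degr N + 1 := fun j =>
      Nat.lt_succ_of_le ((Finset.single_le_sum (fun i _ => Nat.zero_le (e i)) (Finset.mem_univ j)).trans hd)
    set e' : Mon (Fin K) (degr N) := ⟨fun j => ⟨e j, hej j⟩, he⟩
    have h := gg_of_pinned _ hN l hΦ hB e'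
    have hee : (fun j => ((e'.1 j : Fin (degr N + 1)) : ℕ)) = e := rfl
    rw [hee] at h
    rw [Real.norm_eq_abs]
    refine h.trans ?_
    have hB0 : 0 ≤ B := (abs_nonneg _).trans (hB fun _ _ _ => 0)
    calc B * (1 + 2 * degr N * Fintype.card (Fin K)) *
          pinErr (scl N) (pen K N) (devB K (C * (1 + (L + 2))) N) (rad N)
        ≤ B * ((2 * K + 1) * ((degr N : ℝ) + 1)) *
          pinErr (scl N) (pen K N) (devB K (C * (1 + (L + 2))) N) (rad N) := by
          refine mul_le_mul_of_nonneg_right (mul_le_mul_of_nonneg_left ?_ hB0) (hp0 N)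
          rw [Fintype.card_fin]
          nlinarith [(Nat.cast_nonneg (degr N) : (0 : ℝ) ≤ degr N), (Nat.cast_nonneg K : (0 : ℝ) ≤ K)]
      _ = _ := by ring
  · exact tendsto_const_nhds.congr' ((eventually_ge_atTop 1).mono fun N hN =>
      (expect_unit a (blk N) (hν N) (nn N) t m (r N) (scl N) (y N) hN).symm)
  · obtain ⟨B, hB⟩ := hB
    obtain ⟨C', hC''⟩ := uSys_loop K
    have hlim := (hshare.add (tendsto_loopErr K)).const_mul (C' * B)
    rw [add_zero, mul_zero] at hlim
    refine squeeze_zero_norm' ((eventually_ge_atTop 1).mono fun N hN => ?_) hlim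
    exact (hC'' N a (blk N) (ν N) (hν N) (nn N + 1) k (by omega) m (r N) t (scl N) (2 * scl N)
      (degr N) (y N) φ B _ i j hN (scl_nonneg N) (by linarith [scl_nonneg N]) (ybox_subset K N (hy N))
      hφ hB fun l => Finset.single_le_sum
        (f := fun l => |((Finset.univ.filter fun b => blk N b = l).card : ℝ) / N - a.wt l|)
        (fun _ _ => abs_nonneg _) (Finset.mem_univ l)).1
  · obtain ⟨C', hC''⟩ := uSys_loop K
    have hlim := (hshare.add (tendsto_loopErr K)).const_mul C'
    rw [add_zero, mul_zero] at hlim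
    refine squeeze_zero_norm' ((eventually_ge_atTop 1).mono fun N hN => ?_) hlim
    exact (hC'' N a (blk N) (ν N) (hν N) (nn N + 1) k (by omega) m (r N) t (scl N) (2 * scl N)
      (degr N) (y N) (fun _ => 0) 0 _ i j hN (scl_nonneg N) (by linarith [scl_nonneg N])
      (ybox_subset K N (hy N)) continuous_const (fun _ => by simp) fun l => Finset.single_le_sum
        (f := fun l => |((Finset.univ.filter fun b => blk N b = l).card : ℝ) / N - a.wt l|)
        (fun _ _ => abs_nonneg _) (Finset.mem_univ l)).2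
  · have h0 := tendsto_gain.add tendsto_one_div_add_atTop_nhds_zero_nat
    rw [add_zero] at h0
    filter_upwards [h0.eventually (eventually_le_nhds hε), eventually_ge_atTop 1,
      (tendsto_cost K).eventually (eventually_le_nhds (show (0 : ℝ) < 1 / 4 by norm_num)),
      eventually_ge_atTop 4] with N he hN hcost hN4
    have hsmall : (2 * cnum K N * scl N ^ 2 + 1) / N ≤ 1 := by
      have : (1 : ℝ) / N ≤ 1 / 4 := one_div_le_one_div_of_le (by norm_num) (by exact_mod_cast hN4)
      have e : (2 * cnum K N * scl N ^ 2 + 1) / N = 2 * (cnum K N * scl N ^ 2 / N) + 1 / N := by ring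
      rw [e]
      linarith
    have hs := hn N hN (r N) (hr N)
    have hlast := max_below (hν N) hN ht htβ (hr N) (hy N) (hmax N) hs.1 hsmall hL hL0
    have h := tails_bound a (blk N) (hν N) (nn N) t m (r N) (scl N) (y N) hm hp (hgain0 N)
      (show (0 : ℝ) ≤ 1 / ((N : ℝ) + 1) by positivity)
      (fun j => max_overlap (hν N) hN (hr N) (hy N) (hmax N) hL0 hlast.le j)
      ((hs.2 t htT (y N) (ybox_subset K N (hy N))).2) hq
    linarith

end Vale.Agent.P166F
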