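import Vale.Agent.P166F.Up.Field
import Vale.Agent.P166F.Up.SysFacts

/-!
P166: the randomness of the enriched system split into the tree fields and the rest.
-/

namespace Vale.Agent.P166F

open MeasureTheory ProbabilityTheory
open scoped RealInnerProductSpace
open Vale.Agent.P166 (spin)
open Vale.Agent.P166N (Node Leaf unif)
open Vale.Agent.P166N.Spectrum (OrthInvLaw)

variable {K N n k P : ℕ}

/-- Everything random except the tree fields. -/
abbrev RSp (K N n k P : ℕ) :=
  ((Fin N → Fin N → ℝ) × (Node n k → ℝ)) × EuclideanSpace ℝ (GIdx (Fin K) P N)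

/-- Its law. -/
noncomputable def restLaw (ν : Measure (Fin N → Fin N → ℝ)) (n k K P : ℕ) :
    Measure (RSp K N n k P) :=
  (ν.prod (Measure.pi fun _ => unif)).prod (stdGaussian (EuclideanSpace ℝ (GIdx (Fin K) P N)))

/-- All randomness, assembled from the rest and the field coordinates. -/
noncomputable def joinR (p : RSp K N n k P × FSp N n k) :
    UOmega N n k × EuclideanSpace ℝ (GIdx (Fin K) P N) :=
  ((p.1.1.1, (p.1.1.2, byNode p.2)), p.1.2)

lemma measurePreserving_joinR (ν : Measure (Fin N → Fin N → ℝ)) [IsProbabilityMeasure ν] :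
    MeasurePreserving (joinR (K := K) (N := N) (n := n) (k := k) (P := P))
      ((restLaw ν n k K P).prod (stdGaussian (FSp N n k)))
      ((ν.prod (markLaw n k (Fin N))).prod
        (stdGaussian (EuclideanSpace ℝ (GIdx (Fin K) P N)))) := by
  have hm : Measurable (joinR (K := K) (N := N) (n := n) (k := k) (P := P)) := by
    unfold joinR
    have : Measurable (byNode (A := Option (Node n k)) (N := N)) :=
      (measurePreserving_byNode _ N).measurable
    fun_prop
  set μV := Measure.pi fun _ : Node n k => unif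
  set μZ := Measure.pi fun _ : Option (Node n k) => stdGaussian (EuclideanSpace ℝ (Fin N))
  set μP := stdGaussian (EuclideanSpace ℝ (GIdx (Fin K) P N))
  have h1 : MeasurePreserving (fun p : RSp K N n k P × FSp N n k => (p.1, byNode p.2))
      (((ν.prod μV).prod μP).prod (stdGaussian (FSp N n k))) (((ν.prod μV).prod μP).prod μZ) :=
    (MeasurePreserving.id _).prod (measurePreserving_byNode _ N)
  have h2 : MeasurePreserving
      (fun p : RSp K N n k P × (Option (Node n k) → EuclideanSpace ℝ (Fin N)) =>
        ((p.1.1, p.2), p.1.2))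
      (((ν.prod μV).prod μP).prod μZ) (((ν.prod μV).prod μZ).prod μP) := by
    have a := measurePreserving_prodAssoc (ν.prod μV) μP μZ
    have b := (MeasurePreserving.id (ν.prod μV)).prod
      (Measure.measurePreserving_swap (μ := μP) (ν := μZ))
    have c := MeasurePreserving.symm _ (measurePreserving_prodAssoc (ν.prod μV) μZ μP)
    exact (c.comp (b.comp a))
  have h3 : MeasurePreserving
      (fun p : ((Fin N → Fin N → ℝ) × (Node n k → ℝ)) ×
          (Option (Node n k) → EuclideanSpace ℝ (Fin N)) => (p.1.1, (p.1.2, p.2)))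
      ((ν.prod μV).prod μZ) (ν.prod (μV.prod μZ)) := measurePreserving_prodAssoc ν μV μZ
  exact (h3.prod (MeasurePreserving.id μP)).comp (h2.comp h1)

/-- The log-weight apart from the tree fields. -/
noncomputable def restLogw (a : Atoms K) (blk : Fin N → Fin K) (t : ℝ) (m : Fin (k + 1) → ℝ)
    (U : Fin N → Fin N → ℝ) (v : Node n k → ℝ) (x : (Fin N → Bool) × Leaf n k) : ℝ :=
  t * N / 2 * ∑ i, a.lam i * ‖blockVec blk U x.1 i‖ ^ 2 - N * Real.log 2 +
    Real.log (wgt n k (seqOf m) v x.2 / ∑ l, wgt n k (seqOf m) v l)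

variable (a : Atoms K) (blk : Fin N → Fin K) {ν : Measure (Fin N → Fin N → ℝ)}
  (hν : OrthInvLaw N ν) (hn : 1 ≤ n) (t : ℝ) (m r : Fin (k + 1) → ℝ) (s : ℝ)
  (y : CIdx (Fin K) P → ℝ)

/-- The exponent apart from the tree fields. -/
noncomputable def baseExp (p : RSp K N n k P) (x : (Fin N → Bool) × Leaf n k) : ℝ :=
  restLogw a blk t m p.1.1 p.1.2 x +
    (uSys a blk hν hn t m 0).ham s y (p.1.1, (p.1.2, 0)) p.2 x

lemma exponent_joinR (p : RSp K N n k P × FSp N n k) (x : (Fin N → Bool) × Leaf n k) :
    (uSys a blk hν hn t m r).logw (joinR p).1 x +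
        (uSys a blk hν hn t m r).ham s y (joinR p).1 (joinR p).2 x =
      baseExp a blk hν hn t m s y p.1 x + ⟪p.2, leafVec (seqOf r) x⟫ := by
  have e1 : (uSys a blk hν hn t m r).ham s y (joinR p).1 (joinR p).2 x =
      (uSys a blk hν hn t m 0).ham s y (p.1.1.1, (p.1.1.2, 0)) p.1.2 x := rfl
  have e2 : (uSys a blk hν hn t m r).logw (joinR p).1 x =
      restLogw a blk t m p.1.1.1 p.1.1.2 x + ⟪p.2, leafVec (seqOf r) x⟫ := by
    show uLogw a blk t m r _ x = _
    rw [← leafPt_byNode (seqOf r) x p.2]
    simp only [uLogw, restLogw, joinR]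
    ring
  rw [e1, e2, baseExp]
  ring

lemma measurable_baseExp (x : (Fin N → Bool) × Leaf n k) :
    Measurable fun p : RSp K N n k P => baseExp a blk hν hn t m s y p x := by
  unfold baseExp
  refine Measurable.add ?_ (((uSys a blk hν hn t m 0).measurable_ham s y x).comp
    (f := fun p : RSp K N n k P => (((p.1.1, (p.1.2, 0)) : UOmega N n k), p.2)) (by fun_prop))
  unfold restLogw
  have h1 : Measurable fun U : Fin N → Fin N → ℝ =>
      t * N / 2 * ∑ i, a.lam i * ‖blockVec blk U x.1 i‖ ^ 2 :=
    (continuous_const.mul (continuous_finsetSum _ fun i _ => continuous_const.mul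
      ((continuous_blockVec blk x.1 i).norm.pow 2))).measurable
  have h2 : Measurable fun v : Node n k → ℝ =>
      Real.log (wgt n k (seqOf m) v x.2 / ∑ l, wgt n k (seqOf m) v l) :=
    ((measurable_wgt k (seqOf m) x.2).div
      (Finset.measurable_fun_sum _ fun l _ => measurable_wgt k (seqOf m) l)).log
  exact ((h1.comp (measurable_fst.comp measurable_fst)).sub_const _).add
    (h2.comp (measurable_snd.comp measurable_fst))

/-- The log-sum at given exponents. -/
noncomputable def lsum {X : Type} [Fintype X] (e : X → ℝ) : ℝ := Real.log (∑ x, Real.exp (e x))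

lemma logZ_joinR (p : RSp K N n k P × FSp N n k) :
    (uSys a blk hν hn t m r).logZ s y (joinR p) =
      lsum fun x => baseExp a blk hν hn t m s y p.1 x + ⟪p.2, leafVec (seqOf r) x⟫ := by
  simp only [Sys.logZ, lsum]
  exact congrArg Real.log (Finset.sum_congr rfl fun x _ =>
    congrArg Real.exp (exponent_joinR a blk hν hn t m r s y p x))

/-- Gibbs weights at given exponents. -/
noncomputable def gibW {X : Type} [Fintype X] (e : X → ℝ) (x : X) : ℝ :=
  Real.exp (e x) / ∑ x', Real.exp (e x')

/-- Replica average at given exponents. -/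
noncomputable def repAvg {X : Type} [Fintype X] {q : ℕ} (e : X → ℝ) (Θ : (Fin q → X) → ℝ) : ℝ :=
  ∑ x : Fin q → X, (∏ l, gibW e (x l)) * Θ x

lemma repAvg_eq {X : Type} [Fintype X] {q : ℕ} (e : X → ℝ) (Θ : (Fin q → X) → ℝ) :
    (∑ x : Fin q → X, (∏ l, Real.exp (e (x l))) * Θ x) / (∑ x, Real.exp (e x)) ^ q =
      repAvg e Θ := by
  rw [repAvg, Finset.sum_div]
  refine Finset.sum_congr rfl fun x _ => ?_
  simp only [gibW, Finset.prod_div_distrib, Finset.prod_const, Finset.card_univ, Fintype.card_fin]
  ring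

end Vale.Agent.P166F
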