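import Vale.Agent.P166F.Sys
import Vale.Agent.P157.Low.GGBase

/-!
P166: monomials of the features differentiated along a direction, and the largest of finitely many
Gaussian variables.
-/

namespace Vale.Agent.P166F.Loop2

open MeasureTheory ProbabilityTheory
open scoped RealInnerProductSpace

variable {J : Type} [Fintype J] {D : ℕ}

/-- A slot of a monomial. -/
abbrev Slot (e : J → ℕ) := (j : J) × Fin (e j)

/-- The tensor entry of a monomial. -/
noncomputable def mterm (e : J → ℕ) (v : J → EuclideanSpace ℝ (Fin D))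
    (idx : (j : J) → Fin (e j) → Fin D) : ℝ :=
  ∏ j, ∏ t, v j (idx j t)

/-- Its derivative in the direction `w`. -/
noncomputable def mderiv [DecidableEq J] (e : J → ℕ) (v w : J → EuclideanSpace ℝ (Fin D))
    (idx : (j : J) → Fin (e j) → Fin D) : ℝ :=
  ∑ z : Slot e, (∏ z' ∈ Finset.univ.erase z, v z'.1 (idx z'.1 z'.2)) * w z.1 (idx z.1 z.2)

lemma mterm_eq (e : J → ℕ) (v : J → EuclideanSpace ℝ (Fin D))
    (idx : (j : J) → Fin (e j) → Fin D) : mterm e v idx = ∏ z : Slot e, v z.1 (idx z.1 z.2) :=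
  (Fintype.prod_sigma fun z : Slot e => v z.1 (idx z.1 z.2)).symm

variable [DecidableEq J]

lemma hasDerivAt_mterm (e : J → ℕ) {v : ℝ → J → EuclideanSpace ℝ (Fin D)}
    {w : J → EuclideanSpace ℝ (Fin D)} (h : ∀ j d, HasDerivAt (fun t => v t j d) (w j d) 0)
    (idx : (j : J) → Fin (e j) → Fin D) :
    HasDerivAt (fun t => mterm e (v t) idx) (mderiv e (v 0) w idx) 0 := by
  simp only [mterm_eq]
  exact (HasDerivAt.fun_finsetProd fun (z : Slot e) (_ : z ∈ Finset.univ) => h z.1 (idx z.1 z.2)).congr_deriv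
    (by simp only [mderiv, smul_eq_mul])

lemma sum_mderiv {ι : Type} (s : Finset ι) (e : J → ℕ) (v : J → EuclideanSpace ℝ (Fin D))
    (α : ι → ℝ) (w : ι → J → EuclideanSpace ℝ (Fin D)) (idx : (j : J) → Fin (e j) → Fin D) :
    ∑ a ∈ s, α a * mderiv e v (w a) idx = mderiv e v (fun j => ∑ a ∈ s, α a • w a j) idx := by
  simp only [mderiv, WithLp.ofLp_sum, Finset.sum_apply, WithLp.ofLp_smul, Pi.smul_apply, smul_eq_mul,
    Finset.mul_sum]
  rw [Finset.sum_comm]
  exact Finset.sum_congr rfl fun z _ => Finset.sum_congr rfl fun a _ => by ring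

lemma sum_sq_mderiv_le (e : J → ℕ) {v w : J → EuclideanSpace ℝ (Fin D)} {B : ℝ}
    (hv : ∀ j, ‖v j‖ ≤ 1) (hw : ∀ j, ‖w j‖ ≤ B) :
    ∑ idx : (j : J) → Fin (e j) → Fin D, mderiv e v w idx ^ 2 ≤
      (∑ j, (e j : ℝ)) ^ 2 * B ^ 2 := by
  set n : ℝ := ∑ j, (e j : ℝ) with hn
  have hcard : (Fintype.card (Slot e) : ℝ) = n := by simp [hn]
  have hz : ∀ z : Slot e, ∑ idx : (j : J) → Fin (e j) → Fin D,
      ((∏ z' ∈ Finset.univ.erase z, v z'.1 (idx z'.1 z'.2)) * w z.1 (idx z.1 z.2)) ^ 2 ≤ B ^ 2 := by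
    intro z
    set F : Slot e → Fin D → ℝ := fun z' d => if z' = z then w z.1 d ^ 2 else v z'.1 d ^ 2 with hF
    have he : ∀ idx : (j : J) → Fin (e j) → Fin D,
        ((∏ z' ∈ Finset.univ.erase z, v z'.1 (idx z'.1 z'.2)) * w z.1 (idx z.1 z.2)) ^ 2 =
          ∏ z', F z' (idx z'.1 z'.2) := fun idx => by
      rw [← Finset.mul_prod_erase Finset.univ (fun z' => F z' (idx z'.1 z'.2)) (Finset.mem_univ z),
        mul_pow, ← Finset.prod_pow, mul_comm]
      simp only [hF, if_pos]
      congr 1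
      exact Finset.prod_congr rfl fun z' hz' => by rw [if_neg (Finset.ne_of_mem_erase hz')]
    simp only [he]
    rw [← (Equiv.piCurry fun (j : J) (_ : Fin (e j)) => Fin D).sum_comp]
    change ∑ g : Slot e → Fin D, ∏ z', F z' (g z') ≤ B ^ 2
    rw [← Fintype.prod_sum, ← Finset.mul_prod_erase Finset.univ _ (Finset.mem_univ z)]
    have h1 : ∑ d, F z d ≤ B ^ 2 := by
      simp only [hF, if_pos, ← EuclideanSpace.real_norm_sq_eq]
      exact pow_le_pow_left₀ (norm_nonneg _) (hw z.1) 2
    have h0 : ∀ z', 0 ≤ ∑ d, F z' d := fun z' =>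
      Finset.sum_nonneg fun d _ => by simp only [hF]; split_ifs <;> exact sq_nonneg _
    refine (mul_le_mul h1 (Finset.prod_le_one (fun z' _ => h0 z') fun z' hz' => ?_)
      (Finset.prod_nonneg fun z' _ => h0 z') (sq_nonneg B)).trans_eq (mul_one _)
    simp only [hF, if_neg (Finset.ne_of_mem_erase hz'), ← EuclideanSpace.real_norm_sq_eq]
    exact pow_le_one₀ (norm_nonneg _) (hv z'.1)
  calc ∑ idx : (j : J) → Fin (e j) → Fin D, mderiv e v w idx ^ 2
      ≤ ∑ idx : (j : J) → Fin (e j) → Fin D, n * ∑ z : Slot e,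
          ((∏ z' ∈ Finset.univ.erase z, v z'.1 (idx z'.1 z'.2)) * w z.1 (idx z.1 z.2)) ^ 2 :=
        Finset.sum_le_sum fun idx _ => by
          rw [← hcard, ← Finset.card_univ]
          exact sq_sum_le_card_mul_sum_sq
    _ ≤ n * (n * B ^ 2) := by
        rw [← Finset.mul_sum, Finset.sum_comm]
        refine mul_le_mul_of_nonneg_left ((Finset.sum_le_sum fun z _ => hz z).trans_eq ?_) (by positivity)
        rw [Finset.sum_const, nsmul_eq_mul, Finset.card_univ, hcard]
    _ = _ := by ring

section maxGauss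

variable {E : Type} [NormedAddCommGroup E] [InnerProductSpace ℝ E] [FiniteDimensional ℝ E]
  [MeasurableSpace E] [BorelSpace E] {T : Type} [Fintype T]

/-- A smooth majorant of finitely many linear forms. -/
noncomputable def softmax (lam : ℝ) (w : T → E) (g : E) : ℝ :=
  Real.log (∑ c, (Real.exp ⟪g, lam • w c⟫ + Real.exp ⟪g, -(lam • w c)⟫)) / lam

omit [FiniteDimensional ℝ E] [MeasurableSpace E] [BorelSpace E] in
lemma abs_inner_le_softmax {lam : ℝ} (hl : 0 < lam) (w : T → E) (g : E) (c : T) :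
    |⟪g, w c⟫| ≤ softmax lam w g := by
  have h : Real.exp (lam * |⟪g, w c⟫|) ≤
      ∑ c, (Real.exp ⟪g, lam • w c⟫ + Real.exp ⟪g, -(lam • w c)⟫) := by
    refine le_trans ?_ (Finset.single_le_sum (f := fun c => Real.exp ⟪g, lam • w c⟫ +
      Real.exp ⟪g, -(lam • w c)⟫) (fun c _ => by positivity) (Finset.mem_univ c))
    simp only [inner_neg_right, real_inner_smul_right]
    rcases abs_cases ⟪g, w c⟫ with ⟨h, _⟩ | ⟨h, _⟩
    · rw [h]; linarith [Real.exp_pos (-(lam * ⟪g, w c⟫))]
    · rw [h, mul_neg]; linarith [Real.exp_pos (lam * ⟪g, w c⟫)]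
  have h2 := Real.log_le_log (Real.exp_pos _) h
  rw [Real.log_exp] at h2
  rw [softmax, le_div_iff₀ hl]
  linarith

lemma integrable_softmax [Nonempty T] {lam : ℝ} (w : T → E) :
    Integrable (softmax lam w) (stdGaussian E) := by
  obtain ⟨M, hM⟩ : ∃ M, ∀ c ∈ (Finset.univ : Finset T), ‖lam • w c‖ ≤ M :=
    ⟨∑ c, ‖lam • w c‖, fun c hc => Finset.single_le_sum (f := fun c => ‖lam • w c‖)
      (fun c _ => norm_nonneg _) hc⟩
  set k : ℝ := 2 * Fintype.card T
  have hk : (1 : ℝ) ≤ k := by
    have : (1 : ℝ) ≤ Fintype.card T := by exact_mod_cast Fintype.card_pos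
    simp only [k]
    linarith
  have hm : Measurable (softmax lam w) := by unfold softmax; fun_prop
  refine (((integrable_const (Real.log k)).add
    ((IsGaussian.integrable_id (μ := stdGaussian E)).norm.const_mul M)).div_const |lam|).mono'
    hm.aestronglyMeasurable (Filter.Eventually.of_forall fun g => ?_)
  have hb : ∀ c, |⟪g, lam • w c⟫| ≤ M * ‖g‖ := fun c =>
    (abs_real_inner_le_norm _ _).trans ((mul_comm _ _).trans_le
      (mul_le_mul_of_nonneg_right (hM c (Finset.mem_univ c)) (norm_nonneg g)))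
  set S := ∑ c, (Real.exp ⟪g, lam • w c⟫ + Real.exp ⟪g, -(lam • w c)⟫) with hS
  have hup : S ≤ k * Real.exp (M * ‖g‖) := by
    refine (Finset.sum_le_sum fun c _ => add_le_add (Real.exp_le_exp.2 ((le_abs_self _).trans (hb c)))
      (Real.exp_le_exp.2 (?_ : ⟪g, -(lam • w c)⟫ ≤ M * ‖g‖))).trans_eq (by simp [k]; ring)
    rw [inner_neg_right]
    exact (neg_le_abs _).trans (hb c)
  have hlo : Real.exp (-(M * ‖g‖)) ≤ S := by
    obtain ⟨c⟩ := ‹Nonempty T›
    refine le_trans ?_ (Finset.single_le_sum (f := fun c => Real.exp ⟪g, lam • w c⟫ +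
      Real.exp ⟪g, -(lam • w c)⟫) (fun c _ => by positivity) (Finset.mem_univ c))
    have := Real.exp_le_exp.2 (neg_le_of_abs_le (hb c))
    linarith [Real.exp_pos ⟪g, -(lam • w c)⟫]
  have h0 : 0 < S := (Real.exp_pos _).trans_le hlo
  have h1 := Real.log_le_log h0 hup
  have h2 := Real.log_le_log (Real.exp_pos _) hlo
  rw [Real.log_mul (by positivity) (Real.exp_pos _).ne', Real.log_exp] at h1
  rw [Real.log_exp] at h2
  have hlk := Real.log_nonneg hk
  rw [softmax, ← hS, Real.norm_eq_abs, abs_div]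
  refine div_le_div_of_nonneg_right ?_ (abs_nonneg lam)
  simp only [Pi.add_apply, id]
  exact _root_.abs_le.2 ⟨by linarith, by linarith⟩

lemma integral_softmax_le [Nonempty T] {lam : ℝ} (hl : 0 < lam) {w : T → E} {M : ℝ}
    (hw : ∀ c, ‖w c‖ ≤ M) :
    ∫ g, softmax lam w g ∂stdGaussian E ≤ Real.log (2 * Fintype.card T) / lam + lam * M ^ 2 / 2 := by
  set S := fun g => ∑ c, (Real.exp ⟪g, lam • w c⟫ + Real.exp ⟪g, -(lam • w c)⟫)
  have hS : ∀ g, 0 < S g := fun g => Finset.sum_pos (fun c _ => by positivity) Finset.univ_nonempty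
  have hi : ∀ u : E, Integrable (fun g => Real.exp ⟪g, u⟫) (stdGaussian E) := fun u =>
    (Vale.Agent.P157.Low.integrable_exp_norm ‖u‖).mono' (by fun_prop)
      (Filter.Eventually.of_forall fun g => by
        rw [Real.norm_eq_abs, Real.abs_exp, Real.exp_le_exp, mul_comm]
        exact real_inner_le_norm g u)
  have hSi : Integrable S (stdGaussian E) :=
    integrable_finsetSum _ fun c _ => (hi _).add (hi _)
  have hSv : ∫ g, S g ∂stdGaussian E ≤ 2 * Fintype.card T * Real.exp (lam ^ 2 * M ^ 2 / 2) := by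
    simp only [S]
    have hi2 : ∀ c, Integrable (fun g => Real.exp ⟪g, lam • w c⟫ + Real.exp ⟪g, -(lam • w c)⟫)
        (stdGaussian E) := fun c => (hi _).add (hi _)
    rw [integral_finsetSum _ fun c _ => hi2 c]
    refine (Finset.sum_le_sum fun c _ => (?_ : _ ≤ 2 * Real.exp (lam ^ 2 * M ^ 2 / 2))).trans_eq
      (by simp; ring)
    rw [integral_add (hi _) (hi _), Vale.Agent.P157.Low.integral_exp_inner,
      Vale.Agent.P157.Low.integral_exp_inner, norm_neg]
    have : ‖lam • w c‖ ^ 2 ≤ lam ^ 2 * M ^ 2 := by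
      rw [norm_smul, mul_pow, Real.norm_eq_abs, sq_abs]
      exact mul_le_mul_of_nonneg_left (pow_le_pow_left₀ (norm_nonneg _) (hw c) 2) (sq_nonneg _)
    linarith [Real.exp_le_exp.2 (div_le_div_of_nonneg_right this (by norm_num : (0 : ℝ) ≤ 2))]
  have hlog : Integrable (fun g => Real.log (S g)) (stdGaussian E) := by
    refine ((integrable_softmax (lam := lam) w).const_mul lam).congr (Filter.Eventually.of_forall fun g => ?_)
    simp only [softmax, S]
    field_simp
  have hJ : ∫ g, Real.log (S g) ∂stdGaussian E ≤ Real.log (∫ g, S g ∂stdGaussian E) := by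
    have hpos : 0 < ∫ g, S g ∂stdGaussian E :=
      (integral_pos_iff_support_of_nonneg (fun g => (hS g).le) hSi).2 (by
        rw [show Function.support S = Set.univ from Set.eq_univ_of_forall fun g => (hS g).ne']
        simp)
    set A := ∫ g, S g ∂stdGaussian E
    refine (integral_mono hlog ((integrable_const (Real.log A)).add ((hSi.div_const A).sub
      (integrable_const 1))) fun g => ?_).trans_eq ?_
    · have := Real.log_le_sub_one_of_pos (div_pos (hS g) hpos)
      rw [Real.log_div (hS g).ne' hpos.ne'] at this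
      simp only [Pi.add_apply, Pi.sub_apply]
      linarith
    · simp only [Pi.add_apply, Pi.sub_apply]
      have h1 : Integrable (fun x => S x / A - 1) (stdGaussian E) :=
        (hSi.div_const A).sub (integrable_const 1)
      rw [integral_add (integrable_const _) h1,
        integral_sub (hSi.div_const A) (integrable_const 1), integral_div, integral_const,
        integral_const]
      simp only [probReal_univ, smul_eq_mul, one_mul]
      rw [show (∫ a, S a ∂stdGaussian E) = A from rfl, div_self hpos.ne', sub_self, add_zero]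
  have hA0 : 0 < ∫ g, S g ∂stdGaussian E :=
    (integral_pos_iff_support_of_nonneg (fun g => (hS g).le) hSi).2 (by
      rw [show Function.support S = Set.univ from Set.eq_univ_of_forall fun g => (hS g).ne']
      simp)
  have hc : (0 : ℝ) < 2 * Fintype.card T := by
    have : (0 : ℝ) < Fintype.card T := by exact_mod_cast Fintype.card_pos
    positivity
  have h3 := hJ.trans (Real.log_le_log hA0 hSv)
  rw [Real.log_mul hc.ne' (Real.exp_pos _).ne', Real.log_exp] at h3
  simp only [softmax, integral_div]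
  refine (div_le_div_of_nonneg_right h3 hl.le).trans_eq ?_
  field_simp

end maxGauss

end Vale.Agent.P166F.Loop2
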