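import Vale.Agent.P166F.Up.Model

/-!
P166: measurability and integrability for the enriched system of the upper bound, and the system itself.
-/

namespace Vale.Agent.P166F

open MeasureTheory ProbabilityTheory
open Vale.Agent.P166 (spin)
open Vale.Agent.P166N (Node Leaf unif ae_unif nonempty_leaf)
open Vale.Agent.P166N.Spectrum (OrthInvLaw)

variable {K N n k : ℕ}

lemma spin_sq (b : Bool) : spin b ^ 2 = 1 := by cases b <;> norm_num [spin]

lemma norm_toBall_le {D : ℕ} (x : EuclideanSpace ℝ (Fin D)) : ‖toBall x‖ ≤ 1 := by
  rw [toBall, norm_smul, norm_inv, Real.norm_of_nonneg (by positivity)]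
  rcases le_total ‖x‖ 1 with h | h
  · rw [max_eq_left h]; simpa using h
  · rw [max_eq_right h, inv_mul_cancel₀]; linarith

lemma toBall_of_le {D : ℕ} {x : EuclideanSpace ℝ (Fin D)} (hx : ‖x‖ ≤ 1) : toBall x = x := by
  simp [toBall, max_eq_left hx]

lemma continuous_toBall {D : ℕ} : Continuous (toBall (D := D)) := by
  unfold toBall
  exact ((continuous_const.max continuous_norm).inv₀ fun x =>
    (zero_lt_one.trans_le (le_max_left 1 ‖x‖)).ne').smul continuous_id

lemma continuous_blockVec (blk : Fin N → Fin K) (σ : Fin N → Bool) (i : Fin K) :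
    Continuous fun U => blockVec blk U σ i := by
  unfold blockVec
  refine (PiLp.continuous_toLp 2 _).comp (continuous_pi fun j => ?_)
  split_ifs <;> fun_prop

/-- The squared norm of one block is at most one on orthogonal matrices. -/
lemma norm_blockVec_le (blk : Fin N → Fin K) {U : Fin N → Fin N → ℝ}
    (hU : (Matrix.of U).transpose * Matrix.of U = 1) (σ : Fin N → Bool) (i : Fin K) :
    ‖blockVec blk U σ i‖ ≤ 1 := by
  rcases Nat.eq_zero_or_pos N with rfl | hN
  · simp [EuclideanSpace.norm_eq]
  have hN' : (0 : ℝ) < N := by exact_mod_cast hN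
  set x := fun j => spin (σ j)
  have hx : dotProduct x x = N := by simp [x, dotProduct, ← sq, spin_sq]
  have h : ∑ a, (∑ j, U a j * x j) ^ 2 = (N : ℝ) := by
    have e : dotProduct ((Matrix.of U).mulVec x) ((Matrix.of U).mulVec x) = dotProduct x x := by
      rw [Matrix.dotProduct_mulVec, ← Matrix.mulVec_transpose, Matrix.mulVec_mulVec, hU,
        Matrix.one_mulVec]
    rw [hx] at e
    refine Eq.trans ?_ e
    simp [dotProduct, Matrix.mulVec, sq]
  rw [← sq_le_one_iff₀ (norm_nonneg _), EuclideanSpace.real_norm_sq_eq]
  calc ∑ a, blockVec blk U σ i a ^ 2 ≤ ∑ a, ((∑ j, U a j * x j) / Real.sqrt N) ^ 2 :=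
        Finset.sum_le_sum fun a _ => by
          simp only [blockVec, x]
          split_ifs
          · exact le_rfl
          · simp [sq_nonneg]
    _ = 1 := by simp only [div_pow, ← Finset.sum_div, h, Real.sq_sqrt hN'.le]; field_simp

lemma ae_node_pos' : ∀ᵐ v ∂Measure.pi (fun _ : Node n k => unif), ∀ u, 0 < v u :=
  ae_all_iff.2 fun u => ((measurePreserving_eval (fun _ : Node n k => unif) u).quasiMeasurePreserving.ae
    (ae_unif.mono fun _ hv => hv.1))

lemma integrable_log_unif : Integrable Real.log unif := by
  have h := intervalIntegral.intervalIntegrable_log' (a := 0) (b := 1)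
  rw [intervalIntegrable_iff_integrableOn_Ioc_of_le zero_le_one] at h
  exact h

lemma measurePreserving_inj {A B X : Type} [Fintype A] [Fintype B] [MeasurableSpace X]
    (μ : Measure X) [IsProbabilityMeasure μ] {f : A → B} (hf : Function.Injective f) :
    MeasurePreserving (fun (v : B → X) a => v (f a)) (Measure.pi fun _ : B => μ)
      (Measure.pi fun _ : A => μ) := by
  classical
  have hm : Measurable fun (v : B → X) a => v (f a) := by fun_prop
  refine ⟨hm, (Measure.pi_eq fun s hs => ?_).symm⟩
  rw [Measure.map_apply hm (MeasurableSet.univ_pi hs),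
    show (fun (v : B → X) a => v (f a)) ⁻¹' Set.univ.pi s =
      Set.univ.pi fun b => if h : ∃ a, f a = b then s h.choose else Set.univ by
      ext v
      simp only [Set.mem_preimage, Set.mem_univ_pi]
      refine ⟨fun h b => ?_, fun h a => ?_⟩
      · split_ifs with hb
        · have := h hb.choose
          rwa [hb.choose_spec] at this
        · trivial
      · have := h (f a)
        rw [dif_pos ⟨a, rfl⟩] at this
        rwa [hf (⟨a, rfl⟩ : ∃ a', f a' = f a).choose_spec] at this,
    Measure.pi_pi,
    ← Finset.prod_subset (Finset.subset_univ (Finset.univ.image f)) (fun b _ hb => ?_),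
    Finset.prod_image fun _ _ _ _ h => hf h]
  · refine Finset.prod_congr rfl fun a _ => ?_
    rw [dif_pos ⟨a, rfl⟩, hf (⟨a, rfl⟩ : ∃ a', f a' = f a).choose_spec]
  · rw [dif_neg (by simpa using hb)]
    simp

lemma integrable_log_wgt (hn : 1 ≤ n) : ∀ (k : ℕ) (m : ℕ → ℝ) (l : Leaf n k),
    Integrable (fun v : Node n k → ℝ => Real.log (wgt n k m v l))
      (Measure.pi fun _ : Node n k => unif)
  | 0, _, _ => by simp [wgt]
  | k + 1, m, (a, l) => by
    have hsub : MeasurePreserving (fun (v : Node n (k + 1) → ℝ) (u : Node n k) => v (a, some u))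
        (Measure.pi fun _ => unif) (Measure.pi fun _ => unif) :=
      (measurePreserving_inj unif (f := fun u : Node n k => ((a, some u) : Node n (k + 1)))
        (fun u u' h => Option.some.inj (Prod.mk.inj h).2))
    have h1 : Integrable (fun v : Node n (k + 1) → ℝ =>
        -(1 / m 1) * (Real.log n + Real.log (v (a, none))))
        (Measure.pi fun _ : Node n (k + 1) => unif) :=
      ((integrable_const _).add ((measurePreserving_eval (fun _ : Node n (k + 1) => unif)
        (a, none)).integrable_comp_of_integrable integrable_log_unif)).const_mul _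
    refine (h1.add (hsub.integrable_comp_of_integrable
      (integrable_log_wgt hn k (fun j => m (j + 1)) l))).congr ?_
    filter_upwards [ae_node_pos'] with v hv
    have hn' : (0 : ℝ) < n := by exact_mod_cast hn
    have h0 : (0 : ℝ) < (n : ℝ) * v (a, none) := mul_pos hn' (hv _)
    have hw := wgt_pos hn (m := fun j => m (j + 1)) (v := fun u => v (a, some u)) (fun _ => hv _) l
    show -(1 / m 1) * (Real.log n + Real.log (v (a, none))) + Real.log (wgt n k _ _ l) =
      Real.log (((n : ℝ) * v (a, none)) ^ (-(1 / m 1)) * wgt n k _ _ l)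
    rw [Real.log_mul (Real.rpow_pos_of_pos h0 _).ne' hw.ne', Real.log_rpow h0]
    congr 2
    exact (Real.log_mul hn'.ne' (hv _).ne').symm

lemma continuous_leafPt (R : ℕ → Fin N → ℝ) (l : Leaf n k) (i : Fin N) :
    Continuous fun z : Option (Node n k) → EuclideanSpace ℝ (Fin N) => leafPt k R l z i := by
  simp only [leafPt]
  fun_prop

lemma integrable_leafPt (R : ℕ → Fin N → ℝ) (l : Leaf n k) (i : Fin N) :
    Integrable (fun z : Option (Node n k) → EuclideanSpace ℝ (Fin N) => leafPt k R l z i)
      (Measure.pi fun _ => stdGaussian (EuclideanSpace ℝ (Fin N))) := by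
  simp only [leafPt]
  refine integrable_finsetSum _ fun u _ => Integrable.const_mul ?_ _
  have h : Integrable (fun g : EuclideanSpace ℝ (Fin N) => g i)
      (stdGaussian (EuclideanSpace ℝ (Fin N))) :=
    (IsGaussian.integrable_id (μ := stdGaussian (EuclideanSpace ℝ (Fin N)))).norm.mono'
      (by fun_prop : Continuous fun g : EuclideanSpace ℝ (Fin N) => g i).aestronglyMeasurable
      (Filter.Eventually.of_forall fun g => PiLp.norm_apply_le g i)
  exact (measurePreserving_eval (fun _ => stdGaussian (EuclideanSpace ℝ (Fin N))) u).integrable_comp_of_integrable h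

lemma abs_log_div_sum {ι : Type} [Fintype ι] {w : ι → ℝ} (hw : ∀ i, 0 < w i) (l : ι) :
    |Real.log (w l / ∑ i, w i)| ≤ 2 * ∑ i, |Real.log (w i)| + Real.log (Fintype.card ι) := by
  set A := ∑ i, |Real.log (w i)| with hA
  have hl : ∀ i, |Real.log (w i)| ≤ A := fun i =>
    Finset.single_le_sum (fun j _ => abs_nonneg (Real.log (w j))) (Finset.mem_univ i)
  have hS : 0 < ∑ i, w i := Finset.sum_pos (fun i _ => hw i) ⟨l, Finset.mem_univ l⟩
  have h1 : w l ≤ ∑ i, w i := Finset.single_le_sum (fun i _ => (hw i).le) (Finset.mem_univ l)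
  have h2 : ∑ i, w i ≤ (Fintype.card ι : ℝ) * Real.exp A := by
    calc ∑ i, w i ≤ ∑ _i : ι, Real.exp A := Finset.sum_le_sum fun i _ => by
          rw [← Real.exp_log (hw i)]
          exact Real.exp_le_exp.2 ((le_abs_self _).trans (hl i))
      _ = _ := by simp
  have hc : (0 : ℝ) < Fintype.card ι := by exact_mod_cast Fintype.card_pos_iff.2 ⟨l⟩
  have h3 := Real.log_le_log (hw l) h1
  have h4 := Real.log_le_log hS h2
  rw [Real.log_mul hc.ne' (Real.exp_pos _).ne', Real.log_exp] at h4
  rw [Real.log_div (hw l).ne' hS.ne', abs_le]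
  have h5 := abs_le.1 (hl l)
  constructor <;> linarith

/-- The enriched system. -/
noncomputable def uSys (a : Atoms K) (blk : Fin N → Fin K) {ν : Measure (Fin N → Fin N → ℝ)}
    (hν : OrthInvLaw N ν) (hn : 1 ≤ n) (t : ℝ) (m r : Fin (k + 1) → ℝ) : Sys (Fin K) where
  Ω := UOmega N n k
  mΩ := inferInstance
  law := ν.prod (markLaw n k (Fin N))
  prob := by have := hν.prob; infer_instance
  X := (Fin N → Bool) × Leaf n k
  finX := inferInstance
  neX := by have := nonempty_leaf hn k; infer_instance
  D := N
  v ω x i := toBall (blockVec blk ω.1 x.1 i)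
  measV x i := (continuous_toBall.comp ((continuous_blockVec blk x.1 i).comp continuous_fst)).measurable
  norm _ _ _ := norm_toBall_le _
  logw := fun ω x => uLogw a blk t m r ω x
  measW x := by
    unfold uLogw
    have h1 : Measurable fun ω : UOmega N n k =>
        t * N / 2 * ∑ i, a.lam i * ‖blockVec blk ω.1 x.1 i‖ ^ 2 :=
      (continuous_const.mul (continuous_finsetSum _ fun i _ => continuous_const.mul
        (((continuous_blockVec blk x.1 i).comp continuous_fst).norm.pow 2))).measurable
    have h2 : Measurable fun ω : UOmega N n k =>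
        ∑ i, leafPt k (fun j _ => seqOf r j) x.2 ω.2.2 i * spin (x.1 i) :=
      Finset.measurable_fun_sum _ fun i _ => (((continuous_leafPt _ x.2 i).measurable).comp
        (measurable_snd.comp measurable_snd)).mul_const _
    have h3 : Measurable fun ω : UOmega N n k =>
        Real.log (wgt n k (seqOf m) ω.2.1 x.2 / ∑ l, wgt n k (seqOf m) ω.2.1 l) :=
      (((measurable_wgt k (seqOf m) x.2).comp (measurable_fst.comp measurable_snd)).div
        (Finset.measurable_fun_sum _ fun l _ =>
          (measurable_wgt k (seqOf m) l).comp (measurable_fst.comp measurable_snd))).log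
    exact ((h1.add h2).sub_const _).add h3
  intW x := by
    have := hν.prob
    unfold uLogw
    have h1 : Integrable (fun U : Fin N → Fin N → ℝ =>
        t * N / 2 * ∑ i, a.lam i * ‖blockVec blk U x.1 i‖ ^ 2) ν := by
      refine (integrable_finsetSum _ fun i _ => Integrable.const_mul ?_ _).const_mul _
      refine Integrable.of_bound ((continuous_blockVec blk x.1 i).norm.pow 2).aestronglyMeasurable 1
        (hν.orth.mono fun U hU => ?_)
      rw [Real.norm_of_nonneg (by positivity)]
      exact pow_le_one₀ (norm_nonneg _) (norm_blockVec_le blk hU x.1 i)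
    have h2 : Integrable (fun z : Option (Node n k) → EuclideanSpace ℝ (Fin N) =>
        ∑ i, leafPt k (fun j _ => seqOf r j) x.2 z i * spin (x.1 i))
        (Measure.pi fun _ => stdGaussian (EuclideanSpace ℝ (Fin N))) :=
      integrable_finsetSum _ fun i _ => (integrable_leafPt _ x.2 i).mul_const _
    have h3 : Integrable (fun v : Node n k → ℝ =>
        Real.log (wgt n k (seqOf m) v x.2 / ∑ l, wgt n k (seqOf m) v l))
        (Measure.pi fun _ : Node n k => unif) := by
      refine (((integrable_finsetSum Finset.univ fun l _ =>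
        (integrable_log_wgt hn k (seqOf m) l).abs).const_mul 2).add
          (integrable_const (Real.log (Fintype.card (Leaf n k))))).mono'
        (((measurable_wgt k (seqOf m) x.2).div
          (Finset.measurable_fun_sum _ fun l _ => measurable_wgt k (seqOf m) l)).log).aestronglyMeasurable ?_
      filter_upwards [ae_node_pos'] with v hv
      exact abs_log_div_sum (fun l => wgt_pos hn (m := seqOf m) hv l) x.2
    exact (((h1.comp_fst (markLaw n k (Fin N))).add ((h2.comp_snd _).comp_snd ν)).sub
      (integrable_const _)).add ((h3.comp_fst _).comp_snd ν)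

end Vale.Agent.P166F
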