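import Vale.Agent.P157.Low.Gauss2Law

/-!
P166: linear Gaussian processes with the same Gram matrix, and second-order bounds for log-averages of
exponentials.
-/

namespace Vale.Agent.P166F

open MeasureTheory ProbabilityTheory
open scoped RealInnerProductSpace
open Vale.Agent.P157

variable {X : Type} [Fintype X]
variable {E E' : Type} [NormedAddCommGroup E] [InnerProductSpace ℝ E] [FiniteDimensional ℝ E]
  [MeasurableSpace E] [BorelSpace E] [NormedAddCommGroup E'] [InnerProductSpace ℝ E']
  [FiniteDimensional ℝ E'] [MeasurableSpace E'] [BorelSpace E']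

/-- A functional of a linear Gaussian process depends only on the Gram matrix. -/
theorem integral_gram_eq (Φ : X → E) (Φ' : X → E') (h : ∀ x x', ⟪Φ x, Φ x'⟫ = ⟪Φ' x, Φ' x'⟫)
    {F : (X → ℝ) → ℝ} (hF : Measurable F) :
    ∫ g, F (fun x => ⟪g, Φ x⟫) ∂stdGaussian E = ∫ g, F (fun x => ⟪g, Φ' x⟫) ∂stdGaussian E' := by
  classical
  set e := Fintype.equivFin X
  have hΘ : Measurable fun v : Fin (Fintype.card X) → ℝ => F fun x => v (e x) :=
    hF.comp (measurable_pi_lambda _ fun x => measurable_pi_apply _)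
  have h1 := Low.integral_inner_GE (fun l => Φ (e.symm l)) hΘ
  have h2 := Low.integral_inner_GE (fun l => Φ' (e.symm l)) hΘ
  simp only [Equiv.symm_apply_apply] at h1 h2
  rw [h1, h2]
  simp only [h]

/-- `exp` lies above its third Taylor polynomial. -/
lemma cubic_le_exp (y : ℝ) : 1 + y + y ^ 2 / 2 + y ^ 3 / 6 ≤ Real.exp y := by
  have hd : ∀ y : ℝ, HasDerivAt (fun y => Real.exp (-y) * (1 + y + y ^ 2 / 2 + y ^ 3 / 6))
      (-(Real.exp (-y) * (y ^ 3 / 6))) y := fun y => by
    have h1 : HasDerivAt (fun y : ℝ => Real.exp (-y)) (-Real.exp (-y)) y := by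
      simpa using (hasDerivAt_neg y).exp
    have h2 : HasDerivAt (fun y : ℝ => 1 + y + y ^ 2 / 2 + y ^ 3 / 6) (1 + y + y ^ 2 / 2) y := by
      have := (((hasDerivAt_id y).const_add 1).add ((hasDerivAt_pow 2 y).div_const 2)).add
        ((hasDerivAt_pow 3 y).div_const 6)
      simp only [Nat.cast_ofNat, Nat.add_one_sub_one, pow_one] at this
      refine this.congr_deriv ?_
      ring
    refine (h1.mul h2).congr_deriv ?_
    ring
  set φ := fun y => Real.exp (-y) * (1 + y + y ^ 2 / 2 + y ^ 3 / 6)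
  have hc : Continuous φ := by fun_prop
  have hmax : φ y ≤ φ 0 := by
    rcases le_total 0 y with hy | hy
    · refine antitoneOn_of_deriv_nonpos (convex_Ici 0) hc.continuousOn
        (fun x _ => (hd x).differentiableAt.differentiableWithinAt) (fun x hx => ?_)
        Set.self_mem_Ici hy hy
      rw [(hd x).deriv, interior_Ici] at *
      have : 0 < x := hx
      have := Real.exp_pos (-x)
      have : 0 ≤ x ^ 3 := by positivity
      nlinarith
    · refine monotoneOn_of_deriv_nonneg (convex_Iic 0) hc.continuousOn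
        (fun x _ => (hd x).differentiableAt.differentiableWithinAt) (fun x hx => ?_)
        hy Set.self_mem_Iic hy
      rw [(hd x).deriv, interior_Iic] at *
      have : x < 0 := hx
      have := Real.exp_pos (-x)
      have : x ^ 3 ≤ 0 := by nlinarith [sq_nonneg x]
      nlinarith
  simp only [φ, neg_zero, Real.exp_zero] at hmax
  rw [Real.exp_neg, inv_mul_le_iff₀ (Real.exp_pos y)] at hmax
  linarith

variable {p : X → ℝ}

/-- A log-average of exponentials is at least its first cumulants less remainders. -/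
theorem log_avg_exp_ge (hp : ∀ x, 0 ≤ p x) (hp1 : ∑ x, p x = 1) (y : X → ℝ)
    (hy : ∑ x, p x * y x = 0) :
    (∑ x, p x * y x ^ 2) / 2 -
        (∑ x, p x * |y x| ^ 3 + ∑ x, p x * y x ^ 4 + ∑ x, p x * y x ^ 6) ≤
      Real.log (∑ x, p x * Real.exp (y x)) := by
  set A := ∑ x, p x * y x ^ 2
  set B := ∑ x, p x * |y x| ^ 3
  have hB0 : 0 ≤ B := Finset.sum_nonneg fun x _ => mul_nonneg (hp x) (by positivity)
  have hA0 : 0 ≤ A := Finset.sum_nonneg fun x _ => mul_nonneg (hp x) (sq_nonneg _)
  have hA : A ^ 2 ≤ ∑ x, p x * y x ^ 4 := by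
    have h := Finset.sum_mul_sq_le_sq_mul_sq Finset.univ (fun x => Real.sqrt (p x))
      (fun x => Real.sqrt (p x) * y x ^ 2)
    simp only [← mul_assoc, Real.mul_self_sqrt (hp _), Real.sq_sqrt (hp _), hp1, one_mul, mul_pow,
      ← pow_mul] at h
    exact h
  have hB : B ^ 2 ≤ ∑ x, p x * y x ^ 6 := by
    have h := Finset.sum_mul_sq_le_sq_mul_sq Finset.univ (fun x => Real.sqrt (p x))
      (fun x => Real.sqrt (p x) * |y x| ^ 3)
    simp only [← mul_assoc, Real.mul_self_sqrt (hp _), Real.sq_sqrt (hp _), hp1, one_mul, mul_pow,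
      ← pow_mul, (show Even (3 * 2) from ⟨3, rfl⟩).pow_abs] at h
    exact h
  have hlow : 1 + (A / 2 - B / 6) ≤ ∑ x, p x * Real.exp (y x) := by
    calc 1 + (A / 2 - B / 6)
        = ∑ x, (p x + p x * y x + p x * y x ^ 2 / 2 - p x * |y x| ^ 3 / 6) := by
          rw [Finset.sum_sub_distrib, Finset.sum_add_distrib, Finset.sum_add_distrib, hp1, hy,
            ← Finset.sum_div, ← Finset.sum_div]
          ring
      _ ≤ _ := Finset.sum_le_sum fun x _ => by
          have h := mul_le_mul_of_nonneg_left (cubic_le_exp (y x)) (hp x)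
          have h3 : -|y x| ^ 3 ≤ y x ^ 3 := by
            rcases abs_cases (y x) with h' | h' <;> rw [h'.1]
            · have : 0 ≤ y x ^ 3 := by have := h'.2; positivity
              linarith
            · ring_nf; exact le_rfl
          nlinarith [mul_le_mul_of_nonneg_left h3 (hp x)]
  have hone : 1 ≤ ∑ x, p x * Real.exp (y x) := by
    calc (1 : ℝ) = ∑ x, (p x + p x * y x) := by rw [Finset.sum_add_distrib, hp1, hy]; ring
      _ ≤ _ := Finset.sum_le_sum fun x _ => by
          have := mul_le_mul_of_nonneg_left (Real.add_one_le_exp (y x)) (hp x)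
          linarith
  have h5 : 0 ≤ ∑ x, p x * y x ^ 4 :=
    Finset.sum_nonneg fun x _ => mul_nonneg (hp x) (by positivity)
  have h6 : 0 ≤ ∑ x, p x * y x ^ 6 :=
    Finset.sum_nonneg fun x _ => mul_nonneg (hp x) (by positivity)
  rcases le_total (A / 2 - B / 6) 0 with hu | hu
  · have := Real.log_nonneg hone
    linarith
  · have h1 := Real.log_le_log (by linarith) hlow
    have h2 : (A / 2 - B / 6) / (1 + (A / 2 - B / 6)) ≤ Real.log (1 + (A / 2 - B / 6)) := by
      have h := Real.one_sub_inv_le_log_of_pos (show 0 < 1 + (A / 2 - B / 6) by linarith)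
      refine le_trans (le_of_eq ?_) h
      generalize A / 2 - B / 6 = u at hu ⊢
      have h0 : (1 : ℝ) + u ≠ 0 := by linarith
      field_simp
      ring
    have h3 : (A / 2 - B / 6) - (A / 2 - B / 6) ^ 2 ≤
        (A / 2 - B / 6) / (1 + (A / 2 - B / 6)) := by
      rw [le_div_iff₀ (by linarith)]
      nlinarith [pow_nonneg hu 3]
    have h4 : (A / 2 - B / 6) ^ 2 ≤ A ^ 2 / 2 + B ^ 2 / 18 := by
      nlinarith [sq_nonneg (A / 2 + B / 6)]
    linarith

/-- Averages of a bounded function move by at most twice the root of the relative entropy. -/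
theorem abs_tilt_sub_le (hp : ∀ x, 0 < p x) (hp1 : ∑ x, p x = 1) (y f : X → ℝ)
    (hf : ∀ x, |f x| ≤ 1) :
    |(∑ x, p x * Real.exp (y x) * f x) / (∑ x, p x * Real.exp (y x)) - ∑ x, p x * f x| ≤
      2 * Real.sqrt (Real.log (∑ x, p x * Real.exp (y x)) - ∑ x, p x * y x) := by
  set Z := ∑ x, p x * Real.exp (y x)
  set m := ∑ x, p x * y x
  have hne : Nonempty X := by
    by_contra hc
    rw [not_nonempty_iff] at hc
    simp at hp1
  have hZ : 0 < Z := Finset.sum_pos (fun x _ => mul_pos (hp x) (Real.exp_pos _)) Finset.univ_nonempty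
  set r := fun x => Real.exp (y x / 2) / Real.sqrt Z with hr
  have hr2 : ∀ x, r x ^ 2 = Real.exp (y x) / Z := fun x => by
    rw [hr, div_pow, Real.sq_sqrt hZ.le, ← Real.exp_nat_mul]
    congr 2
    push_cast
    ring
  have hsum2 : ∑ x, p x * r x ^ 2 = 1 := by
    simp only [hr2, mul_div_assoc', ← Finset.sum_div]
    exact div_self hZ.ne'
  have hBC : 1 - (Real.log Z - m) / 2 ≤ ∑ x, p x * r x := by
    have e : ∀ x, r x = Real.exp ((y x - Real.log Z) / 2) := fun x => by
      simp only [hr]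
      rw [Real.sqrt_eq_rpow, Real.rpow_def_of_pos hZ, ← Real.exp_sub]
      congr 1
      ring
    calc 1 - (Real.log Z - m) / 2 = ∑ x, p x * ((y x - Real.log Z) / 2 + 1) := by
          simp only [mul_add, mul_one, Finset.sum_add_distrib, hp1, sub_div, mul_sub,
            Finset.sum_sub_distrib, ← Finset.sum_mul, ← mul_div_assoc, ← Finset.sum_div]
          ring
      _ ≤ _ := Finset.sum_le_sum fun x _ => by
          rw [e]
          exact mul_le_mul_of_nonneg_left (Real.add_one_le_exp _) (hp x).le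
  have e1 : (∑ x, p x * Real.exp (y x) * f x) / Z - ∑ x, p x * f x =
      ∑ x, p x * (r x - 1) * ((r x + 1) * f x) := by
    rw [Finset.sum_div, ← Finset.sum_sub_distrib]
    refine Finset.sum_congr rfl fun x _ => ?_
    rw [mul_div_right_comm, mul_div_assoc, ← hr2]
    ring
  have hs1 : ∑ x, p x * (r x - 1) ^ 2 = 2 - 2 * ∑ x, p x * r x := by
    have : ∀ x, p x * (r x - 1) ^ 2 = p x * r x ^ 2 - 2 * (p x * r x) + p x := fun x => by ring
    simp only [this, Finset.sum_add_distrib, Finset.sum_sub_distrib, ← Finset.mul_sum, hsum2, hp1]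
    ring
  have hs2 : ∑ x, p x * ((r x + 1) * f x) ^ 2 ≤ 4 := by
    refine (Finset.sum_le_sum fun x _ => ?_).trans
      (show ∑ x, p x * (2 * r x ^ 2 + 2) ≤ 4 by
        simp only [mul_add, Finset.sum_add_distrib, mul_left_comm _ (2 : ℝ), ← Finset.mul_sum, hsum2,
          ← Finset.sum_mul, hp1]
        norm_num)
    refine mul_le_mul_of_nonneg_left ?_ (hp x).le
    rw [mul_pow]
    have : f x ^ 2 ≤ 1 := by rw [← sq_abs]; exact pow_le_one₀ (abs_nonneg _) (hf x)
    nlinarith [mul_le_mul_of_nonneg_left this (sq_nonneg (r x + 1)), sq_nonneg (r x - 1)]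
  have hs1' : 0 ≤ ∑ x, p x * (r x - 1) ^ 2 :=
    Finset.sum_nonneg fun x _ => mul_nonneg (hp x).le (sq_nonneg _)
  have hcs := Finset.sum_mul_sq_le_sq_mul_sq Finset.univ (fun x => Real.sqrt (p x) * (r x - 1))
    (fun x => Real.sqrt (p x) * ((r x + 1) * f x))
  have e2 : ∀ x, Real.sqrt (p x) * (r x - 1) * (Real.sqrt (p x) * ((r x + 1) * f x)) =
      p x * (r x - 1) * ((r x + 1) * f x) := fun x => by
    linear_combination ((r x - 1) * ((r x + 1) * f x)) * Real.mul_self_sqrt (hp x).le
  simp only [e2, mul_pow, Real.sq_sqrt (hp _).le] at hcs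
  rw [e1, show (2 : ℝ) = Real.sqrt 4 by
    rw [show (4 : ℝ) = 2 ^ 2 by norm_num, Real.sqrt_sq (by norm_num : (0 : ℝ) ≤ 2)],
    ← Real.sqrt_mul (by norm_num : (0 : ℝ) ≤ 4)]
  refine Real.abs_le_sqrt (hcs.trans ?_)
  simp only [← mul_pow]
  refine (mul_le_mul (hs1.le.trans (by linarith : _ ≤ Real.log Z - m)) hs2
    (Finset.sum_nonneg fun x _ => mul_nonneg (hp x).le (sq_nonneg _)) (by linarith)).trans_eq ?_
  ring

end Vale.Agent.P166F
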