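import Vale.Agent.P166F.Up.Base
import Vale.Agent.P166F.Up.GaussFacts

/-!
P166: the tree fields of the enriched system as one linear Gaussian process, and splitting off an
increment of the variances.
-/

namespace Vale.Agent.P166F

open MeasureTheory ProbabilityTheory
open scoped RealInnerProductSpace
open Vale.Agent.P166 (spin)
open Vale.Agent.P166N (Node Leaf feat0 meet feat0_inner measurePreserving_uncurry)

variable {N n k : ℕ}

/-- Coordinates of all tree fields. -/
abbrev FSp (N n k : ℕ) := EuclideanSpace ℝ (Option (Node n k) × Fin N)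

/-- The coefficients of the field seen by a configuration at a leaf. -/
noncomputable def leafVec (R : ℕ → ℝ) (x : (Fin N → Bool) × Leaf n k) : FSp N n k :=
  WithLp.toLp 2 fun c => feat0 k R x.2 c.1 * spin (x.1 c.2)

/-- The Gaussian coordinates arranged by nodes. -/
noncomputable def byNode {A : Type} [Fintype A] (g : EuclideanSpace ℝ (A × Fin N)) (ν : A) :
    EuclideanSpace ℝ (Fin N) :=
  WithLp.toLp 2 fun i => g (ν, i)

lemma measurePreserving_byNode (A : Type) [Fintype A] (N : ℕ) :
    MeasurePreserving (byNode (A := A) (N := N)) (stdGaussian (EuclideanSpace ℝ (A × Fin N)))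
      (Measure.pi fun _ : A => stdGaussian (EuclideanSpace ℝ (Fin N))) := by
  have hSm : Measurable (byNode (A := A) (N := N)) := by unfold byNode; fun_prop
  set μ := Measure.pi fun _ : Fin N => gaussianReal 0 1
  have hu := measurePreserving_uncurry (gaussianReal 0 1) A (Fin N)
  have ht : MeasurePreserving (WithLp.toLp 2 : (Fin N → ℝ) → EuclideanSpace ℝ (Fin N)) μ
      (stdGaussian (EuclideanSpace ℝ (Fin N))) := ⟨by fun_prop, map_pi_eq_stdGaussian⟩
  have hp := measurePreserving_pi (fun _ : A => μ)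
    (fun _ : A => stdGaussian (EuclideanSpace ℝ (Fin N))) fun _ => ht
  refine ⟨hSm, ?_⟩
  rw [← map_pi_eq_stdGaussian, Measure.map_map hSm (by fun_prop), ← hu.map_eq,
    Measure.map_map (by fun_prop) hu.measurable, ← hp.map_eq]
  rfl

lemma leafPt_byNode (R : ℕ → ℝ) (x : (Fin N → Bool) × Leaf n k) (g : FSp N n k) :
    ∑ i, leafPt k (fun j _ => R j) x.2 (byNode g) i * spin (x.1 i) = ⟪g, leafVec R x⟫ := by
  simp only [leafPt, byNode, leafVec, PiLp.inner_apply, RCLike.inner_apply, conj_trivial,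
    Fintype.sum_prod_type, Finset.sum_mul]
  rw [Finset.sum_comm]
  exact Finset.sum_congr rfl fun ν _ => Finset.sum_congr rfl fun i _ => by ring

lemma inner_leafVec {R : ℕ → ℝ} (h0 : 0 ≤ R 0) (hR : ∀ j < k, R j ≤ R (j + 1))
    (x x' : (Fin N → Bool) × Leaf n k) :
    ⟪leafVec R x, leafVec R x'⟫ = R (meet k x.2 x'.2) * ∑ i, spin (x.1 i) * spin (x'.1 i) := by
  simp only [leafVec, PiLp.inner_apply, RCLike.inner_apply, conj_trivial, Fintype.sum_prod_type]
  rw [← feat0_inner h0 hR x.2 x'.2, Finset.sum_mul]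
  refine Finset.sum_congr rfl fun ν _ => ?_
  rw [Finset.mul_sum]
  exact Finset.sum_congr rfl fun i _ => by ring

/-- The variances of the increment `h` from level `j` on. -/
def bump (j : ℕ) (h : ℝ) (l : ℕ) : ℝ := if j ≤ l then h else 0

lemma bump_nonneg {j : ℕ} {h : ℝ} (hh : 0 ≤ h) (l : ℕ) : 0 ≤ bump j h l := by
  unfold bump; split_ifs <;> simp [hh]

lemma bump_mono {j : ℕ} {h : ℝ} (hh : 0 ≤ h) (l : ℕ) : bump j h l ≤ bump j h (l + 1) := by
  unfold bump; split_ifs <;> first | simp [hh] | omega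

lemma norm_leafVec_bump {j : ℕ} {h : ℝ} (hh : 0 ≤ h) (x : (Fin N → Bool) × Leaf n k) :
    ‖leafVec (bump j h) x‖ ^ 2 ≤ h * N := by
  rw [← real_inner_self_eq_norm_sq, inner_leafVec (bump_nonneg hh 0) fun l _ => bump_mono hh l]
  have e : ∑ i, spin (x.1 i) * spin (x.1 i) = (N : ℝ) := by simp [← sq, spin_sq]
  rw [e]
  refine mul_le_mul_of_nonneg_right ?_ (Nat.cast_nonneg N)
  unfold bump; split_ifs <;> linarith

lemma measurePreserving_sumParts (A B : Type) [Fintype A] [Fintype B] :
    MeasurePreserving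
      (fun g : EuclideanSpace ℝ (A ⊕ B) =>
        ((WithLp.toLp 2 fun a => g (Sum.inl a) : EuclideanSpace ℝ A),
          (WithLp.toLp 2 fun b => g (Sum.inr b) : EuclideanSpace ℝ B)))
      (stdGaussian (EuclideanSpace ℝ (A ⊕ B)))
      ((stdGaussian (EuclideanSpace ℝ A)).prod (stdGaussian (EuclideanSpace ℝ B))) := by
  have hm : Measurable fun g : EuclideanSpace ℝ (A ⊕ B) =>
        ((WithLp.toLp 2 fun a => g (Sum.inl a) : EuclideanSpace ℝ A),
          (WithLp.toLp 2 fun b => g (Sum.inr b) : EuclideanSpace ℝ B)) := by fun_prop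
  have hs := measurePreserving_sumPiEquivProdPi (fun _ : A ⊕ B => gaussianReal 0 1)
  have hA : MeasurePreserving (WithLp.toLp 2 : (A → ℝ) → EuclideanSpace ℝ A)
      (Measure.pi fun _ => gaussianReal 0 1) (stdGaussian (EuclideanSpace ℝ A)) :=
    ⟨by fun_prop, map_pi_eq_stdGaussian⟩
  have hB : MeasurePreserving (WithLp.toLp 2 : (B → ℝ) → EuclideanSpace ℝ B)
      (Measure.pi fun _ => gaussianReal 0 1) (stdGaussian (EuclideanSpace ℝ B)) :=
    ⟨by fun_prop, map_pi_eq_stdGaussian⟩
  refine ⟨hm, ?_⟩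
  rw [← map_pi_eq_stdGaussian, Measure.map_map hm (by fun_prop), ← ((hA.prod hB).comp hs).map_eq]
  rfl

/-- A functional of the fields with a bumped variance is the same with an independent field added. -/
theorem integral_bump {R : ℕ → ℝ} (h0 : 0 ≤ R 0) (hR : ∀ l < k, R l ≤ R (l + 1)) (j : ℕ) {h : ℝ}
    (hh : 0 ≤ h) {F : ((Fin N → Bool) × Leaf n k → ℝ) → ℝ} (hF : Measurable F)
    (hint : Integrable (fun p : FSp N n k × FSp N n k =>
      F fun x => ⟪p.1, leafVec R x⟫ + ⟪p.2, leafVec (bump j h) x⟫)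
      ((stdGaussian (FSp N n k)).prod (stdGaussian (FSp N n k)))) :
    ∫ g, F (fun x => ⟪g, leafVec (fun l => R l + bump j h l) x⟫) ∂stdGaussian (FSp N n k) =
      ∫ g, ∫ g', F (fun x => ⟪g, leafVec R x⟫ + ⟪g', leafVec (bump j h) x⟫)
        ∂stdGaussian (FSp N n k) ∂stdGaussian (FSp N n k) := by
  set Φ' : (Fin N → Bool) × Leaf n k →
      EuclideanSpace ℝ ((Option (Node n k) × Fin N) ⊕ (Option (Node n k) × Fin N)) := fun x =>
    WithLp.toLp 2 (Sum.elim (fun c => leafVec R x c) (fun c => leafVec (bump j h) x c)) with hΦ'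
  rw [integral_gram_eq (fun x => leafVec (fun l => R l + bump j h l) x) Φ' (fun x x' => ?_) hF,
    ← integral_prod _ hint, ← (measurePreserving_sumParts (Option (Node n k) × Fin N)
      (Option (Node n k) × Fin N)).map_eq, integral_map
      (measurePreserving_sumParts _ _).measurable.aemeasurable]
  · refine integral_congr_ae (Filter.Eventually.of_forall fun g => congrArg F (funext fun x => ?_))
    simp only [Φ', PiLp.inner_apply, Fintype.sum_sum_type, Sum.elim_inl, Sum.elim_inr]
  · rw [(measurePreserving_sumParts _ _).map_eq]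
    exact hint.aestronglyMeasurable
  · rw [inner_leafVec (add_nonneg h0 (bump_nonneg hh 0))
      fun l hl => add_le_add (hR l hl) (bump_mono hh l)]
    have e : ⟪Φ' x, Φ' x'⟫ =
        ⟪leafVec R x, leafVec R x'⟫ + ⟪leafVec (bump j h) x, leafVec (bump j h) x'⟫ := by
      simp only [Φ', PiLp.inner_apply, Fintype.sum_sum_type, Sum.elim_inl, Sum.elim_inr]
    rw [e, inner_leafVec h0 hR, inner_leafVec (bump_nonneg hh 0) fun l _ => bump_mono hh l]
    ring

end Vale.Agent.P166F
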