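import Vale.Agent.P166F.Up.LoopId
import Vale.Agent.P166F.Up.LoopField
import Vale.Agent.P166F.Structure

/-!
P166: the loop equation of the enriched system, up to the shares of the blocks and the perturbation.
-/

namespace Vale.Agent.P166F.Loop2

open MeasureTheory ProbabilityTheory Matrix
open scoped RealInnerProductSpace
open Vale.Agent.P166 (spin)
open Vale.Agent.P166N (Node Leaf nonempty_leaf)
open Vale.Agent.P166N.Spectrum (OrthInvLaw)

variable {K N n k P : ℕ}

/-- The space of the perturbing fields. -/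
abbrev GSpace (K N P : ℕ) := EuclideanSpace ℝ (GIdx (Fin K) P N)

/-- The exponents of a monomial. -/
abbrev expo (e : Mon (Fin K) P) : Fin K → ℕ := fun j => (e.1 j : ℕ)

/-- The leaf part of the weight. -/
noncomputable def cst (a : Atoms K) (blk : Fin N → Fin K) (m r : Fin (k + 1) → ℝ)
    (mk : (Node n k → ℝ) × (Option (Node n k) → EuclideanSpace ℝ (Fin N)))
    (x : (Fin N → Bool) × Leaf n k) : ℝ :=
  uLogw a blk 0 m r (0, mk) x

lemma uLogw_eq (a : Atoms K) (blk : Fin N → Fin K) (t : ℝ) (m r : Fin (k + 1) → ℝ)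
    (ω : UOmega N n k) (x : (Fin N → Bool) × Leaf n k) :
    uLogw a blk t m r ω x =
      t * N / 2 * ∑ i, a.lam i * ‖blockVec blk ω.1 x.1 i‖ ^ 2 + cst a blk m r ω.2 x := by
  simp only [cst, uLogw]
  ring

/-- The coefficients of the diagonal part. -/
noncomputable def kap (a : Atoms K) (N : ℕ) (t s : ℝ) (y : CIdx (Fin K) P → ℝ) (l : Fin K) : ℝ :=
  t * N / 2 * a.lam l + s * y (Sum.inr l)

/-- The part of the exponent that is not diagonal. -/
noncomputable def rest (a : Atoms K) (blk : Fin N → Fin K) (m r : Fin (k + 1) → ℝ)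
    (y : CIdx (Fin K) P → ℝ)
    (mk : (Node n k → ℝ) × (Option (Node n k) → EuclideanSpace ℝ (Fin N)))
    (g : GSpace K N P) (x : (Fin N → Bool) × Leaf n k) (U : Orth.Arr2 N) : ℝ :=
  (∑ e, y (Sum.inl e) * ∑ i, g ⟨e, i⟩ * mterm (expo e) (fun j => blockVec blk U x.1 j) i) +
    cst a blk m r mk x

/-- The exponent without truncation of the features. -/
noncomputable def expn (a : Atoms K) (blk : Fin N → Fin K) (t s : ℝ) (m r : Fin (k + 1) → ℝ)
    (y : CIdx (Fin K) P → ℝ)
    (mk : (Node n k → ℝ) × (Option (Node n k) → EuclideanSpace ℝ (Fin N)))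
    (g : GSpace K N P) (x : (Fin N → Bool) × Leaf n k) (U : Orth.Arr2 N) : ℝ :=
  diagE blk (kap a N t s y) x.1 U + rest a blk m r y mk g x U

lemma contDiff_expn (a : Atoms K) (blk : Fin N → Fin K) (t s : ℝ) (m r : Fin (k + 1) → ℝ)
    (y : CIdx (Fin K) P → ℝ)
    (mk : (Node n k → ℝ) × (Option (Node n k) → EuclideanSpace ℝ (Fin N)))
    (g : GSpace K N P) (x : (Fin N → Bool) × Leaf n k) :
    ContDiff ℝ 1 (expn a blk t s m r y mk g x) := by
  have hc : ∀ j b, ContDiff ℝ 1 fun U => blockVec blk U x.1 j b := fun j b => by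
    simp only [blockVec_apply]
    split_ifs <;> fun_prop
  refine ContDiff.add ?_ (ContDiff.add (ContDiff.sum fun e _ => contDiff_const.mul
    (ContDiff.sum fun i _ => contDiff_const.mul ?_)) contDiff_const)
  · exact ContDiff.sum fun b _ => contDiff_const.mul ((contDiff_uc x.1 b).pow 2)
  · exact contDiff_prod fun j _ => contDiff_prod fun u _ => hc j _

lemma logw_add_ham (a : Atoms K) (blk : Fin N → Fin K) {ν : Measure (Fin N → Fin N → ℝ)}
    (hν : OrthInvLaw N ν) (hn : 1 ≤ n) (t s : ℝ) (m r : Fin (k + 1) → ℝ)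
    (y : CIdx (Fin K) P → ℝ) (z : UOmega N n k × GSpace K N P)
    (hU : (Matrix.of z.1.1)ᵀ * Matrix.of z.1.1 = 1) (x : (Fin N → Bool) × Leaf n k) :
    (uSys a blk hν hn t m r).logw z.1 x + (uSys a blk hν hn t m r).ham s y z.1 z.2 x =
      expn a blk t s m r y z.1.2 z.2 x z.1.1 := by
  have hb : ∀ j, toBall (blockVec blk z.1.1 x.1 j) = blockVec blk z.1.1 x.1 j := fun j =>
    toBall_of_le (norm_blockVec_le blk hU x.1 j)
  show uLogw a blk t m r z.1 x +
    ((∑ e : Mon (Fin K) P, y (Sum.inl e) * ∑ i, z.2 ⟨e, i⟩ *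
        ∏ j, ∏ u, toBall (blockVec blk z.1.1 x.1 j) (i j u)) +
      s * ∑ j, y (Sum.inr j) * ‖toBall (blockVec blk z.1.1 x.1 j)‖ ^ 2) = _
  simp only [hb, uLogw_eq, expn, rest, mterm, ← diagE_eq, kap, add_mul, Finset.sum_add_distrib,
    Finset.mul_sum, mul_assoc]
  ring

/-! ### The test and its error -/

/-- A coefficient of a pair in a test given on spins. -/
noncomputable def coefS (c : (Fin N → Bool) → (Fin N → Bool) → ℝ)
    (sel : (Fin N → Bool) → (Fin N → Bool) → Fin N → Bool) (U : Orth.Arr2 N)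
    (σ τ : Fin N → Bool) (pq : Fin N × Fin N) : ℝ :=
  c σ τ * (uc σ pq.1 U * uc (sel σ τ) pq.2 U)

/-- The summed velocities of the features. -/
noncomputable def wdir (blk : Fin N → Fin K) (c : (Fin N → Bool) → (Fin N → Bool) → ℝ)
    (sel : (Fin N → Bool) → (Fin N → Bool) → Fin N → Bool) (i j : Fin K) (U : Orth.Arr2 N)
    (p : (Fin N → Bool) × (Fin N → Bool) × (Fin N → Bool)) (l : Fin K) :
    EuclideanSpace ℝ (Fin N) :=
  ∑ pq ∈ pairs blk i j, coefS c sel U p.1 p.2.1 pq • blockVec blk (vel pq.1 pq.2 U) p.2.2 l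

/-- The vector paired with the perturbing fields. -/
noncomputable def gvec (blk : Fin N → Fin K) (c : (Fin N → Bool) → (Fin N → Bool) → ℝ)
    (sel : (Fin N → Bool) → (Fin N → Bool) → Fin N → Bool) (y : CIdx (Fin K) P → ℝ) (i j : Fin K)
    (U : Orth.Arr2 N) (p : (Fin N → Bool) × (Fin N → Bool) × (Fin N → Bool)) : GSpace K N P :=
  WithLp.toLp 2 fun e => y (Sum.inl e.1) *
    mderiv (expo e.1) (fun l => blockVec blk U p.2.2 l) (wdir blk c sel i j U p) e.2

variable {blk : Fin N → Fin K} {c : (Fin N → Bool) → (Fin N → Bool) → ℝ}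
  {sel : (Fin N → Bool) → (Fin N → Bool) → Fin N → Bool} {i j : Fin K} {y : CIdx (Fin K) P → ℝ}

lemma pick {α : Type} [DecidableEq α] (I J : Finset α) (b : α) (κ : ℝ) (f g h : α → ℝ) :
    ∑ p ∈ I, ∑ q ∈ J, κ * (f p * g q) * ((if b = p then h q else 0) - if b = q then h p else 0) =
      (if b ∈ I then κ * (∑ q ∈ J, g q * h q) * f b else 0) -
        (if b ∈ J then κ * (∑ p ∈ I, f p * h p) * g b else 0) := by
  simp only [mul_sub, Finset.sum_sub_distrib, mul_ite, mul_zero]
  congr 1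
  · rw [Finset.sum_comm]
    simp only [Finset.sum_ite_eq]
    split_ifs
    · simp only [Finset.mul_sum, Finset.sum_mul]
      exact Finset.sum_congr rfl fun q _ => by ring
    · simp
  · simp only [Finset.sum_ite_eq]
    split_ifs
    · simp only [Finset.mul_sum, Finset.sum_mul]
      exact Finset.sum_congr rfl fun q _ => by ring
    · simp

lemma norm_wdir_le (hij : i ≠ j) {U : Orth.Arr2 N} (hU : (Matrix.of U)ᵀ * Matrix.of U = 1) {B : ℝ}
    (hB : ∀ σ τ, |c σ τ| ≤ B) (p : (Fin N → Bool) × (Fin N → Bool) × (Fin N → Bool)) (l : Fin K) :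
    ‖wdir blk c sel i j U p l‖ ≤ B := by
  obtain ⟨σ, τ, ρ⟩ := p
  have e : ∀ b, wdir blk c sel i j U (σ, τ, ρ) l b =
      if blk b = l then
        (if blk b = i then c σ τ * ov blk j (sel σ τ) ρ U * uc σ b U else 0) -
          (if blk b = j then c σ τ * ov blk i σ ρ U * uc (sel σ τ) b U else 0)
      else 0 := fun b => by
    simp only [wdir, WithLp.ofLp_sum, Finset.sum_apply, WithLp.ofLp_smul, Pi.smul_apply, smul_eq_mul,
      blockVec_apply, uc_vel, coefS, pairs, Finset.sum_product]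
    by_cases hl : blk b = l
    · simp only [if_pos hl]
      rw [pick _ _ b (c σ τ) (fun p => uc σ p U) (fun q => uc (sel σ τ) q U) (fun p => uc ρ p U)]
      simp only [Finset.mem_filter, Finset.mem_univ, true_and, ov_eq]
    · simp only [if_neg hl, mul_zero, Finset.sum_const_zero]
  have hB0 : 0 ≤ B := (abs_nonneg _).trans (hB σ τ)
  have hsq : ∀ (C : ℝ) (ρ' : Fin N → Bool) (i' : Fin K), |C| ≤ B →
      ∑ b, (if blk b = i' then C * uc ρ' b U else 0) ^ 2 ≤ B ^ 2 := fun C ρ' i' hC => by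
    have h1 : ∑ b, (if blk b = i' then uc ρ' b U else 0) ^ 2 ≤ 1 := by
      simp only [← blockVec_apply, ← EuclideanSpace.real_norm_sq_eq]
      exact pow_le_one₀ (norm_nonneg _) (norm_blockVec_le blk hU ρ' i')
    calc ∑ b, (if blk b = i' then C * uc ρ' b U else 0) ^ 2
        = C ^ 2 * ∑ b, (if blk b = i' then uc ρ' b U else 0) ^ 2 := by
          rw [Finset.mul_sum]
          exact Finset.sum_congr rfl fun b _ => by split <;> ring
      _ ≤ B ^ 2 * 1 := mul_le_mul (sq_le_sq' (abs_le.1 hC).1 (abs_le.1 hC).2) h1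
          (Finset.sum_nonneg fun b _ => sq_nonneg _) (sq_nonneg B)
      _ = B ^ 2 := mul_one _
  have hC : ∀ l' ρ₁ ρ₂, |c σ τ * ov blk l' ρ₁ ρ₂ U| ≤ B := fun l' ρ₁ ρ₂ => by
    rw [abs_mul]
    exact (mul_le_mul (hB σ τ) (abs_ov_le blk l' ρ₁ ρ₂ hU) (abs_nonneg _) hB0).trans_eq (mul_one B)
  rw [← sq_le_sq₀ (norm_nonneg _) hB0, EuclideanSpace.real_norm_sq_eq]
  simp only [e]
  rcases eq_or_ne l i with rfl | hli
  · refine (Finset.sum_le_sum fun b _ => le_of_eq ?_).trans (hsq _ σ l (hC j (sel σ τ) ρ))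
    by_cases h : blk b = l
    · simp [h, hij]
    · simp [h]
  · rcases eq_or_ne l j with rfl | hlj
    · refine (Finset.sum_le_sum fun b _ => le_of_eq ?_).trans (hsq _ (sel σ τ) l (hC i σ ρ))
      by_cases h : blk b = l
      · simp [h, Ne.symm hij]
      · simp [h]
    · refine (Finset.sum_eq_zero fun b _ => ?_).trans_le (sq_nonneg B)
      by_cases h : blk b = l
      · simp [h, hli, hlj]
      · simp [h]

lemma card_mon_le : (Fintype.card (Mon (Fin K) P) : ℝ) ≤ Fintype.card (CIdx (Fin K) P) := by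
  have : Fintype.card (CIdx (Fin K) P) = Fintype.card (Mon (Fin K) P) + Fintype.card (Fin K) :=
    Fintype.card_sum
  exact_mod_cast this ▸ Nat.le_add_right _ _

lemma norm_gvec_le (hij : i ≠ j) {U : Orth.Arr2 N} (hU : (Matrix.of U)ᵀ * Matrix.of U = 1) {B S : ℝ}
    (hB : ∀ σ τ, |c σ τ| ≤ B) (hy : ∀ e, |y e| ≤ S)
    (p : (Fin N → Bool) × (Fin N → Bool) × (Fin N → Bool)) :
    ‖gvec blk c sel y i j U p‖ ≤
      S * B * K * ((Fintype.card (CIdx (Fin K) P) : ℝ) * (P + 1)) := by
  have hB0 : 0 ≤ B := (abs_nonneg _).trans (hB p.1 p.2.1)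
  have hS0 : 0 ≤ S := (abs_nonneg _).trans (hy (Sum.inr i))
  set A : ℝ := (Fintype.card (CIdx (Fin K) P) : ℝ) with hA
  have hA1 : (1 : ℝ) ≤ A := by
    rw [hA]
    exact_mod_cast Fintype.card_pos_iff.2 ⟨Sum.inr i⟩
  have hdeg : ∀ e : Mon (Fin K) P, ∑ l, (expo e l : ℝ) ≤ (K : ℝ) * P := fun e => by
    refine (Finset.sum_le_sum fun l _ => (?_ : (expo e l : ℝ) ≤ P)).trans_eq (by simp)
    have := (e.1 l).isLt
    exact_mod_cast (show expo e l ≤ P by simp only [expo]; omega)
  rw [← sq_le_sq₀ (norm_nonneg _) (by positivity), EuclideanSpace.real_norm_sq_eq]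
  simp only [gvec, mul_pow, Fintype.sum_sigma]
  calc ∑ e : Mon (Fin K) P, ∑ idx, y (Sum.inl e) ^ 2 *
        mderiv (expo e) (fun l => blockVec blk U p.2.2 l) (wdir blk c sel i j U p) idx ^ 2
      ≤ ∑ _e : Mon (Fin K) P, S ^ 2 * (((K : ℝ) * P) ^ 2 * B ^ 2) :=
        Finset.sum_le_sum fun e _ => by
          rw [← Finset.mul_sum]
          refine mul_le_mul (sq_le_sq' (abs_le.1 (hy _)).1 (abs_le.1 (hy _)).2)
            ((sum_sq_mderiv_le _ (fun l => norm_blockVec_le blk hU _ l)
              (fun l => norm_wdir_le hij hU hB p l)).trans ?_)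
            (Finset.sum_nonneg fun _ _ => sq_nonneg _) (sq_nonneg S)
          exact mul_le_mul_of_nonneg_right
            (pow_le_pow_left₀ (Finset.sum_nonneg fun l _ => by positivity) (hdeg e) 2) (sq_nonneg B)
    _ ≤ A * (S ^ 2 * (((K : ℝ) * P) ^ 2 * B ^ 2)) := by
        rw [Finset.sum_const, nsmul_eq_mul, Finset.card_univ]
        exact mul_le_mul_of_nonneg_right card_mon_le (by positivity)
    _ ≤ (A ^ 2) * (S ^ 2 * (((K : ℝ) * ((P : ℝ) + 1)) ^ 2 * B ^ 2)) := by
        refine mul_le_mul (le_self_pow₀ hA1 two_ne_zero) ?_ (by positivity) (by positivity)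
        gcongr
        linarith
    _ = _ := by ring

/-- A dominating function for finitely many Gaussian variables. -/
lemma exists_dom {T : Type} [Fintype T] [Nonempty T] {w : T → GSpace K N P} {M : ℝ}
    (hw : ∀ p, ‖w p‖ ≤ M) (hN : 1 ≤ N) (hT : Real.log (2 * Fintype.card T) ≤ 4 * N) :
    ∃ Φ : GSpace K N P → ℝ, Integrable Φ (stdGaussian _) ∧ (∀ g p, |⟪g, w p⟫| ≤ Φ g) ∧
      ∫ g, Φ g ∂stdGaussian _ ≤ 5 * Real.sqrt N * M := by
  obtain ⟨p0⟩ := ‹Nonempty T›
  have hM : 0 ≤ M := (norm_nonneg _).trans (hw p0)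
  rcases eq_or_lt_of_le hM with rfl | hM'
  · refine ⟨fun _ => 0, integrable_const _, fun g p => ?_, by simp⟩
    rw [norm_le_zero_iff.1 (hw p), inner_zero_right, abs_zero]
  set r := Real.sqrt N
  have hr : 0 < r := Real.sqrt_pos.2 (by exact_mod_cast hN)
  have hr2 : r * r = N := Real.mul_self_sqrt (by positivity)
  refine ⟨softmax (r / M) w, integrable_softmax w, fun g p => abs_inner_le_softmax (div_pos hr hM') w g p,
    (integral_softmax_le (div_pos hr hM') hw).trans ?_⟩
  have h1 : Real.log (2 * Fintype.card T) / (r / M) ≤ 4 * r * M := by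
    rw [div_le_iff₀ (div_pos hr hM')]
    calc Real.log (2 * Fintype.card T) ≤ 4 * N := hT
      _ = 4 * r * M * (r / M) := by rw [← hr2]; field_simp
  have h2 : r / M * M ^ 2 / 2 = r * M / 2 := by field_simp
  nlinarith [mul_pos hr hM']

lemma log_triples (hN : 1 ≤ N) :
    Real.log (2 * Fintype.card ((Fin N → Bool) × (Fin N → Bool) × (Fin N → Bool))) ≤ 4 * N := by
  have hN' : (1 : ℝ) ≤ N := by exact_mod_cast hN
  rw [show (2 : ℝ) * Fintype.card ((Fin N → Bool) × (Fin N → Bool) × (Fin N → Bool)) =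
    (2 : ℝ) ^ (3 * N + 1) by
      rw [show 3 * N + 1 = N + N + N + 1 by omega, pow_succ, pow_add, pow_add]; simp; ring,
    Real.log_pow]
  push_cast
  nlinarith [Real.log_two_lt_d9, Real.log_two_gt_d9]

/-! ### Measurability and the bound -/

lemma measurable_avg3 {Z X : Type} [MeasurableSpace Z] [Fintype X] {H : Z → X → ℝ}
    (hH : ∀ x, Measurable fun z => H z x) {Θ : Z → X → X → X → ℝ}
    (hΘ : ∀ x y w, Measurable fun z => Θ z x y w) : Measurable fun z => avg3 (H z) (Θ z) := by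
  have hw : ∀ x, Measurable fun z => gw (H z) x := fun x =>
    (hH x).exp.div (Finset.measurable_fun_sum _ fun y _ => (hH y).exp)
  exact Finset.measurable_fun_sum _ fun x _ => Finset.measurable_fun_sum _ fun y _ =>
    Finset.measurable_fun_sum _ fun w _ => (((hw x).mul (hw y)).mul (hw w)).mul (hΘ x y w)

variable {a : Atoms K} {m r : Fin (k + 1) → ℝ} {t s : ℝ}

/-- The point of the disorder at which the average is taken. -/
noncomputable def hz (a : Atoms K) (blk : Fin N → Fin K) (t s : ℝ) (m r : Fin (k + 1) → ℝ)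
    (y : CIdx (Fin K) P → ℝ) (z : UOmega N n k × GSpace K N P) (x : (Fin N → Bool) × Leaf n k) : ℝ :=
  expn a blk t s m r y z.1.2 z.2 x z.1.1

lemma measurable_hz (hn : 1 ≤ n) {ν : Measure (Fin N → Fin N → ℝ)} (hν : OrthInvLaw N ν)
    (x : (Fin N → Bool) × Leaf n k) :
    Measurable fun z : UOmega N n k × GSpace K N P => hz a blk t s m r y z x := by
  have h1 : Measurable fun z : UOmega N n k × GSpace K N P => cst a blk m r z.1.2 x :=
    ((uSys a blk hν hn 0 m r).measW x).comp
      ((measurable_const.prodMk measurable_snd).comp measurable_fst)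
  have hb : ∀ j b, Continuous fun z : UOmega N n k × GSpace K N P =>
      blockVec blk z.1.1 x.1 j b := fun j b =>
    (PiLp.continuous_apply 2 _ b).comp
      ((continuous_blockVec blk x.1 j).comp (continuous_fst.comp continuous_fst))
  simp only [hz, expn, rest, ← add_assoc]
  refine Measurable.add ?_ h1
  refine Continuous.measurable (Continuous.add ?_ ?_)
  · exact continuous_finsetSum _ fun b _ => continuous_const.mul
      (((contDiff_uc x.1 b).continuous.comp (continuous_fst.comp continuous_fst)).pow 2)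
  · exact continuous_finsetSum _ fun e _ => continuous_const.mul (continuous_finsetSum _ fun i _ =>
      ((PiLp.continuous_apply 2 _ _).comp continuous_snd).mul
        (continuous_finsetProd _ fun j _ => continuous_finsetProd _ fun u _ => hb j _))

/-- The polynomial of the loop equation on configurations. -/
noncomputable def poly (a : Atoms K) (blk : Fin N → Fin K) (t : ℝ) (i j : Fin K)
    (sel : (Fin N → Bool) → (Fin N → Bool) → Fin N → Bool) (U : Orth.Arr2 N)
    (σ τ ρ : Fin N → Bool) : ℝ :=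
  a.wt i * ov blk j σ (sel σ τ) U - a.wt j * ov blk i σ (sel σ τ) U +
    t * (a.lam i - a.lam j) * (ov blk i σ σ U * ov blk j (sel σ τ) σ U +
      ov blk i σ τ U * ov blk j (sel σ τ) τ U - 2 * (ov blk i σ ρ U * ov blk j (sel σ τ) ρ U))

/-- The block part at a point of the disorder. -/
noncomputable def cfun (a : Atoms K) (blk : Fin N → Fin K) (t s : ℝ) (y : CIdx (Fin K) P → ℝ)
    (c : (Fin N → Bool) → (Fin N → Bool) → ℝ)
    (sel : (Fin N → Bool) → (Fin N → Bool) → Fin N → Bool) (i j : Fin K) (U : Orth.Arr2 N)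
    (x x' w : (Fin N → Bool) × Leaf n k) : ℝ :=
  core blk Prod.fst (fun x x' => (sel x.1 x'.1, x.2)) (fun x x' => c x.1 x'.1) (kap a N t s y) i j
    U x x' w

/-- The field part at a point of the disorder. -/
noncomputable def efun (blk : Fin N → Fin K) (y : CIdx (Fin K) P → ℝ)
    (c : (Fin N → Bool) → (Fin N → Bool) → ℝ)
    (sel : (Fin N → Bool) → (Fin N → Bool) → Fin N → Bool) (i j : Fin K) (U : Orth.Arr2 N)
    (g : GSpace K N P) (x x' w : (Fin N → Bool) × Leaf n k) : ℝ :=
  ⟪g, gvec blk c sel y i j U (x.1, x'.1, x.1)⟫ + ⟪g, gvec blk c sel y i j U (x.1, x'.1, x'.1)⟫ -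
    2 * ⟪g, gvec blk c sel y i j U (x.1, x'.1, w.1)⟫

lemma continuous_cfun (x x' w : (Fin N → Bool) × Leaf n k) :
    Continuous fun U => cfun a blk t s y c sel i j U x x' w := by
  simp only [cfun, core]
  fun_prop

lemma continuous_poly (σ τ ρ : Fin N → Bool) :
    Continuous fun U => poly a blk t i j sel U σ τ ρ := by
  simp only [poly]
  fun_prop

lemma continuous_gvec (p : (Fin N → Bool) × (Fin N → Bool) × (Fin N → Bool)) :
    Continuous fun U => gvec blk c sel y i j U p := by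
  have hb : ∀ σ l b, Continuous fun U : Orth.Arr2 N => blockVec blk U σ l b := fun σ l b =>
    (PiLp.continuous_apply 2 _ b).comp (continuous_blockVec blk σ l)
  refine (PiLp.continuous_toLp 2 _).comp (continuous_pi fun e => continuous_const.mul ?_)
  simp only [mderiv]
  refine continuous_finsetSum _ fun u _ =>
    Continuous.mul (continuous_finsetProd _ fun u' _ => hb _ _ _) ?_
  simp only [wdir, WithLp.ofLp_sum, Finset.sum_apply, WithLp.ofLp_smul, Pi.smul_apply, smul_eq_mul,
    coefS]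
  exact continuous_finsetSum _ fun pq _ => (continuous_const.mul
    ((contDiff_uc _ _).continuous.mul (contDiff_uc _ _).continuous)).mul
      ((hb _ _ _).comp (Orth.continuous_mm_right _))

lemma continuous_efun (x x' w : (Fin N → Bool) × Leaf n k) :
    Continuous fun z : Orth.Arr2 N × GSpace K N P => efun blk y c sel i j z.1 z.2 x x' w := by
  have h : ∀ p, Continuous fun z : Orth.Arr2 N × GSpace K N P =>
      ⟪z.2, gvec blk c sel y i j z.1 p⟫ := fun p =>
    continuous_snd.inner ((continuous_gvec p).comp continuous_fst)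
  exact ((h _).add (h _)).sub (continuous_const.mul (h _))

lemma abs_pair_le {U : Orth.Arr2 N} (hU : (Matrix.of U)ᵀ * Matrix.of U = 1) (σ τ ρ : Fin N → Bool) :
    |ov blk i σ σ U * ov blk j (sel σ τ) σ U + ov blk i σ τ U * ov blk j (sel σ τ) τ U -
      2 * (ov blk i σ ρ U * ov blk j (sel σ τ) ρ U)| ≤ 4 := by
  have hprod : ∀ σ₁ σ₂ σ₃ σ₄, |ov blk i σ₁ σ₂ U * ov blk j σ₃ σ₄ U| ≤ 1 := fun σ₁ σ₂ σ₃ σ₄ => by
    rw [abs_mul]
    exact mul_le_one₀ (abs_ov_le blk i σ₁ σ₂ hU) (abs_nonneg _) (abs_ov_le blk j σ₃ σ₄ hU)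
  have h1 := _root_.abs_le.1 (hprod σ σ (sel σ τ) σ)
  have h2 := _root_.abs_le.1 (hprod σ τ (sel σ τ) τ)
  have h3 := _root_.abs_le.1 (hprod σ ρ (sel σ τ) ρ)
  exact _root_.abs_le.2 ⟨by linarith, by linarith⟩

lemma abs_cfun_le {U : Orth.Arr2 N} (hU : (Matrix.of U)ᵀ * Matrix.of U = 1) {B : ℝ}
    (hB : ∀ σ τ, |c σ τ| ≤ B) (x x' w : (Fin N → Bool) × Leaf n k) :
    |cfun a blk t s y c sel i j U x x' w| ≤
      B * (2 * N + 8 * |kap a N t s y i - kap a N t s y j|) := by
  have hcard : ∀ l, ((Finset.univ.filter fun b => blk b = l).card : ℝ) ≤ N := fun l => by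
    exact_mod_cast (Finset.card_filter_le _ _).trans_eq (by simp)
  have hN0 : (0 : ℝ) ≤ N := Nat.cast_nonneg _
  simp only [cfun, core]
  rw [abs_mul]
  refine mul_le_mul (hB _ _) ?_ (abs_nonneg _) ((abs_nonneg _).trans (hB x.1 x'.1))
  refine (abs_add_le _ _).trans (add_le_add ((abs_sub _ _).trans ?_) ?_)
  · rw [abs_mul, abs_mul, Nat.abs_cast, Nat.abs_cast]
    nlinarith [mul_le_mul (hcard i) (abs_ov_le blk j x.1 (sel x.1 x'.1) hU) (abs_nonneg _) hN0,
      mul_le_mul (hcard j) (abs_ov_le blk i x.1 (sel x.1 x'.1) hU) (abs_nonneg _) hN0]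
  · rw [abs_mul, abs_mul, abs_two]
    nlinarith [mul_le_mul_of_nonneg_left (abs_pair_le (blk := blk) (i := i) (j := j) (sel := sel) hU
      x.1 x'.1 w.1) (abs_nonneg (kap a N t s y i - kap a N t s y j))]

lemma abs_diff_le (hN : 1 ≤ N) {U : Orth.Arr2 N} (hU : (Matrix.of U)ᵀ * Matrix.of U = 1) {S B ε : ℝ}
    (hs : |s| ≤ S) (hy : ∀ e, |y e| ≤ S) (hB : ∀ σ τ, |c σ τ| ≤ B)
    (hε : ∀ l, |((Finset.univ.filter fun b => blk b = l).card : ℝ) / N - a.wt l| ≤ ε)
    (x x' w : (Fin N → Bool) × Leaf n k) :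
    |c x.1 x'.1 * poly a blk t i j sel U x.1 x'.1 w.1 -
      (N : ℝ)⁻¹ * cfun a blk t s y c sel i j U x x' w| ≤ B * (2 * ε + 16 * (S ^ 2 / N)) := by
  have hN0 : (0 : ℝ) < N := by exact_mod_cast hN
  have hS0 : 0 ≤ S := (abs_nonneg _).trans hs
  set Ai := ov blk j x.1 (sel x.1 x'.1) U
  set Aj := ov blk i x.1 (sel x.1 x'.1) U
  set W := ov blk i x.1 x.1 U * ov blk j (sel x.1 x'.1) x.1 U +
    ov blk i x.1 x'.1 U * ov blk j (sel x.1 x'.1) x'.1 U -
    2 * (ov blk i x.1 w.1 U * ov blk j (sel x.1 x'.1) w.1 U) with hW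
  set ni : ℝ := ((Finset.univ.filter fun b => blk b = i).card : ℝ)
  set nj : ℝ := ((Finset.univ.filter fun b => blk b = j).card : ℝ)
  have e : c x.1 x'.1 * poly a blk t i j sel U x.1 x'.1 w.1 -
      (N : ℝ)⁻¹ * cfun a blk t s y c sel i j U x x' w =
      c x.1 x'.1 * ((a.wt i - ni / N) * Ai - (a.wt j - nj / N) * Aj -
        2 * (s * (y (Sum.inr i) - y (Sum.inr j)) / N) * W) := by
    simp only [cfun, core, poly, kap, Ai, Aj, ni, nj, hW]
    field_simp
    ring
  have h5 : |s * (y (Sum.inr i) - y (Sum.inr j)) / N| ≤ 2 * (S ^ 2 / N) := by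
    rw [abs_div, Nat.abs_cast, abs_mul, ← mul_div_assoc]
    refine div_le_div_of_nonneg_right ?_ hN0.le
    calc |s| * |y (Sum.inr i) - y (Sum.inr j)| ≤ S * (S + S) :=
          mul_le_mul hs ((abs_sub _ _).trans (add_le_add (hy _) (hy _))) (abs_nonneg _) hS0
      _ = 2 * S ^ 2 := by ring
  have hε0 : 0 ≤ ε := (abs_nonneg _).trans (hε i)
  rw [e, abs_mul]
  refine mul_le_mul (hB _ _) ?_ (abs_nonneg _) ((abs_nonneg _).trans (hB x.1 x'.1))
  refine (abs_sub _ _).trans (add_le_add ((abs_sub _ _).trans ?_) ?_)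
  · rw [abs_mul, abs_mul, abs_sub_comm (a.wt i), abs_sub_comm (a.wt j)]
    have h6 := mul_le_mul (hε i) (abs_ov_le blk j x.1 (sel x.1 x'.1) hU) (abs_nonneg _) hε0
    have h7 := mul_le_mul (hε j) (abs_ov_le blk i x.1 (sel x.1 x'.1) hU) (abs_nonneg _) hε0
    linarith
  · rw [abs_mul, abs_mul, abs_two]
    have h6 := mul_le_mul h5 (abs_pair_le (blk := blk) (i := i) (j := j) (sel := sel) hU x.1 x'.1 w.1)
      (abs_nonneg _) (by positivity)
    linarith

lemma abs_efun_le {U : Orth.Arr2 N} {g : GSpace K N P} {Φ : ℝ}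
    (hΦ : ∀ p, |⟪g, gvec blk c sel y i j U p⟫| ≤ Φ) (x x' w : (Fin N → Bool) × Leaf n k) :
    |efun blk y c sel i j U g x x' w| ≤ 4 * Φ := by
  have h1 := _root_.abs_le.1 (hΦ (x.1, x'.1, x.1))
  have h2 := _root_.abs_le.1 (hΦ (x.1, x'.1, x'.1))
  have h3 := _root_.abs_le.1 (hΦ (x.1, x'.1, w.1))
  exact _root_.abs_le.2 ⟨by simp only [efun]; linarith, by simp only [efun]; linarith⟩

/-- The identity at fixed leaves and fields. -/
lemma integral_ident {ν : Measure (Fin N → Fin N → ℝ)} (hν : OrthInvLaw N ν) (hn : 1 ≤ n)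
    (hij : i ≠ j) (mk : (Node n k → ℝ) × (Option (Node n k) → EuclideanSpace ℝ (Fin N)))
    (g : GSpace K N P) :
    ∫ U, avg3 (fun x => expn a blk t s m r y mk g x U) (fun x x' w =>
      cfun a blk t s y c sel i j U x x' w + efun blk y c sel i j U g x x' w) ∂ν = 0 := by
  have := nonempty_leaf hn k
  have := hν.prob
  have hso : Orth.StabLaw ∅ ν := Orth.OrthInvLaw.stabLaw hν
  have hH := fun x => contDiff_expn a blk t s m r y mk g x
  set conf : (Fin N → Bool) × Leaf n k → Fin N → Bool := Prod.fst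
  set selX : (Fin N → Bool) × Leaf n k → (Fin N → Bool) × Leaf n k → (Fin N → Bool) × Leaf n k :=
    fun x x' => (sel x.1 x'.1, x.2)
  set cX : (Fin N → Bool) × Leaf n k → (Fin N → Bool) × Leaf n k → ℝ := fun x x' => c x.1 x'.1
  have hD : ∀ U x, ∀ pq ∈ pairs blk i j, HasDerivAt
      (fun τ : ℝ => rest a blk m r y mk g x (U + τ • vel pq.1 pq.2 U))
      (∑ e, y (Sum.inl e) * ∑ u, g ⟨e, u⟩ * mderiv (expo e) (fun l => blockVec blk U x.1 l)
        (fun l => blockVec blk (vel pq.1 pq.2 U) x.1 l) u) 0 := by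
    intro U x pq _
    have hb : ∀ l b, HasDerivAt (fun τ : ℝ => blockVec blk (U + τ • vel pq.1 pq.2 U) x.1 l b)
        (blockVec blk (vel pq.1 pq.2 U) x.1 l b) 0 := fun l b => by
      simp only [blockVec_apply]
      split_ifs
      · exact hasDerivAt_uc _ _ _ _
      · exact hasDerivAt_const _ _
    refine HasDerivAt.add_const _ (HasDerivAt.fun_sum fun e _ => HasDerivAt.const_mul _
      (HasDerivAt.fun_sum fun u _ => HasDerivAt.const_mul _ ?_))
    simpa using hasDerivAt_mterm (expo e)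
      (v := fun τ l => blockVec blk (U + τ • vel pq.1 pq.2 U) x.1 l) hb u
  have hE : ∀ U (x x' v : (Fin N → Bool) × Leaf n k),
      ∑ pq ∈ pairs blk i j, coef conf selX cX U x x' pq * (∑ e, y (Sum.inl e) * ∑ u, g ⟨e, u⟩ *
        mderiv (expo e) (fun l => blockVec blk U v.1 l)
          (fun l => blockVec blk (vel pq.1 pq.2 U) v.1 l) u) =
        ⟪g, gvec blk c sel y i j U (x.1, x'.1, v.1)⟫ := by
    intro U x x' v
    simp only [gvec, PiLp.inner_apply, RCLike.inner_apply, conj_trivial, Fintype.sum_sigma]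
    unfold wdir
    simp only [coefS, coef, conf, selX, cX, ← sum_mderiv, Finset.mul_sum, Finset.sum_mul]
    rw [Finset.sum_comm]
    refine Finset.sum_congr rfl fun e _ => ?_
    rw [Finset.sum_comm]
    exact Finset.sum_congr rfl fun u _ => Finset.sum_congr rfl fun pq _ => by ring
  have e : ∀ U, avg3 (fun x => expn a blk t s m r y mk g x U) (fun x x' w =>
      cfun a blk t s y c sel i j U x x' w + efun blk y c sel i j U g x x' w) =
      ∑ pq ∈ pairs blk i j,
        Orth.dl (test conf selX cX (expn a blk t s m r y mk g) pq.1 pq.2) pq.2 pq.1 U := fun U => by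
    rw [sum_dl_test hij (F := rest a blk m r y mk g) hH (fun x U => rfl) U (hD U)]
    refine congrArg _ ?_
    funext x x' w
    simp only [conf] at hE ⊢
    simp only [extra]
    rw [hE U x x' x, hE U x x' x', hE U x x' w]
    rfl
  simp only [e]
  rw [integral_finsetSum _ fun pq _ => hso.integrable
    (Orth.continuous_dl (contDiff_test hH _ _) _ _)]
  exact Finset.sum_eq_zero fun pq _ => Orth.integral_dl hso (contDiff_test hH _ _) _ _

/-- The tested loop equation, up to the shares and the perturbation. -/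
theorem loop_bound {ν : Measure (Fin N → Fin N → ℝ)} (hν : OrthInvLaw N ν) (hn : 1 ≤ n)
    (hN : 1 ≤ N) (hij : i ≠ j) {S B ε : ℝ} (hs : |s| ≤ S) (hy : ∀ e, |y e| ≤ S)
    (hB : ∀ σ τ, |c σ τ| ≤ B)
    (hε : ∀ l, |((Finset.univ.filter fun b => blk b = l).card : ℝ) / N - a.wt l| ≤ ε) :
    |∫ z, avg3 (hz a blk t s m r y z) (fun x x' w =>
        c x.1 x'.1 * poly a blk t i j sel z.1.1 x.1 x'.1 w.1)
      ∂(ν.prod (markLaw n k (Fin N))).prod (stdGaussian (GSpace K N P))| ≤
      B * (2 * ε + 16 * (S ^ 2 / N) +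
        20 * K * (S / Real.sqrt N) * ((Fintype.card (CIdx (Fin K) P) : ℝ) * (P + 1))) := by
  have := hν.prob
  have := nonempty_leaf hn k
  set Q : ℝ := (Fintype.card (CIdx (Fin K) P) : ℝ) * (P + 1) with hQ
  set M := S * B * K * Q with hM
  have hN0 : (0 : ℝ) < N := by exact_mod_cast hN
  set μ := (ν.prod (markLaw n k (Fin N))).prod (stdGaussian (GSpace K N P)) with hμ
  have hμp : IsProbabilityMeasure μ := by rw [hμ]; infer_instance
  have horth : ∀ᵐ ω ∂ν.prod (markLaw n k (Fin N)), (Matrix.of ω.1)ᵀ * Matrix.of ω.1 = 1 :=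
    Measure.quasiMeasurePreserving_fst.ae hν.orth
  have horth' : ∀ᵐ z ∂μ, (Matrix.of z.1.1)ᵀ * Matrix.of z.1.1 = 1 :=
    Measure.quasiMeasurePreserving_fst.ae horth
  have hU1 : Continuous fun z : UOmega N n k × GSpace K N P => (z.1.1, z.2) :=
    (continuous_fst.comp continuous_fst).prodMk continuous_snd
  have hHm := fun x => measurable_hz (a := a) (blk := blk) (t := t) (s := s) (m := m) (r := r) (y := y) hn hν x
  set C1 := fun z : UOmega N n k × GSpace K N P =>
    avg3 (hz a blk t s m r y z) (cfun a blk t s y c sel i j z.1.1) with hC1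
  set E1 := fun z : UOmega N n k × GSpace K N P =>
    avg3 (hz a blk t s m r y z) (efun blk y c sel i j z.1.1 z.2) with hE1
  set D1 := fun z : UOmega N n k × GSpace K N P => avg3 (hz a blk t s m r y z) (fun x x' w =>
    c x.1 x'.1 * poly a blk t i j sel z.1.1 x.1 x'.1 w.1 -
      (N : ℝ)⁻¹ * cfun a blk t s y c sel i j z.1.1 x x' w) with hD1
  have hi1 : Integrable C1 μ := Integrable.of_bound
    (measurable_avg3 hHm fun x x' w =>
      ((continuous_cfun x x' w).comp (continuous_fst.comp continuous_fst)).measurable).aestronglyMeasurable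
    _ (horth'.mono fun z hz => abs_avg3_le _ (abs_cfun_le hz hB))
  have hi2 : Integrable E1 μ := by
    refine ((((IsGaussian.integrable_id (μ := stdGaussian (GSpace K N P))).norm.mul_const
      (4 * M)).comp_snd (ν.prod (markLaw n k (Fin N))))).mono'
      (measurable_avg3 hHm fun x x' w =>
        ((continuous_efun x x' w).comp hU1).measurable).aestronglyMeasurable
      (horth'.mono fun z hz => abs_avg3_le _ fun x x' w => ?_)
    refine (abs_efun_le (Φ := ‖z.2‖ * M) (fun p => (abs_real_inner_le_norm _ _).trans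
      (mul_le_mul_of_nonneg_left (norm_gvec_le hij hz hB hy p) (norm_nonneg _))) x x' w).trans_eq ?_
    simp only [id]
    ring
  have hi3 : Integrable D1 μ := Integrable.of_bound
    (measurable_avg3 hHm fun x x' w =>
      ((((continuous_poly x.1 x'.1 w.1).comp (continuous_fst.comp continuous_fst)).measurable).const_mul _).sub
        ((((continuous_cfun x x' w).comp (continuous_fst.comp continuous_fst)).measurable).const_mul _)).aestronglyMeasurable
    _ (horth'.mono fun z hz => abs_avg3_le _ (abs_diff_le hN hz hs hy hB hε))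
  have hzero : ∫ z, (C1 z + E1 z) ∂μ = 0 := by
    have hif : Integrable (fun z => C1 z + E1 z) μ := hi1.add hi2
    rw [hμ, integral_prod_symm _ hif]
    refine integral_eq_zero_of_ae (hif.prod_left_ae.mono fun g hg => ?_)
    simp only [Pi.zero_apply]
    rw [integral_prod_symm _ hg]
    refine integral_eq_zero_of_ae (Filter.Eventually.of_forall fun mk => ?_)
    simp only [Pi.zero_apply, hC1, hE1, ← avg3_add]
    exact integral_ident hν hn hij mk g
  have hE : |∫ z, E1 z ∂μ| ≤ 20 * Real.sqrt N * M := by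
    refine (abs_integral_le_integral_abs).trans ?_
    rw [hμ, integral_prod _ hi2.abs]
    refine (integral_mono_ae hi2.abs.integral_prod_left (integrable_const (20 * Real.sqrt N * M))
      (horth.mono fun ω hω => ?_)).trans_eq (by simp)
    obtain ⟨Φ, hΦi, hΦ, hΦv⟩ := exists_dom (w := gvec blk c sel y i j ω.1) (M := M)
      (norm_gvec_le hij hω hB hy) hN (log_triples hN)
    calc ∫ g, |E1 (ω, g)| ∂stdGaussian _
        ≤ ∫ g, 4 * Φ g ∂stdGaussian _ :=
          integral_mono_of_nonneg (Filter.Eventually.of_forall fun g => abs_nonneg _)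
            (hΦi.const_mul 4) (Filter.Eventually.of_forall fun g =>
              abs_avg3_le _ (abs_efun_le (hΦ g)))
      _ ≤ 20 * Real.sqrt N * M := by rw [integral_const_mul]; linarith
  have hD : |∫ z, D1 z ∂μ| ≤ B * (2 * ε + 16 * (S ^ 2 / N)) := by
    rw [← Real.norm_eq_abs]
    refine (norm_integral_le_of_norm_le_const (C := B * (2 * ε + 16 * (S ^ 2 / N)))
      (horth'.mono fun z hz => ?_)).trans_eq (by simp)
    exact abs_avg3_le _ (abs_diff_le hN hz hs hy hB hε)
  have hsplit : ∀ z : UOmega N n k × GSpace K N P, avg3 (hz a blk t s m r y z) (fun x x' w =>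
      c x.1 x'.1 * poly a blk t i j sel z.1.1 x.1 x'.1 w.1) = (N : ℝ)⁻¹ * C1 z + D1 z := fun z => by
    simp only [hC1, hD1]
    rw [← avg3_mul, ← avg3_add]
    congr 1
    funext x x' w
    ring
  rw [integral_add hi1 hi2] at hzero
  simp only [hsplit]
  rw [integral_add (hi1.const_mul _) hi3, integral_const_mul,
    show ∫ z, C1 z ∂μ = -∫ z, E1 z ∂μ by linarith]
  refine (abs_add_le _ _).trans ?_
  rw [abs_mul, abs_neg, abs_inv, Nat.abs_cast]
  have h4 : (N : ℝ)⁻¹ * |∫ z, E1 z ∂μ| ≤ B * (20 * K * (S / Real.sqrt N) * Q) := by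
    refine (mul_le_mul_of_nonneg_left hE (by positivity)).trans_eq ?_
    have hr : Real.sqrt N ≠ 0 := (Real.sqrt_pos.2 hN0).ne'
    have hr2 : Real.sqrt N * Real.sqrt N = N := Real.mul_self_sqrt hN0.le
    simp only [hM]
    field_simp
    linear_combination (S * B * K * Q) * hr2
  linarith

end Vale.Agent.P166F.Loop2
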