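import Vale.Agent.P166F.Up.Base
import Vale.Agent.P166F.Haar
import Vale.Agent.P166F.Haar.LogSum

/-!
P166: the exact identity behind the loop equation: two replicas tested against a rotation of two
eigen-coordinates, summed over the coordinates of two blocks.
-/

namespace Vale.Agent.P166F.Loop2

open MeasureTheory Matrix
open scoped RealInnerProductSpace
open Vale.Agent.P166 (spin)

variable {K N : ℕ}

/-- A coordinate of the rotated configuration, at unit total norm. -/
noncomputable def uc (σ : Fin N → Bool) (b : Fin N) (U : Orth.Arr2 N) : ℝ :=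
  Orth.proj (fun j => spin (σ j)) b U / Real.sqrt N

lemma blockVec_apply (blk : Fin N → Fin K) (U : Orth.Arr2 N) (σ : Fin N → Bool) (l : Fin K)
    (b : Fin N) : blockVec blk U σ l b = if blk b = l then uc σ b U else 0 := by
  simp only [blockVec, uc, Orth.proj]

/-- The overlap of two configurations in a block. -/
noncomputable def ov (blk : Fin N → Fin K) (l : Fin K) (σ τ : Fin N → Bool) (U : Orth.Arr2 N) : ℝ :=
  ⟪blockVec blk U σ l, blockVec blk U τ l⟫

lemma ov_eq (blk : Fin N → Fin K) (l : Fin K) (σ τ : Fin N → Bool) (U : Orth.Arr2 N) :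
    ov blk l σ τ U = ∑ b ∈ Finset.univ.filter (fun b => blk b = l), uc σ b U * uc τ b U := by
  simp only [ov, PiLp.inner_apply, blockVec_apply, RCLike.inner_apply, conj_trivial, Finset.sum_filter]
  exact Finset.sum_congr rfl fun b _ => by split_ifs <;> ring

lemma abs_ov_le (blk : Fin N → Fin K) (l : Fin K) (σ τ : Fin N → Bool) {U : Orth.Arr2 N}
    (hU : (of U)ᵀ * of U = 1) : |ov blk l σ τ U| ≤ 1 :=
  (abs_real_inner_le_norm _ _).trans
    (mul_le_one₀ (norm_blockVec_le blk hU σ l) (norm_nonneg _) (norm_blockVec_le blk hU τ l))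

@[fun_prop]
lemma contDiff_uc (σ : Fin N → Bool) (b : Fin N) : ContDiff ℝ 1 (uc σ b) := by
  unfold uc Orth.proj
  fun_prop

@[fun_prop]
lemma continuous_ov (blk : Fin N → Fin K) (l : Fin K) (σ τ : Fin N → Bool) :
    Continuous (ov blk l σ τ) :=
  (continuous_blockVec blk σ l).inner (continuous_blockVec blk τ l)

/-- The velocity of the rotation of the coordinates `q` and `p`. -/
noncomputable def vel (p q : Fin N) (U : Orth.Arr2 N) : Orth.Arr2 N :=
  Orth.mm (of.symm (Orth.pk q (Pi.single p 1))) U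

lemma uc_add_smul (σ : Fin N → Bool) (b : Fin N) (U V : Orth.Arr2 N) (t : ℝ) :
    uc σ b (U + t • V) = uc σ b U + t * uc σ b V := by
  simp only [uc, Orth.proj, Pi.add_apply, Pi.smul_apply, smul_eq_mul, add_mul, Finset.sum_add_distrib,
    add_div, mul_div_assoc', Finset.mul_sum, mul_assoc]

lemma uc_vel (σ : Fin N → Bool) (p q b : Fin N) (U : Orth.Arr2 N) :
    uc σ b (vel p q U) = (if b = p then uc σ q U else 0) - if b = q then uc σ p U else 0 := by
  simp only [uc, vel, Orth.proj_pk, sub_div, ite_div, zero_div]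

lemma hasDerivAt_uc (σ : Fin N → Bool) (b : Fin N) (U V : Orth.Arr2 N) :
    HasDerivAt (fun t : ℝ => uc σ b (U + t • V)) (uc σ b V) 0 := by
  simp only [uc_add_smul]
  simpa using ((hasDerivAt_id (0 : ℝ)).mul_const (uc σ b V)).const_add (uc σ b U)

lemma hasDerivAt_line (U V : Orth.Arr2 N) : HasDerivAt (fun t : ℝ => U + t • V) V 0 := by
  simpa using ((hasDerivAt_id (0 : ℝ)).smul_const V).const_add U

lemma dl_eq {f : Orth.Arr2 N → ℝ} (hf : ContDiff ℝ 1 f) {p q : Fin N} {U : Orth.Arr2 N} {d : ℝ}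
    (h : HasDerivAt (fun t : ℝ => f (U + t • vel p q U)) d 0) : Orth.dl f q p U = d :=
  (((hf.differentiable one_ne_zero) U).hasFDerivAt.comp_hasDerivAt_of_eq 0
    (hasDerivAt_line U _) (by simp)).unique h

/-- The part of the energy that is diagonal in the blocks. -/
noncomputable def diagE (blk : Fin N → Fin K) (κ : Fin K → ℝ) (σ : Fin N → Bool) (U : Orth.Arr2 N) :
    ℝ := ∑ b, κ (blk b) * uc σ b U ^ 2

lemma diagE_eq (blk : Fin N → Fin K) (κ : Fin K → ℝ) (σ : Fin N → Bool) (U : Orth.Arr2 N) :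
    ∑ l, κ l * ‖blockVec blk U σ l‖ ^ 2 = diagE blk κ σ U := by
  simp only [diagE, EuclideanSpace.real_norm_sq_eq, blockVec_apply, ite_pow, ne_eq,
    OfNat.ofNat_ne_zero, not_false_eq_true, zero_pow, Finset.mul_sum, mul_ite, mul_zero]
  rw [Finset.sum_comm]
  exact Finset.sum_congr rfl fun b _ => Finset.sum_ite_eq _ _ _ |>.trans (if_pos (Finset.mem_univ _))

lemma hasDerivAt_diagE (blk : Fin N → Fin K) (κ : Fin K → ℝ) (σ : Fin N → Bool) (p q : Fin N)
    (U : Orth.Arr2 N) : HasDerivAt (fun t : ℝ => diagE blk κ σ (U + t • vel p q U))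
      (2 * (κ (blk p) - κ (blk q)) * (uc σ p U * uc σ q U)) 0 := by
  refine (HasDerivAt.fun_sum fun b (_ : b ∈ Finset.univ) =>
    ((hasDerivAt_uc σ b U (vel p q U)).pow 2).const_mul (κ (blk b))).congr_deriv ?_
  simp only [zero_smul, add_zero, uc_vel, Nat.cast_ofNat, pow_one, Nat.add_one_sub_one, mul_sub,
    mul_ite, mul_zero, Finset.sum_sub_distrib, Finset.sum_ite_eq', Finset.mem_univ, if_true]
  ring

/-! ### Weights -/

variable {X : Type} [Fintype X] [Nonempty X]

/-- The normalised weight of a configuration. -/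
noncomputable def gw (H : X → ℝ) (x : X) : ℝ := Real.exp (H x) / ∑ y, Real.exp (H y)

lemma gw_den_pos (H : X → ℝ) : 0 < ∑ y, Real.exp (H y) :=
  Finset.sum_pos (fun _ _ => Real.exp_pos _) Finset.univ_nonempty

lemma sum_gw (H : X → ℝ) : ∑ x, gw H x = 1 := by
  simp only [gw, ← Finset.sum_div]
  exact div_self (gw_den_pos H).ne'

lemma gw_nonneg (H : X → ℝ) (x : X) : 0 ≤ gw H x :=
  div_nonneg (Real.exp_pos _).le (gw_den_pos H).le

/-- The average over three replicas. -/
noncomputable def avg3 (H : X → ℝ) (Θ : X → X → X → ℝ) : ℝ :=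
  ∑ x, ∑ y, ∑ z, gw H x * gw H y * gw H z * Θ x y z

lemma abs_avg3_le (H : X → ℝ) {Θ : X → X → X → ℝ} {b : ℝ} (hb : ∀ x y z, |Θ x y z| ≤ b) :
    |avg3 H Θ| ≤ b := by
  have hw : ∀ x y z, 0 ≤ gw H x * gw H y * gw H z := fun x y z =>
    mul_nonneg (mul_nonneg (gw_nonneg H x) (gw_nonneg H y)) (gw_nonneg H z)
  calc |avg3 H Θ| ≤ ∑ x, ∑ y, ∑ z, gw H x * gw H y * gw H z * b := by
        refine (Finset.abs_sum_le_sum_abs _ _).trans (Finset.sum_le_sum fun x _ => ?_)
        refine (Finset.abs_sum_le_sum_abs _ _).trans (Finset.sum_le_sum fun y _ => ?_)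
        refine (Finset.abs_sum_le_sum_abs _ _).trans (Finset.sum_le_sum fun z _ => ?_)
        rw [abs_mul, abs_of_nonneg (hw x y z)]
        exact mul_le_mul_of_nonneg_left (hb x y z) (hw x y z)
    _ = b := by simp only [← Finset.sum_mul, ← Finset.mul_sum, sum_gw, mul_one, one_mul]

lemma avg3_add (H : X → ℝ) (Θ Θ' : X → X → X → ℝ) :
    avg3 H (fun x y z => Θ x y z + Θ' x y z) = avg3 H Θ + avg3 H Θ' := by
  simp only [avg3, mul_add, Finset.sum_add_distrib]

lemma avg3_mul (H : X → ℝ) (k : ℝ) (Θ : X → X → X → ℝ) :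
    avg3 H (fun x y z => k * Θ x y z) = k * avg3 H Θ := by
  simp only [avg3, Finset.mul_sum]
  exact Finset.sum_congr rfl fun x _ => Finset.sum_congr rfl fun y _ =>
    Finset.sum_congr rfl fun z _ => by ring

lemma avg3_sum {ι : Type} (s : Finset ι) (H : X → ℝ) (Θ : ι → X → X → X → ℝ) :
    avg3 H (fun x y z => ∑ i ∈ s, Θ i x y z) = ∑ i ∈ s, avg3 H (Θ i) := by
  simp only [avg3, Finset.mul_sum]
  rw [Finset.sum_comm (γ := ι)]
  exact Finset.sum_congr rfl fun x _ => by
    rw [Finset.sum_comm (γ := ι)]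
    exact Finset.sum_congr rfl fun y _ => Finset.sum_comm

/-- The last two replicas may be exchanged. -/
lemma avg3_swap (H : X → ℝ) (Θ : X → X → X → ℝ) :
    avg3 H Θ = avg3 H fun x y z => Θ x z y := by
  simp only [avg3]
  refine Finset.sum_congr rfl fun x _ => ?_
  rw [Finset.sum_comm]
  exact Finset.sum_congr rfl fun y _ => Finset.sum_congr rfl fun z _ => by ring

lemma hasDerivAt_gw {H : ℝ → X → ℝ} {H' : X → ℝ} (hH : ∀ x, HasDerivAt (fun t => H t x) (H' x) 0)
    (x : X) : HasDerivAt (fun t => gw (H t) x)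
      (gw (H 0) x * (H' x - ∑ z, gw (H 0) z * H' z)) 0 := by
  have hz := gw_den_pos (H 0)
  refine ((hH x).exp.div (HasDerivAt.fun_sum fun y (_ : y ∈ Finset.univ) => (hH y).exp) hz.ne').congr_deriv ?_
  simp only [gw, div_mul_eq_mul_div, ← Finset.sum_div]
  field_simp

/-- The derivative of a two-replica average. -/
lemma hasDerivAt_pair {H : ℝ → X → ℝ} {H' : X → ℝ} (hH : ∀ x, HasDerivAt (fun t => H t x) (H' x) 0)
    {Θ : ℝ → X → X → ℝ} {Θ' : X → X → ℝ}
    (hΘ : ∀ x y, HasDerivAt (fun t => Θ t x y) (Θ' x y) 0) :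
    HasDerivAt (fun t => ∑ x, ∑ y, gw (H t) x * gw (H t) y * Θ t x y)
      (avg3 (H 0) fun x y z => Θ' x y + Θ 0 x y * (H' x + H' y - 2 * H' z)) 0 := by
  refine (HasDerivAt.fun_sum fun x (_ : x ∈ Finset.univ) => HasDerivAt.fun_sum
    fun y (_ : y ∈ Finset.univ) => ((hasDerivAt_gw hH x).mul (hasDerivAt_gw hH y)).mul (hΘ x y)).congr_deriv ?_
  simp only [avg3]
  refine Finset.sum_congr rfl fun x _ => Finset.sum_congr rfl fun y _ => ?_
  have e : ∑ z, gw (H 0) x * gw (H 0) y * gw (H 0) z *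
      (Θ' x y + Θ 0 x y * (H' x + H' y - 2 * H' z)) =
      gw (H 0) x * gw (H 0) y * ((Θ' x y + Θ 0 x y * (H' x + H' y)) * ∑ z, gw (H 0) z -
        2 * Θ 0 x y * ∑ z, gw (H 0) z * H' z) := by
    rw [Finset.mul_sum, Finset.mul_sum, ← Finset.sum_sub_distrib, Finset.mul_sum]
    exact Finset.sum_congr rfl fun z _ => by ring
  rw [e, sum_gw, Pi.mul_apply]
  ring

/-! ### The identity at one array -/

variable {blk : Fin N → Fin K} {i j : Fin K} {conf : X → Fin N → Bool} {sel : X → X → X}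
  {c : X → X → ℝ}

/-- The coordinate pairs of two blocks. -/
def pairs (blk : Fin N → Fin K) (i j : Fin K) : Finset (Fin N × Fin N) :=
  (Finset.univ.filter fun b => blk b = i) ×ˢ (Finset.univ.filter fun b => blk b = j)

/-- The tested average. -/
noncomputable def test (conf : X → Fin N → Bool) (sel : X → X → X) (c : X → X → ℝ)
    (H : X → Orth.Arr2 N → ℝ) (p q : Fin N) (U : Orth.Arr2 N) : ℝ :=
  ∑ x, ∑ y, gw (fun x => H x U) x * gw (fun x => H x U) y *
    (c x y * (uc (conf x) p U * uc (conf (sel x y)) q U))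

lemma contDiff_test {H : X → Orth.Arr2 N → ℝ} (hH : ∀ x, ContDiff ℝ 1 (H x)) (p q : Fin N) :
    ContDiff ℝ 1 (test conf sel c H p q) := by
  have hw : ∀ x, ContDiff ℝ 1 fun U => gw (fun x => H x U) x := fun x =>
    (hH x).exp.div (ContDiff.sum fun y _ => (hH y).exp) fun U => (gw_den_pos fun x => H x U).ne'
  exact ContDiff.sum fun x _ => ContDiff.sum fun y _ =>
    ((hw x).mul (hw y)).mul (contDiff_const.mul ((contDiff_uc _ p).mul (contDiff_uc _ q)))

/-- The block terms: shares and diagonal energy. -/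
noncomputable def core (blk : Fin N → Fin K) (conf : X → Fin N → Bool) (sel : X → X → X)
    (c : X → X → ℝ) (κ : Fin K → ℝ) (i j : Fin K) (U : Orth.Arr2 N) (x y z : X) : ℝ :=
  c x y * (((Finset.univ.filter fun b => blk b = i).card : ℝ) * ov blk j (conf x) (conf (sel x y)) U -
      ((Finset.univ.filter fun b => blk b = j).card : ℝ) * ov blk i (conf x) (conf (sel x y)) U +
    2 * (κ i - κ j) * (ov blk i (conf x) (conf x) U * ov blk j (conf (sel x y)) (conf x) U +
      ov blk i (conf x) (conf y) U * ov blk j (conf (sel x y)) (conf y) U -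
      2 * (ov blk i (conf x) (conf z) U * ov blk j (conf (sel x y)) (conf z) U)))

/-- The coefficient of a coordinate pair in the test. -/
noncomputable def coef (conf : X → Fin N → Bool) (sel : X → X → X) (c : X → X → ℝ)
    (U : Orth.Arr2 N) (x y : X) (pq : Fin N × Fin N) : ℝ :=
  c x y * (uc (conf x) pq.1 U * uc (conf (sel x y)) pq.2 U)

/-- The summed derivative of a further energy `F`, with derivatives `D`. -/
noncomputable def extra (blk : Fin N → Fin K) (conf : X → Fin N → Bool) (sel : X → X → X)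
    (c : X → X → ℝ) (D : X → Fin N × Fin N → ℝ) (i j : Fin K) (U : Orth.Arr2 N) (x y z : X) : ℝ :=
  (∑ pq ∈ pairs blk i j, coef conf sel c U x y pq * D x pq) +
      (∑ pq ∈ pairs blk i j, coef conf sel c U x y pq * D y pq) -
    2 * ∑ pq ∈ pairs blk i j, coef conf sel c U x y pq * D z pq

lemma sum_pairs_mul (f g : Fin N → ℝ) :
    ∑ pq ∈ pairs blk i j, f pq.1 * g pq.2 =
      (∑ p ∈ Finset.univ.filter (fun b => blk b = i), f p) *
        ∑ q ∈ Finset.univ.filter (fun b => blk b = j), g q := by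
  rw [pairs, Finset.sum_product, Finset.sum_mul_sum]

/-- Summed over the two blocks, the derivatives of the tests are the block terms and the rest. -/
lemma sum_dl_test (hij : i ≠ j) {H F : X → Orth.Arr2 N → ℝ} {κ : Fin K → ℝ}
    (hH : ∀ x, ContDiff ℝ 1 (H x))
    (hHF : ∀ x U, H x U = diagE blk κ (conf x) U + F x U) (U : Orth.Arr2 N)
    {D : X → Fin N × Fin N → ℝ}
    (hD : ∀ x, ∀ pq ∈ pairs blk i j,
      HasDerivAt (fun t : ℝ => F x (U + t • vel pq.1 pq.2 U)) (D x pq) 0) :
    ∑ pq ∈ pairs blk i j, Orth.dl (test conf sel c H pq.1 pq.2) pq.2 pq.1 U =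
      avg3 (fun x => H x U) fun x y z =>
        core blk conf sel c κ i j U x y z + extra blk conf sel c D i j U x y z := by
  have hpq : ∀ pq ∈ pairs blk i j, blk pq.1 = i ∧ blk pq.2 = j ∧ pq.1 ≠ pq.2 := fun pq h => by
    simp only [pairs, Finset.mem_product, Finset.mem_filter, Finset.mem_univ, true_and] at h
    exact ⟨h.1, h.2, fun e => hij (h.1.symm.trans (e ▸ h.2))⟩
  have key : ∀ pq ∈ pairs blk i j, Orth.dl (test conf sel c H pq.1 pq.2) pq.2 pq.1 U =
      avg3 (fun x => H x U) fun x y z =>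
        c x y * (uc (conf x) pq.2 U * uc (conf (sel x y)) pq.2 U -
          uc (conf x) pq.1 U * uc (conf (sel x y)) pq.1 U) +
        coef conf sel c U x y pq *
          ((2 * (κ i - κ j) * (uc (conf x) pq.1 U * uc (conf x) pq.2 U) + D x pq) +
            (2 * (κ i - κ j) * (uc (conf y) pq.1 U * uc (conf y) pq.2 U) + D y pq) -
            2 * (2 * (κ i - κ j) * (uc (conf z) pq.1 U * uc (conf z) pq.2 U) + D z pq)) := by
    intro pq h
    obtain ⟨hp, hq, hne⟩ := hpq pq h
    refine dl_eq (contDiff_test hH _ _) ?_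
    have h1 : ∀ x, HasDerivAt (fun t : ℝ => H x (U + t • vel pq.1 pq.2 U))
        (2 * (κ i - κ j) * (uc (conf x) pq.1 U * uc (conf x) pq.2 U) + D x pq) 0 := fun x => by
      simp only [hHF]
      have := (hasDerivAt_diagE blk κ (conf x) pq.1 pq.2 U).add (hD x pq h)
      rw [hp, hq] at this
      exact this
    have h2 : ∀ x y, HasDerivAt (fun t : ℝ => c x y * (uc (conf x) pq.1 (U + t • vel pq.1 pq.2 U) *
        uc (conf (sel x y)) pq.2 (U + t • vel pq.1 pq.2 U)))
        (c x y * (uc (conf x) pq.2 U * uc (conf (sel x y)) pq.2 U -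
          uc (conf x) pq.1 U * uc (conf (sel x y)) pq.1 U)) 0 := fun x y => by
      refine (((hasDerivAt_uc _ _ U _).mul (hasDerivAt_uc _ _ U _)).const_mul (c x y)).congr_deriv ?_
      simp only [zero_smul, add_zero, uc_vel, if_pos, if_neg hne, if_neg hne.symm]
      ring
    have h3 := hasDerivAt_pair (H := fun t x => H x (U + t • vel pq.1 pq.2 U))
      (Θ := fun t x y => c x y * (uc (conf x) pq.1 (U + t • vel pq.1 pq.2 U) *
        uc (conf (sel x y)) pq.2 (U + t • vel pq.1 pq.2 U))) h1 h2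
    simp only [zero_smul, add_zero] at h3
    exact h3
  rw [Finset.sum_congr rfl key, ← avg3_sum]
  congr 1
  funext x y z
  have e1 : ∀ f : Fin N → ℝ, ∑ pq ∈ pairs blk i j, f pq.2 =
      ((Finset.univ.filter fun b => blk b = i).card : ℝ) *
        ∑ q ∈ Finset.univ.filter (fun b => blk b = j), f q := fun f => by
    simpa using sum_pairs_mul (blk := blk) (i := i) (j := j) (fun _ => 1) f
  have e2 : ∀ f : Fin N → ℝ, ∑ pq ∈ pairs blk i j, f pq.1 =
      ((Finset.univ.filter fun b => blk b = j).card : ℝ) *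
        ∑ p ∈ Finset.univ.filter (fun b => blk b = i), f p := fun f => by
    simpa [mul_comm] using sum_pairs_mul (blk := blk) (i := i) (j := j) f (fun _ => 1)
  have e3 : ∀ w : X, ∑ pq ∈ pairs blk i j, coef conf sel c U x y pq *
      (2 * (κ i - κ j) * (uc (conf w) pq.1 U * uc (conf w) pq.2 U)) =
      c x y * (2 * (κ i - κ j) *
        (ov blk i (conf x) (conf w) U * ov blk j (conf (sel x y)) (conf w) U)) := fun w => by
    rw [ov_eq, ov_eq, ← sum_pairs_mul, Finset.mul_sum, Finset.mul_sum]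
    exact Finset.sum_congr rfl fun pq _ => by simp only [coef]; ring
  have h : ∀ pq, c x y * (uc (conf x) pq.2 U * uc (conf (sel x y)) pq.2 U -
        uc (conf x) pq.1 U * uc (conf (sel x y)) pq.1 U) +
      coef conf sel c U x y pq *
        ((2 * (κ i - κ j) * (uc (conf x) pq.1 U * uc (conf x) pq.2 U) + D x pq) +
          (2 * (κ i - κ j) * (uc (conf y) pq.1 U * uc (conf y) pq.2 U) + D y pq) -
          2 * (2 * (κ i - κ j) * (uc (conf z) pq.1 U * uc (conf z) pq.2 U) + D z pq)) =
      c x y * (uc (conf x) pq.2 U * uc (conf (sel x y)) pq.2 U) -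
        c x y * (uc (conf x) pq.1 U * uc (conf (sel x y)) pq.1 U) +
      coef conf sel c U x y pq * (2 * (κ i - κ j) * (uc (conf x) pq.1 U * uc (conf x) pq.2 U)) +
      coef conf sel c U x y pq * (2 * (κ i - κ j) * (uc (conf y) pq.1 U * uc (conf y) pq.2 U)) -
      2 * (coef conf sel c U x y pq * (2 * (κ i - κ j) * (uc (conf z) pq.1 U * uc (conf z) pq.2 U))) +
      (coef conf sel c U x y pq * D x pq + coef conf sel c U x y pq * D y pq -
        2 * (coef conf sel c U x y pq * D z pq)) := fun pq => by ring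
  simp only [h, Finset.sum_add_distrib, Finset.sum_sub_distrib, ← Finset.mul_sum, e3,
    e1 fun q => uc (conf x) q U * uc (conf (sel x y)) q U,
    e2 fun p => uc (conf x) p U * uc (conf (sel x y)) p U, core, extra, ← ov_eq]
  ring

end Vale.Agent.P166F.Loop2
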