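import Vale.Agent.P166F.Up.Perturb
import Vale.Agent.P166F.Up.LoopMain

/-!
P166: the enriched system without fields and perturbation, and its overlaps on orthogonal matrices.
-/

namespace Vale.Agent.P166F

open MeasureTheory ProbabilityTheory Matrix
open scoped RealInnerProductSpace
open Vale.Agent.P166 (spin pressure)
open Vale.Agent.P166N (Node Leaf nonempty_leaf)
open Vale.Agent.P166N.Spectrum (OrthInvLaw)
open Loop2

variable {K N n k P : ℕ}

lemma leafPt_zero (x : (Fin N → Bool) × Leaf n k)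
    (z : Option (Node n k) → EuclideanSpace ℝ (Fin N)) :
    ∑ i, leafPt k (fun j _ => seqOf (0 : Fin (k + 1) → ℝ) j) x.2 z i * spin (x.1 i) = 0 := by
  set g : FSp N n k := WithLp.toLp 2 fun c => z c.1 c.2 with hg
  have hz : z = byNode g := funext fun u => by simp [byNode, hg]
  rw [hz, leafPt_byNode]
  have h0 : leafVec (seqOf (0 : Fin (k + 1) → ℝ)) x = 0 := by
    rw [← inner_self_eq_zero (𝕜 := ℝ),
      inner_leafVec (R := seqOf (0 : Fin (k + 1) → ℝ)) le_rfl fun _ _ => le_rfl]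
    simp [seqOf]
  rw [h0, inner_zero_right]

lemma energy_pressure (a : Atoms K) (blk : Fin N → Fin K) (hN : 1 ≤ N) (t : ℝ)
    (U : Fin N → Fin N → ℝ) :
    Real.log (∑ σ : Fin N → Bool,
        Real.exp (t * N / 2 * ∑ i, a.lam i * ‖blockVec blk U σ i‖ ^ 2 - N * Real.log 2)) =
      N * pressure N t (fun i => a.lam (blk i)) U := by
  have hN0 : (N : ℝ) ≠ 0 := by exact_mod_cast Nat.one_le_iff_ne_zero.1 hN
  have e : ∀ σ : Fin N → Bool, t * N / 2 * ∑ i, a.lam i * ‖blockVec blk U σ i‖ ^ 2 =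
      t / 2 * ((fun j => spin (σ j)) ⬝ᵥ
        (((Matrix.of U)ᵀ * Matrix.diagonal (fun i => a.lam (blk i)) * Matrix.of U) *ᵥ
          fun j => spin (σ j))) := fun σ => by
    rw [diagE_eq, ← mulVec_mulVec, ← mulVec_mulVec, dotProduct_mulVec, vecMul_transpose,
      diagE, dotProduct, Finset.mul_sum, Finset.mul_sum]
    refine Finset.sum_congr rfl fun b _ => ?_
    rw [mulVec_diagonal, uc, div_pow, Real.sq_sqrt (Nat.cast_nonneg N)]
    show _ = t / 2 * (Orth.proj (fun j => spin (σ j)) b U *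
      (a.lam (blk b) * Orth.proj (fun j => spin (σ j)) b U))
    field_simp
  simp only [e]
  rw [pressure, ← mul_assoc, mul_inv_cancel₀ hN0, one_mul, Finset.mul_sum]
  refine congrArg Real.log (Finset.sum_congr rfl fun σ _ => ?_)
  rw [Real.exp_sub, Real.exp_nat_mul, Real.exp_log two_pos]
  ring

/-- Without fields and perturbation the mean log-sum is the size times the mean pressure. -/
theorem press_origin (a : Atoms K) (blk : Fin N → Fin K) {ν : Measure (Fin N → Fin N → ℝ)}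
    (hν : OrthInvLaw N ν) (hn : 1 ≤ n) (hN : 1 ≤ N) (t : ℝ) (m : Fin (k + 1) → ℝ) (s : ℝ) :
    (uSys a blk hν hn t m 0).press P s 0 = N * ∫ U, pressure N t (fun i => a.lam (blk i)) U ∂ν := by
  have := hν.prob
  have := nonempty_leaf hn k
  set S := uSys a blk hν hn t m (0 : Fin (k + 1) → ℝ)
  have hv : ∀ᵐ z ∂S.full P, ∀ u, 0 < z.1.2.1 u :=
    Measure.quasiMeasurePreserving_fst.ae (Measure.quasiMeasurePreserving_snd.ae
      (Measure.quasiMeasurePreserving_fst.ae ae_node_pos'))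
  have h : ∀ᵐ z ∂S.full P, S.logZ s (0 : CIdx (Fin K) P → ℝ) z =
      N * pressure N t (fun i => a.lam (blk i)) z.1.1 := by
    filter_upwards [hv] with z hz
    rw [← energy_pressure a blk hN]
    have hw : ∀ l, 0 < wgt n k (seqOf m) z.1.2.1 l := fun l => wgt_pos hn (m := seqOf m) hz l
    have hW : 0 < ∑ l, wgt n k (seqOf m) z.1.2.1 l :=
      Finset.sum_pos (fun l _ => hw l) Finset.univ_nonempty
    have e : ∀ x : (Fin N → Bool) × Leaf n k,
        Real.exp (uLogw a blk t m 0 z.1 x + S.ham s (0 : CIdx (Fin K) P → ℝ) z.1 z.2 x) =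
        Real.exp (t * N / 2 * ∑ i, a.lam i * ‖blockVec blk z.1.1 x.1 i‖ ^ 2 - N * Real.log 2) *
          (wgt n k (seqOf m) z.1.2.1 x.2 / ∑ l, wgt n k (seqOf m) z.1.2.1 l) := fun x => by
      have h0 : S.ham s (0 : CIdx (Fin K) P → ℝ) z.1 z.2 x = 0 := by simp [Sys.ham]
      rw [h0, add_zero]; unfold uLogw; rw [leafPt_zero, add_zero, Real.exp_add, Real.exp_log (div_pos (hw _) hW)]
    show Real.log (∑ x : (Fin N → Bool) × Leaf n k,
      Real.exp (uLogw a blk t m 0 z.1 x + S.ham s (0 : CIdx (Fin K) P → ℝ) z.1 z.2 x)) = _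
    simp only [e, Fintype.sum_prod_type, ← Finset.mul_sum, ← Finset.sum_div, div_self hW.ne',
      mul_one]
  show ∫ z, S.logZ s (0 : CIdx (Fin K) P → ℝ) z ∂S.full P = _
  rw [integral_congr_ae h, integral_const_mul]
  congr 1
  show ∫ z, (fun ω : UOmega N n k => pressure N t (fun i => a.lam (blk i)) ω.1) z.1
    ∂(ν.prod (markLaw n k (Fin N))).prod (stdGaussian (EuclideanSpace ℝ (GIdx (Fin K) P N))) = _
  rw [integral_fun_fst (fun ω : UOmega N n k => pressure N t (fun i => a.lam (blk i)) ω.1),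
    integral_fun_fst (fun U => pressure N t (fun i => a.lam (blk i)) U)]
  simp

lemma pressure_zero (hN : 1 ≤ N) (l : Fin N → ℝ) (U : Fin N → Fin N → ℝ) :
    pressure N 0 l U = 0 := by
  simp [pressure]

lemma gram_uSys (a : Atoms K) (blk : Fin N → Fin K) {ν : Measure (Fin N → Fin N → ℝ)}
    (hν : OrthInvLaw N ν) (hn : 1 ≤ n) (t : ℝ) (m r : Fin (k + 1) → ℝ) {q : ℕ} {ω : UOmega N n k}
    (hU : (Matrix.of ω.1)ᵀ * Matrix.of ω.1 = 1) (x : Fin q → (Fin N → Bool) × Leaf n k)
    (i i' : Fin q) :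
    ∑ l, (uSys a blk hν hn t m r).gram ω x i i' l =
      (∑ b, spin ((x i).1 b) * spin ((x i').1 b)) / N := by
  rw [← sum_ov blk (x i).1 (x i').1 hU]
  refine Finset.sum_congr rfl fun l _ => ?_
  show ⟪toBall _, toBall _⟫ = _
  rw [toBall_of_le (norm_blockVec_le blk hU _ l), toBall_of_le (norm_blockVec_le blk hU _ l)]
  rfl

end Vale.Agent.P166F
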