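import Vale.Agent.P166F.Up.Pick
import Vale.Agent.P166F.Up.Origin

/-!
P166: the maximiser over field variances and coefficients, and what holds there.
-/

namespace Vale.Agent.P166F

open MeasureTheory Filter
open scoped Topology
open Vale.Agent.P166N (meet)
open Vale.Agent.P166N.Spectrum (OrthInvLaw)

variable {K N k : ℕ}

/-- The total size of the spectrum. -/
noncomputable def Atoms.size (a : Atoms K) : ℝ := ∑ i, |a.lam i|

lemma Atoms.size_nonneg (a : Atoms K) : 0 ≤ a.size := Finset.sum_nonneg fun _ _ => abs_nonneg _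

/-- The box of the coefficients. -/
def ybox (K N : ℕ) : Set (CIdx (Fin K) (degr N) → ℝ) :=
  Set.pi Set.univ fun _ => Set.Icc (scl N) (2 * scl N)

/-- The centre of the box. -/
noncomputable def yctr (K N : ℕ) : CIdx (Fin K) (degr N) → ℝ := fun _ => 3 / 2 * scl N

lemma scl_nonneg (N : ℕ) : 0 ≤ scl N := pow_nonneg (bs_nonneg N) 3

lemma yctr_mem (K N : ℕ) : yctr K N ∈ ybox K N :=
  fun _ _ => ⟨by unfold yctr; linarith [scl_nonneg N], by unfold yctr; linarith [scl_nonneg N]⟩

lemma ybox_subset (K N : ℕ) : ybox K N ⊆ CBox (2 * scl N) := fun y hy i =>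
  ⟨(scl_nonneg N).trans (hy i (Set.mem_univ i)).1, (hy i (Set.mem_univ i)).2⟩

variable (a : Atoms K) (blk : Fin N → Fin K) {ν : Measure (Fin N → Fin N → ℝ)}
  (hν : OrthInvLaw N ν) (n : ℕ) (m p : Fin (k + 1) → ℝ)

/-- The quantity to be maximised. -/
noncomputable def objF (t : ℝ) (r : Fin (k + 1) → ℝ) (y : CIdx (Fin K) (degr N) → ℝ) : ℝ :=
  (uSys a blk hν (n := n + 1) (by omega) t m r).press (degr N) (scl N) y / N -
    r (Fin.last k) / 2 + pairing m p r - pen K N * (∑ i, (y i - 3 / 2 * scl N) ^ 2) / N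

lemma continuous_objF (t : ℝ) (r : Fin (k + 1) → ℝ) : Continuous (objF a blk hν n m p t r) := by
  unfold objF
  have := Sys.continuous_press (uSys a blk hν (n := n + 1) (by omega) t m r) (P := degr N) (scl N)
  fun_prop

/-- A maximiser over the grid and the box. -/
theorem exists_objF_max (L t : ℝ) :
    ∃ r ∈ rgrid N k L, ∃ y ∈ ybox K N, ∀ r' ∈ rgrid N k L, ∀ y' ∈ ybox K N,
      objF a blk hν n m p t r' y' ≤ objF a blk hν n m p t r y := by
  have hne : (ybox K N).Nonempty := ⟨_, yctr_mem K N⟩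
  have hc : IsCompact (ybox K N) := isCompact_univ_pi fun _ => isCompact_Icc
  choose Y hY hmax using fun r => hc.exists_isMaxOn hne (continuous_objF a blk hν n m p t r).continuousOn
  obtain ⟨r, hr, hr'⟩ := Finset.exists_max_image (rgrid N k L)
    (fun r => objF a blk hν n m p t r (Y r)) ⟨0, zero_mem_rgrid L⟩
  exact ⟨r, hr, Y r, hY r, fun r' hr'' y' hy' => (hmax r' hy').trans (hr' r' hr'')⟩

lemma abs_expect_le {J : Type} [Fintype J] [DecidableEq J] {P q : ℕ} (S : Sys J) (s : ℝ)
    (y : CIdx J P → ℝ) {Φ : OArr J q → ℝ} {B : ℝ} (hΦ : ∀ ω x, |Φ (S.gram ω x)| ≤ B) :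
    |S.expect s y Φ| ≤ B := by
  rw [Sys.expect, Sys.avg_eq_repAvg, ← Real.norm_eq_abs]
  refine (norm_integral_le_of_norm_le_const (C := B) (Eventually.of_forall fun z => ?_)).trans (by simp)
  rw [Real.norm_eq_abs, repAvg]
  refine (Finset.abs_sum_le_sum_abs _ _).trans ((Finset.sum_le_sum (g := fun x =>
    (∏ l, gibW (S.expOf s y z) (x l)) * B) fun x _ => ?_).trans (le_of_eq ?_))
  · have h0 : 0 < ∏ l, gibW (S.expOf s y z) (x l) := Finset.prod_pos fun l _ => gibW_pos _ _
    rw [abs_mul, abs_of_pos h0]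
    exact mul_le_mul_of_nonneg_left (hΦ z.1 x) h0.le
  · rw [← Finset.sum_mul, ← Fintype.prod_sum (fun (_ : Fin q) x => gibW (S.expOf s y z) x)]
    simp [sum_gibW]

lemma abs_expect_energy (t : ℝ) (r : Fin (k + 1) → ℝ) (s : ℝ) {P : ℕ}
    (y : CIdx (Fin K) P → ℝ) :
    |(uSys a blk hν (n := n + 1) (by omega) t m r).expect s y (n := 1)
      fun R => (∑ i, a.lam i * R 0 0 i) / 2| ≤ a.size / 2 := by
  refine abs_expect_le _ s y fun ω x => ?_
  rw [abs_div, abs_two]
  refine div_le_div_of_nonneg_right ((Finset.abs_sum_le_sum_abs _ _).trans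
    (Finset.sum_le_sum fun i _ => ?_)) two_pos.le
  rw [abs_mul]
  exact mul_le_of_le_one_right (abs_nonneg _) ((abs_real_inner_le_norm _ _).trans
    (mul_le_one₀ (Sys.norm _ ω (x 0) i) (norm_nonneg _) (Sys.norm _ ω (x 0) i)))

/-- The perturbation costs at most twice the squared scale per coefficient. -/
lemma press_box (t : ℝ) (r : Fin (k + 1) → ℝ) {y : CIdx (Fin K) (degr N) → ℝ}
    (hy : y ∈ (CBox (2 * scl N) : Set (CIdx (Fin K) (degr N) → ℝ))) :
    (uSys a blk hν (n := n + 1) (by omega) t m r).press (degr N) (scl N) 0 ≤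
        (uSys a blk hν (n := n + 1) (by omega) t m r).press (degr N) (scl N) y ∧
      (uSys a blk hν (n := n + 1) (by omega) t m r).press (degr N) (scl N) y ≤
        (uSys a blk hν (n := n + 1) (by omega) t m r).press (degr N) (scl N) 0 +
          2 * cnum K N * scl N ^ 2 := by
  have h := Sys.press_perturb (uSys a blk hν (n := n + 1) (by omega) t m r) (scl_nonneg N)
    (y := y) fun j => (hy _).1
  refine ⟨h.1, h.2.trans ?_⟩
  have h1 : ∑ e : Mon (Fin K) (degr N), y (Sum.inl e) ^ 2 ≤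
      Fintype.card (Mon (Fin K) (degr N)) * (2 * scl N) ^ 2 := by
    refine (Finset.sum_le_sum fun e _ => pow_le_pow_left₀ (hy _).1 (hy _).2 2).trans_eq ?_
    simp
  have h2 : ∑ j : Fin K, y (Sum.inr j) ≤ K * (2 * scl N) :=
    (Finset.sum_le_sum fun j _ => (hy _).2).trans_eq (by simp)
  have h3 := mul_le_mul_of_nonneg_left h2 (scl_nonneg N)
  have e : cnum K N = Fintype.card (Mon (Fin K) (degr N)) + (K : ℝ) := by simp [cnum, CIdx]
  rw [e]
  linarith

include hν in
/-- Without fields at the centre the objective is above minus half the size of the spectrum. -/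
lemma objF_origin (hN : 1 ≤ N) {t : ℝ} (ht : 0 ≤ t) :
    ∫ U, Vale.Agent.P166.pressure N t (fun i => a.lam (blk i)) U ∂ν ≤
        objF a blk hν n m p t 0 (yctr K N) ∧
      -(t * a.size / 2) ≤ objF a blk hν n m p t 0 (yctr K N) := by
  have hN0 : (0 : ℝ) < N := by exact_mod_cast hN
  have h1 := (press_box a blk hν n m t (0 : Fin (k + 1) → ℝ) (ybox_subset K N (yctr_mem K N))).1
  have h2 := press_origin (P := degr N) a blk hν (n := n + 1) (by omega) hN t m (scl N)
  have h3 := press_tangent a blk hν (n := n + 1) (by omega) m (0 : Fin (k + 1) → ℝ) (scl N)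
    (0 : CIdx (Fin K) (degr N) → ℝ) t 0
  have h4 := press_origin (P := degr N) a blk hν (n := n + 1) (by omega) hN 0 m (scl N)
  simp only [pressure_zero hN, integral_zero, mul_zero] at h4
  have h5 := (abs_le.1 (abs_expect_energy a blk hν n m 0 (0 : Fin (k + 1) → ℝ) (scl N)
    (0 : CIdx (Fin K) (degr N) → ℝ))).1
  have h6 : ∀ x : ℝ, N * x ≤ (uSys a blk hν (n := n + 1) (by omega) t m
      (0 : Fin (k + 1) → ℝ)).press (degr N) (scl N) (yctr K N) →
      x ≤ objF a blk hν n m p t 0 (yctr K N) := fun x hx => by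
    simp only [objF, pairing, yctr, Pi.zero_apply, mul_zero, Finset.sum_const_zero, zero_div,
      sub_zero, add_zero, sub_self, ne_eq, OfNat.ofNat_ne_zero, not_false_eq_true, zero_pow,
      Finset.sum_const_zero] at hx ⊢
    rw [le_div_iff₀ hN0, mul_comm]
    exact hx
  refine ⟨h6 _ (h2.symm.le.trans h1), h6 _ ?_⟩
  have h7 := mul_le_mul_of_nonneg_left h5 (mul_nonneg ht hN0.le)
  linarith

variable {a blk n m p} {β L t : ℝ} {r : Fin (k + 1) → ℝ} {y : CIdx (Fin K) (degr N) → ℝ}

/-- The coefficients of a maximiser are deep inside the box. -/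
lemma max_interior (hN : 1 ≤ N) (hr : r ∈ rgrid N k L) (hy : y ∈ ybox K N)
    (hmax : ∀ r' ∈ rgrid N k L, ∀ y' ∈ ybox K N,
      objF a blk hν n m p t r' y' ≤ objF a blk hν n m p t r y) (i : CIdx (Fin K) (degr N)) :
    |y i - 3 / 2 * scl N| ≤ scl N / 4 := by
  have hN0 : (0 : ℝ) < N := by exact_mod_cast hN
  have h := hmax r hr _ (yctr_mem K N)
  have hb := press_box a blk hν n m t r (ybox_subset K N hy)
  have hc := press_box a blk hν n m t r (ybox_subset K N (yctr_mem K N))
  have ec : ∑ i, (yctr K N i - 3 / 2 * scl N) ^ 2 = 0 := by simp [yctr]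
  simp only [objF, ec, mul_zero, zero_div, sub_zero] at h
  set D2 := ∑ i, (y i - 3 / 2 * scl N) ^ 2
  set A := (uSys a blk hν (n := n + 1) (by omega) t m r).press (degr N) (scl N) y
  set A0 := (uSys a blk hν (n := n + 1) (by omega) t m r).press (degr N) (scl N) (yctr K N)
  have h1 : pen K N * D2 ≤ 2 * cnum K N * scl N ^ 2 := by
    have h' : pen K N * D2 / N ≤ (A - A0) / N := by rw [sub_div]; linarith
    have := (div_le_div_iff_of_pos_right hN0).1 h'
    linarith [hb.2, hc.1]
  have h2 : (y i - 3 / 2 * scl N) ^ 2 ≤ D2 :=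
    Finset.single_le_sum (f := fun i => (y i - 3 / 2 * scl N) ^ 2) (fun _ _ => sq_nonneg _)
      (Finset.mem_univ i)
  have hc0 := cnum_nonneg K N
  have h3 : pen K N * (y i - 3 / 2 * scl N) ^ 2 ≤ pen K N * (scl N / 4) ^ 2 := by
    refine ((mul_le_mul_of_nonneg_left h2 (by unfold pen; linarith)).trans h1).trans ?_
    unfold pen
    nlinarith [sq_nonneg (scl N)]
  exact abs_le_of_sq_le_sq (le_of_mul_le_mul_left h3 (by unfold pen; linarith))
    (by linarith [scl_nonneg N])

/-- A maximiser is pinned. -/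
lemma max_pinned (hN : 1 ≤ N) (hr : r ∈ rgrid N k L) (hy : y ∈ ybox K N)
    (hmax : ∀ r' ∈ rgrid N k L, ∀ y' ∈ ybox K N,
      objF a blk hν n m p t r' y' ≤ objF a blk hν n m p t r y)
    (hδ : rad N ≤ scl N / 4) {σ : ℝ}
    (hdev : ∀ y' ∈ (CBox (2 * scl N) : Set (CIdx (Fin K) (degr N) → ℝ)),
      (uSys a blk hν (n := n + 1) (by omega) t m r).dev (degr N) (scl N) y' ≤ σ) :
    Pinned (uSys a blk hν (n := n + 1) (by omega) t m r) (scl N) y (pen K N) σ (rad N) := by
  have hN0 : (0 : ℝ) < N := by exact_mod_cast hN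
  have hb0 : 0 < bs N := zero_lt_one.trans_le (one_le_bs hN)
  have hin := max_interior hν hN hr hy hmax
  have hbox : ∀ y' : CIdx (Fin K) (degr N) → ℝ, (∀ i, |y' i - y i| ≤ rad N) → y' ∈ ybox K N :=
    fun y' hy' i _ => by
      have h1 := abs_le.1 (hin i)
      have h2 := abs_le.1 (hy' i)
      constructor <;> linarith [scl_nonneg N]
  refine ⟨⟨pow_pos hb0 3, pow_pos hb0 2, by unfold pen; linarith [cnum_nonneg K N]⟩,
    fun e => (hy (Sum.inl e) (Set.mem_univ _)).1, ⟨fun i => 2 * pen K N * (y i - 3 / 2 * scl N),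
      fun y' hy' => ?_⟩, fun y' hy' => hdev y' (ybox_subset K N (hbox y' hy'))⟩
  have h := hmax r hr y' (hbox y' hy')
  simp only [objF] at h
  set A := (uSys a blk hν (n := n + 1) (by omega) t m r).press (degr N) (scl N) y
  set A' := (uSys a blk hν (n := n + 1) (by omega) t m r).press (degr N) (scl N) y'
  have h' : (A' - pen K N * ∑ i, (y' i - 3 / 2 * scl N) ^ 2) / N ≤
      (A - pen K N * ∑ i, (y i - 3 / 2 * scl N) ^ 2) / N := by
    rw [sub_div, sub_div]; linarith
  have h'' := (div_le_div_iff_of_pos_right hN0).1 h'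
  have e : pen K N * ∑ i, (y' i - 3 / 2 * scl N) ^ 2 - pen K N * ∑ i, (y i - 3 / 2 * scl N) ^ 2 =
      (∑ i, 2 * pen K N * (y i - 3 / 2 * scl N) * (y' i - y i)) +
        pen K N * ∑ i, (y' i - y i) ^ 2 := by
    simp only [Finset.mul_sum, ← Finset.sum_sub_distrib, ← Finset.sum_add_distrib]
    exact Finset.sum_congr rfl fun i _ => by ring
  linarith

/-- The variances of a maximiser stay below the coercive level. -/
lemma max_below (hN : 1 ≤ N) (ht : 0 ≤ t) (htβ : t ≤ β) (hr : r ∈ rgrid N k L) (hy : y ∈ ybox K N)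
    (hmax : ∀ r' ∈ rgrid N k L, ∀ y' ∈ ybox K N,
      objF a blk hν n m p t r' y' ≤ objF a blk hν n m p t r y)
    (hzero : (uSys a blk hν (n := n + 1) (by omega) 0 m r).press (degr N) (scl N) 0 ≤
      N * xzero m r + 1)
    (hsmall : (2 * cnum K N * scl N ^ 2 + 1) / N ≤ 1)
    (hL : ∀ r' : Fin (k + 1) → ℝ, Monotone r' → (∀ l, 0 ≤ r' l) → L ≤ r' (Fin.last k) →
      xbar m r' + pairing m p r' ≤ -(β * a.size + 2)) (hL0 : 0 ≤ L) :
    r (Fin.last k) < L := by
  by_contra hcon
  obtain ⟨hmono, hb⟩ := rgrid_bounds hL0 hr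
  have hN0 : (0 : ℝ) < N := by exact_mod_cast hN
  have h1 := hL r hmono (fun l => (hb l).1) (not_lt.1 hcon)
  have h2 := hmax 0 (zero_mem_rgrid L) _ (yctr_mem K N)
  have h3 := (objF_origin a blk hν n m p hN ht).2
  have h4 := (press_box a blk hν n m t r (ybox_subset K N hy)).2
  have h5 := press_tangent a blk hν (n := n + 1) (by omega) m r (scl N)
    (0 : CIdx (Fin K) (degr N) → ℝ) 0 t
  have h6 := mul_le_mul_of_nonneg_left (abs_le.1 (abs_expect_energy a blk hν n m t r (scl N)
    (0 : CIdx (Fin K) (degr N) → ℝ))).2 (mul_nonneg ht hN0.le)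
  have h7 : (uSys a blk hν (n := n + 1) (by omega) t m r).press (degr N) (scl N) y / N ≤
      xzero m r + t * a.size / 2 + (2 * cnum K N * scl N ^ 2 + 1) / N := by
    rw [div_le_iff₀ hN0, add_mul, add_mul, div_mul_cancel₀ _ hN0.ne']
    linarith
  have h8 : 0 ≤ pen K N * (∑ i, (y i - 3 / 2 * scl N) ^ 2) / N := by
    have := cnum_nonneg K N
    unfold pen
    positivity
  have h9 : t * a.size ≤ β * a.size := mul_le_mul_of_nonneg_right htβ a.size_nonneg
  have hx : xbar m r = xzero m r - r (Fin.last k) / 2 := rfl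
  have hF : objF a blk hν n m p t r y =
      (uSys a blk hν (n := n + 1) (by omega) t m r).press (degr N) (scl N) y / N -
        r (Fin.last k) / 2 + pairing m p r -
          pen K N * (∑ i, (y i - 3 / 2 * scl N) ^ 2) / N := rfl
  linarith

/-- Raising the variances at a maximiser cannot pay. -/
lemma max_overlap (hN : 1 ≤ N) (hr : r ∈ rgrid N k L) (hy : y ∈ ybox K N)
    (hmax : ∀ r' ∈ rgrid N k L, ∀ y' ∈ ybox K N,
      objF a blk hν n m p t r' y' ≤ objF a blk hν n m p t r y)
    (hL0 : 0 ≤ L) (hlast : r (Fin.last k) ≤ L) (j : Fin (k + 1)) :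
    (∑ l ∈ Finset.univ.filter (fun l => j ≤ l), lmass m l * p l) -
        2 * gainRem (stp N * N) / (stp N * N) ≤
      (uSys a blk hν (n := n + 1) (by omega) t m r).avg (scl N) y 2
        fun _ x => ovlTh N (n + 1) k j x := by
  obtain ⟨hmono, hb⟩ := rgrid_bounds hL0 hr
  have hN0 : (0 : ℝ) < N := by exact_mod_cast hN
  have h1 := hmax _ (bump_mem_rgrid hr hlast j) y hy
  have h2 := press_bump_ge a blk hν (n := n + 1) (by omega) t m r (scl N) y hmono
    (fun l => (hb l).1) (Nat.le_of_lt_succ j.isLt) (stp_pos N).le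
  set A := (uSys a blk hν (n := n + 1) (by omega) t m r).avg (scl N) y 2
    fun _ x => ovlTh N (n + 1) k j x
  set Q := ∑ l ∈ Finset.univ.filter (fun l => j ≤ l), lmass m l * p l with hQ
  have e1 : pairing m p (fun l : Fin (k + 1) => r l + bump j (stp N) l) =
      pairing m p r + stp N / 2 * Q := by
    simp only [pairing, hQ, Finset.sum_filter, Finset.mul_sum, Finset.sum_div,
      ← Finset.sum_add_distrib]
    refine Finset.sum_congr rfl fun l _ => ?_
    by_cases hl : j ≤ l
    · rw [if_pos hl, bump, if_pos (Fin.le_iff_val_le_val.1 hl)]; ring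
    · rw [if_neg hl, bump, if_neg fun h => hl (Fin.le_iff_val_le_val.2 h)]; ring
  have e2 : bump j (stp N) (Fin.last k : Fin (k + 1)) = stp N :=
    if_pos (Nat.le_of_lt_succ j.isLt)
  simp only [objF, e1, e2] at h1
  set X := (uSys a blk hν (n := n + 1) (by omega) t m r).press (degr N) (scl N) y
  set X' := (uSys a blk hν (n := n + 1) (by omega) t m
    fun l : Fin (k + 1) => r l + bump j (stp N) l).press (degr N) (scl N) y
  have h3 : (X' - X) / N ≤ stp N / 2 * (1 - Q) := by rw [sub_div]; linarith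
  rw [div_le_iff₀ hN0] at h3
  have hv : 0 < stp N * N := mul_pos (stp_pos N) hN0
  rw [sub_le_iff_le_add, ← sub_le_iff_le_add', le_div_iff₀ hv]
  linarith

end Vale.Agent.P166F
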