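import Vale.Agent.P166F.Sys
import Vale.Agent.P166F.Model
import Vale.Agent.P166F.Tree

/-!
P166: the enriched system of the upper bound: spins at inverse temperature `t` and tree fields of
variances `r`, with the block parts of the rotated spins as features.
-/

namespace Vale.Agent.P166F

open MeasureTheory
open Vale.Agent.P166 (spin)
open Vale.Agent.P166N (Node Leaf)

variable {K N : ℕ} {n k : ℕ}

/-- A vector moved into the unit ball. -/
noncomputable def toBall {D : ℕ} (x : EuclideanSpace ℝ (Fin D)) : EuclideanSpace ℝ (Fin D) :=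
  (max 1 ‖x‖)⁻¹ • x

/-- Exponents as a sequence. -/
def seqOf (m : Fin (k + 1) → ℝ) (j : ℕ) : ℝ := m ⟨min j k, by omega⟩

/-- The disorder of the enriched system. -/
abbrev UOmega (N n k : ℕ) :=
  (Fin N → Fin N → ℝ) ×
    ((Node n k → ℝ) × (Option (Node n k) → EuclideanSpace ℝ (Fin N)))

/-- The energy and the fields at a configuration and a leaf, with the weight of the leaf. -/
noncomputable def uLogw (a : Atoms K) (blk : Fin N → Fin K) (t : ℝ) (m r : Fin (k + 1) → ℝ)
    (ω : UOmega N n k) (x : (Fin N → Bool) × Leaf n k) : ℝ :=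
  t * N / 2 * ∑ i, a.lam i * ‖blockVec blk ω.1 x.1 i‖ ^ 2 +
    (∑ i, leafPt k (fun j _ => seqOf r j) x.2 ω.2.2 i * spin (x.1 i)) - N * Real.log 2 +
    Real.log (wgt n k (seqOf m) ω.2.1 x.2 / ∑ l, wgt n k (seqOf m) ω.2.1 l)

end Vale.Agent.P166F
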