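import Vale.Agent.P166F.Up.Scale
import Vale.Agent.P166F.Up.Interface

/-!
P166: the grid of field variances and the choice of the width of the trees.
-/

namespace Vale.Agent.P166F

open MeasureTheory Filter
open scoped Topology
open Vale.Agent.P166N (meet)
open Vale.Agent.P166N.Spectrum (OrthInvLaw)

variable {K N k : ℕ}

open scoped Classical in
/-- Monotone variances on multiples of the step, up to `L + 1`. -/
noncomputable def rgrid (N k : ℕ) (L : ℝ) : Finset (Fin (k + 1) → ℝ) :=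
  ((Fintype.piFinset fun _ : Fin (k + 1) => Finset.range (⌈(L + 1) / stp N⌉₊ + 1)).image
    fun z l => stp N * z l).filter fun r => Monotone r

lemma mem_rgrid {L : ℝ} {r : Fin (k + 1) → ℝ} :
    r ∈ rgrid N k L ↔ Monotone r ∧
      ∃ z : Fin (k + 1) → ℕ, (∀ l, z l ≤ ⌈(L + 1) / stp N⌉₊) ∧ r = fun l => stp N * z l := by
  simp only [rgrid, Finset.mem_filter, Finset.mem_image, Fintype.mem_piFinset, Finset.mem_range,
    Nat.lt_succ_iff]
  exact ⟨fun ⟨⟨z, hz, e⟩, hr⟩ => ⟨hr, z, hz, e.symm⟩, fun ⟨hr, z, hz, e⟩ => ⟨⟨z, hz, e.symm⟩, hr⟩⟩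

lemma zero_mem_rgrid (L : ℝ) : (0 : Fin (k + 1) → ℝ) ∈ rgrid N k L :=
  mem_rgrid.2 ⟨monotone_const, fun _ => 0, fun _ => Nat.zero_le _, by funext l; simp⟩

lemma rgrid_bounds {L : ℝ} (hL : 0 ≤ L) {r : Fin (k + 1) → ℝ} (hr : r ∈ rgrid N k L) :
    Monotone r ∧ ∀ l, 0 ≤ r l ∧ r l ≤ L + 2 := by
  obtain ⟨hmono, z, hz, rfl⟩ := mem_rgrid.1 hr
  refine ⟨hmono, fun l => ⟨mul_nonneg (stp_pos N).le (Nat.cast_nonneg _), ?_⟩⟩
  have h1 : (z l : ℝ) ≤ (L + 1) / stp N + 1 :=
    (Nat.cast_le.2 (hz l)).trans (Nat.ceil_lt_add_one (div_nonneg (by linarith) (stp_pos N).le)).le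
  have h2 := mul_le_mul_of_nonneg_left h1 (stp_pos N).le
  rw [mul_add, mul_div_cancel₀ _ (stp_pos N).ne'] at h2
  linarith [stp_le_one N]

lemma bump_mem_rgrid {L : ℝ} {r : Fin (k + 1) → ℝ} (hr : r ∈ rgrid N k L)
    (hlast : r (Fin.last k) ≤ L) (j : ℕ) :
    (fun l : Fin (k + 1) => r l + bump j (stp N) l) ∈ rgrid N k L := by
  obtain ⟨hmono, z, -, rfl⟩ := mem_rgrid.1 hr
  refine mem_rgrid.2 ⟨fun l l' h => add_le_add (hmono h) ?_,
    fun l => if j ≤ (l : ℕ) then z l + 1 else z l, fun l => ?_, ?_⟩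
  · have h' : (l : ℕ) ≤ l' := h
    unfold bump
    split_ifs <;> first | exact le_rfl | exact (stp_pos N).le | omega
  · have h1 : stp N * ((z l : ℝ) + 1) ≤ L + 1 := by
      rw [mul_add, mul_one]
      exact add_le_add ((hmono (Fin.le_last l)).trans hlast) (stp_le_one N)
    have h2 : ((z l + 1 : ℕ) : ℝ) ≤ (⌈(L + 1) / stp N⌉₊ : ℕ) := by
      refine le_trans ?_ (Nat.le_ceil _)
      rw [le_div_iff₀ (stp_pos N)]
      push_cast
      linarith
    have h3 : z l + 1 ≤ ⌈(L + 1) / stp N⌉₊ := by exact_mod_cast h2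
    beta_reduce
    split_ifs <;> omega
  · funext l
    simp only [bump]
    split_ifs <;> push_cast <;> ring

lemma isCompact_cbox {P : ℕ} (S : ℝ) : IsCompact (CBox S : Set (CIdx (Fin K) P → ℝ)) := by
  have e : (CBox S : Set (CIdx (Fin K) P → ℝ)) = Set.pi Set.univ fun _ => Set.Icc 0 S := by
    ext y
    simp only [CBox, Set.mem_setOf_eq, Set.mem_univ_pi, Set.mem_Icc]
  rw [e]
  exact isCompact_univ_pi fun _ => isCompact_Icc

/-- The constant in the deviation bound is good for these data. -/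
def DevConst (a : Atoms K) (m : Fin (k + 1) → ℝ) (T C : ℝ) : Prop :=
  ∀ (N : ℕ) (blk : Fin N → Fin K) (ν : Measure (Fin N → Fin N → ℝ)) (hν : OrthInvLaw N ν)
    (t : ℝ) (r : Fin (k + 1) → ℝ) (P : ℕ) (s S L : ℝ) (y : CIdx (Fin K) P → ℝ),
    1 ≤ N → 0 ≤ t → t ≤ T → Monotone r → (∀ l, 0 ≤ r l ∧ r l ≤ L) → 1 ≤ s → s ^ 2 ≤ N →
    0 ≤ S → y ∈ CBox S →
    ∀ᶠ n in atTop, (uSys a blk hν (n := n + 1) (by omega) t m r).dev P s y ≤
      C * (1 + L) * ((1 + (S / Real.sqrt N) ^ 2) * Real.sqrt N + S + s) *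
        (Fintype.card (CIdx (Fin K) P) * (P + 1) : ℝ) ^ 2

/-- A width of the trees at which the value at zero, the deviations and the meeting law are near
their limits, on the whole grid and box. -/
theorem exists_size (a : Atoms K) (blk : Fin N → Fin K) {ν : Measure (Fin N → Fin N → ℝ)}
    (hν : OrthInvLaw N ν) {m : Fin (k + 1) → ℝ} (hm : Levels m) (hN : 1 ≤ N) {β C : ℝ}
    (hC : DevConst a m β C) (T : Finset ℝ) (hT : ∀ t ∈ T, 0 ≤ t ∧ t ≤ β) {L : ℝ} (hL : 0 ≤ L) :
    ∃ n : ℕ, ∀ r ∈ rgrid N k L,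
      (uSys a blk hν (n := n + 1) (by omega) 0 m r).press (degr N) (scl N) 0 ≤
          N * xzero m r + 1 ∧
      ∀ t ∈ T, ∀ y ∈ (CBox (2 * scl N) : Set (CIdx (Fin K) (degr N) → ℝ)),
        (uSys a blk hν (n := n + 1) (by omega) t m r).dev (degr N) (scl N) y ≤
            devB K (C * (1 + (L + 2))) N ∧
        ∀ j : Fin (k + 1), (uSys a blk hν (n := n + 1) (by omega) t m r).avg (scl N) y 2
          (fun _ x => if (j : ℕ) ≤ meet k (x 0).2 (x 1).2 then (1 : ℝ) else 0) ≤
            1 - m j + 1 / ((N : ℝ) + 1) := by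
  have hs1 : 1 ≤ scl N := one_le_pow₀ (one_le_bs hN)
  have hs2 : scl N ^ 2 ≤ N := by
    rw [← bs_pow N, scl, ← pow_mul]
    exact pow_le_pow_right₀ (one_le_bs hN) (by norm_num)
  have hcpt := isCompact_cbox (K := K) (P := degr N) (2 * scl N)
  have h : ∀ᶠ n in atTop, ∀ r ∈ rgrid N k L,
      (uSys a blk hν (n := n + 1) (by omega) 0 m r).press (degr N) (scl N) 0 ≤
          N * xzero m r + 1 ∧
      ∀ t ∈ T, (∀ y ∈ (CBox (2 * scl N) : Set (CIdx (Fin K) (degr N) → ℝ)),
          (uSys a blk hν (n := n + 1) (by omega) t m r).dev (degr N) (scl N) y ≤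
            devB K (C * (1 + (L + 2))) N) ∧
        ∀ j ∈ (Finset.univ : Finset (Fin (k + 1))),
          ∀ y ∈ (CBox (2 * scl N) : Set (CIdx (Fin K) (degr N) → ℝ)),
          (uSys a blk hν (n := n + 1) (by omega) t m r).avg (scl N) y 2
            (fun _ x => if (j : ℕ) ≤ meet k (x 0).2 (x 1).2 then (1 : ℝ) else 0) ≤
            1 - m j + 1 / ((N : ℝ) + 1) := by
    refine (Finset.eventually_all _).2 fun r hr => ?_
    obtain ⟨hmono, hb⟩ := rgrid_bounds hL hr
    refine ((uSys_press_zero a blk hν hm hmono (fun l => (hb l).1) _ _).eventually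
      (eventually_le_nhds (lt_add_one _))).and ((Finset.eventually_all _).2 fun t ht => ?_)
    refine Filter.Eventually.and ?_ ((Finset.eventually_all _).2 fun j _ => ?_)
    · set B := C * (1 + (L + 2)) * ((1 + (2 * scl N / Real.sqrt N) ^ 2) * Real.sqrt N + 2 * scl N +
        scl N) * (Fintype.card (CIdx (Fin K) (degr N)) * (degr N + 1) : ℝ) ^ 2 with hB
      refine (eventually_forall_le hcpt (c := B) (fun y _ ε hε => ?_) (fun y hy ε hε => ?_)
        one_pos).mono fun n hn y hy => (hn y hy).trans_eq (by simp only [hB, devB, cnum])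
      · refine ⟨_, ((Sys.continuous_meanMove N (scl N) y).const_mul 2).continuousAt.preimage_mem_nhds
          (Iio_mem_nhds (show 2 * Sys.meanMove N (scl N) y y < ε by simp [Sys.meanMove_self, hε])),
          fun n y' hy' => ?_⟩
        have h := (abs_le.1 (Sys.abs_dev_sub_le (uSys a blk hν (n := n + 1) (by omega) t m r)
          (scl N) y' y)).2
        have h2 : 2 * Sys.meanMove N (scl N) y' y < ε := hy'
        change _ ≤ 2 * Sys.meanMove N (scl N) y' y at h
        linarith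
      · exact (hC N blk ν hν t r (degr N) (scl N) (2 * scl N) (L + 2) y hN (hT t ht).1 (hT t ht).2
          hmono hb hs1 hs2 (by linarith) hy).mono fun n hn => hn.trans (by linarith)
    · refine (eventually_forall_le hcpt (c := 1 - m j) (fun y _ ε hε => ?_) (fun y _ ε hε => ?_)
        (show (0 : ℝ) < 1 / ((N : ℝ) + 1) by positivity)).mono fun n hn y hy => hn y hy
      · refine ⟨_, (((Sys.continuous_meanMove N (scl N) y).const_mul 4).div_const
          (ε / 2)).continuousAt.preimage_mem_nhds (Iio_mem_nhds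
            (show 4 * Sys.meanMove N (scl N) y y / (ε / 2) < ε / 2 by
              simp [Sys.meanMove_self, hε])), fun n y' hy' => ?_⟩
        have h := (abs_le.1 (Sys.abs_avg_sub_le (uSys a blk hν (n := n + 1) (by omega) t m r)
          (scl N) y y' (Θ := fun x => if (j : ℕ) ≤ meet k (x 0).2 (x 1).2 then (1 : ℝ) else 0)
          (fun x => by split_ifs <;> simp) (half_pos hε))).2
        have h2 : 4 * Sys.meanMove N (scl N) y' y / (ε / 2) < ε / 2 := hy'
        change _ ≤ ε / 2 + 4 * Sys.meanMove N (scl N) y' y / (ε / 2) at h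
        linarith
      · exact (uSys_meet a blk hν hm hmono (fun l => (hb l).1) t (scl N) y j).eventually
          (eventually_le_nhds (lt_add_of_pos_right _ hε))
  obtain ⟨n, hn⟩ := h.exists
  exact ⟨n, fun r hr => ⟨(hn r hr).1, fun t ht y hy =>
    ⟨((hn r hr).2 t ht).1 y hy, fun j => ((hn r hr).2 t ht).2 j (Finset.mem_univ j) y hy⟩⟩⟩

end Vale.Agent.P166F
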