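import Vale.Agent.P166F.Up.Perturb
import Vale.Agent.P166F.GG

/-!
P166: the sizes of the perturbation, of the steps and of the errors in the upper bound.
-/

namespace Vale.Agent.P166F

open MeasureTheory Filter
open scoped Topology

variable {K : ℕ}

/-- The eighth root of the size. -/
noncomputable def bs (N : ℕ) : ℝ := (N : ℝ) ^ ((8 : ℝ)⁻¹)

/-- The scale of the coefficients. -/
noncomputable def scl (N : ℕ) : ℝ := bs N ^ 3

/-- The radius of pinning. -/
noncomputable def rad (N : ℕ) : ℝ := bs N ^ 2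

/-- The largest exponent of the monomials. -/
noncomputable def degr (N : ℕ) : ℕ := ⌊Real.log (bs N)⌋₊

/-- The number of coefficients. -/
noncomputable def cnum (K N : ℕ) : ℝ := Fintype.card (CIdx (Fin K) (degr N))

/-- The weight of the quadratic penalty. -/
noncomputable def pen (K N : ℕ) : ℝ := 32 * cnum K N + 1

/-- The bound on the deviation, with the constant `C`. -/
noncomputable def devB (K : ℕ) (C : ℝ) (N : ℕ) : ℝ :=
  C * ((1 + (2 * scl N / Real.sqrt N) ^ 2) * Real.sqrt N + 2 * scl N + scl N) *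
    (cnum K N * (degr N + 1)) ^ 2 + 1

/-- The step of the field variances. -/
noncomputable def stp (N : ℕ) : ℝ := 1 / ((N : ℝ) + 1) ^ 2

lemma bs_nonneg (N : ℕ) : 0 ≤ bs N := Real.rpow_nonneg (Nat.cast_nonneg N) _

lemma bs_pow (N : ℕ) : bs N ^ 8 = N := by
  rw [bs, ← Real.rpow_natCast, ← Real.rpow_mul (Nat.cast_nonneg N)]
  norm_num

lemma tendsto_bs : Tendsto bs atTop atTop :=
  (tendsto_rpow_atTop (by norm_num : (0 : ℝ) < (8 : ℝ)⁻¹)).comp tendsto_natCast_atTop_atTop

lemma one_le_bs {N : ℕ} (hN : 1 ≤ N) : 1 ≤ bs N :=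
  Real.one_le_rpow (by exact_mod_cast hN) (by norm_num)

lemma sqrt_eq (N : ℕ) : Real.sqrt N = bs N ^ 4 := by
  rw [Real.sqrt_eq_iff_mul_self_eq (Nat.cast_nonneg N) (pow_nonneg (bs_nonneg N) 4), ← pow_add]
  exact (bs_pow N).symm

lemma tendsto_degr : Tendsto degr atTop atTop :=
  tendsto_nat_floor_atTop.comp (Real.tendsto_log_atTop.comp tendsto_bs)

lemma tendsto_poly_div_bs (q : ℕ) :
    Tendsto (fun N => ((degr N : ℝ) + 1) ^ q / bs N) atTop (𝓝 0) := by
  have h := ((Real.tendsto_pow_log_div_mul_add_atTop 1 0 q one_ne_zero).comp tendsto_bs).const_mul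
    ((2 : ℝ) ^ q)
  rw [mul_zero] at h
  refine squeeze_zero' (Eventually.of_forall fun N => div_nonneg (by positivity) (bs_nonneg N)) ?_ h
  filter_upwards [(Real.tendsto_log_atTop.comp tendsto_bs).eventually_ge_atTop 1] with N hN
  simp only [Function.comp_apply, one_mul, add_zero] at hN ⊢
  rw [← mul_div_assoc, ← mul_pow]
  refine div_le_div_of_nonneg_right (pow_le_pow_left₀ (by positivity) ?_ q) (bs_nonneg N)
  have := Nat.floor_le (a := Real.log (bs N)) (by linarith)
  simp only [degr]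
  linarith

lemma cnum_le (K N : ℕ) : cnum K N ≤ (K + 1) * ((degr N : ℝ) + 1) ^ K := by
  have h1 : Fintype.card (Mon (Fin K) (degr N)) ≤ (degr N + 1) ^ K :=
    (Fintype.card_subtype_le _).trans_eq (by simp)
  have h2 : (Fintype.card (Mon (Fin K) (degr N)) : ℝ) ≤ ((degr N : ℝ) + 1) ^ K := by
    exact_mod_cast h1
  have h3 : (1 : ℝ) ≤ ((degr N : ℝ) + 1) ^ K := one_le_pow₀ (le_add_of_nonneg_left (Nat.cast_nonneg _))
  simp only [cnum, CIdx, Fintype.card_sum, Fintype.card_fin, Nat.cast_add]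
  nlinarith [(Nat.cast_nonneg K : (0 : ℝ) ≤ K)]

lemma cnum_nonneg (K N : ℕ) : 0 ≤ cnum K N := Nat.cast_nonneg _

/-- A quantity within a polynomial in the degree over the eighth root tends to zero. -/
lemma tendsto_zero_of_poly {f : ℕ → ℝ} (C : ℝ) (q : ℕ) (h0 : ∀ᶠ N in atTop, 0 ≤ f N)
    (h : ∀ᶠ N in atTop, f N ≤ C * (((degr N : ℝ) + 1) ^ q / bs N)) :
    Tendsto f atTop (𝓝 0) := by
  have := (tendsto_poly_div_bs q).const_mul C
  rw [mul_zero] at this
  exact squeeze_zero' h0 h this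

lemma cnum_pow_le (K N q : ℕ) :
    (cnum K N * ((degr N : ℝ) + 1)) ^ q ≤
      ((K : ℝ) + 1) ^ q * ((degr N : ℝ) + 1) ^ ((K + 1) * q) := by
  rw [pow_mul, ← mul_pow, pow_succ, ← mul_assoc]
  refine pow_le_pow_left₀ (mul_nonneg (cnum_nonneg K N) (by positivity)) ?_ q
  exact mul_le_mul_of_nonneg_right (cnum_le K N) (by positivity)

/-- The perturbation is small against the size. -/
lemma tendsto_cost (K : ℕ) : Tendsto (fun N => cnum K N * scl N ^ 2 / N) atTop (𝓝 0) := by
  refine tendsto_zero_of_poly ((K : ℝ) + 1) K (Eventually.of_forall fun N => ?_) ?_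
  · have := cnum_nonneg K N; positivity
  filter_upwards [eventually_ge_atTop 1] with N hN
  have hb := one_le_bs hN
  have hb0 : 0 < bs N := zero_lt_one.trans_le hb
  rw [← bs_pow N, scl, ← mul_div_assoc, div_le_div_iff₀ (by positivity) hb0, ← pow_mul]
  calc cnum K N * bs N ^ (3 * 2) * bs N = cnum K N * bs N ^ 7 := by ring
    _ ≤ (K + 1) * ((degr N : ℝ) + 1) ^ K * bs N ^ 8 :=
        mul_le_mul (cnum_le K N) (pow_le_pow_right₀ hb (by norm_num)) (by positivity) (by positivity)

/-- The error of the loop equation tends to zero. -/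
lemma tendsto_loopErr (K : ℕ) :
    Tendsto (fun N => (2 * scl N / Real.sqrt N + (2 * scl N) ^ 2 / N) *
      (cnum K N * (degr N + 1)) ^ 2) atTop (𝓝 0) := by
  refine tendsto_zero_of_poly (6 * ((K : ℝ) + 1) ^ 2) ((K + 1) * 2) (Eventually.of_forall fun N => ?_) ?_
  · have := bs_nonneg N
    have h : 0 ≤ scl N := pow_nonneg this 3
    positivity
  filter_upwards [eventually_ge_atTop 1] with N hN
  have hb := one_le_bs hN
  have hb0 : 0 < bs N := zero_lt_one.trans_le hb
  have e : 2 * scl N / Real.sqrt N + (2 * scl N) ^ 2 / N ≤ 6 / bs N := by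
    rw [sqrt_eq, ← bs_pow N, scl]
    have h1 : 2 * bs N ^ 3 / bs N ^ 4 = 2 / bs N := by field_simp
    have h2 : (2 * bs N ^ 3) ^ 2 / bs N ^ 8 ≤ 4 / bs N := by
      rw [div_le_div_iff₀ (by positivity) hb0]
      calc (2 * bs N ^ 3) ^ 2 * bs N = 4 * bs N ^ 7 := by ring
        _ ≤ 4 * bs N ^ 8 := by gcongr <;> norm_num
    rw [h1, show (6 : ℝ) / bs N = 2 / bs N + 4 / bs N by ring]
    linarith
  refine (mul_le_mul e (cnum_pow_le K N 2) (sq_nonneg _) (by positivity)).trans (le_of_eq ?_)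
  ring

/-- The relative error at pinned points tends to zero, also after a factor of the degree. -/
lemma tendsto_pin (K : ℕ) {C : ℝ} (hC : 0 ≤ C) :
    Tendsto (fun N => ((degr N : ℝ) + 1) * pinErr (scl N) (pen K N) (devB K C N) (rad N))
      atTop (𝓝 0) := by
  set A := (K : ℝ) + 1
  refine tendsto_zero_of_poly (3 * 33 * A + 3 * (20 * C * A ^ 2 + 1)) ((K + 1) * 2 + 1)
    (Eventually.of_forall fun N => ?_) ?_
  · have := cnum_nonneg K N
    have := bs_nonneg N
    have hs : 0 ≤ scl N := by unfold scl; positivity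
    have hr : 0 ≤ rad N := by unfold rad; positivity
    unfold pinErr pen devB
    positivity
  filter_upwards [eventually_ge_atTop 1] with N hN
  have hb := one_le_bs hN
  set b := bs N with hbdef
  have hb0 : 0 < b := zero_lt_one.trans_le hb
  set u := (degr N : ℝ) + 1
  have hu : 1 ≤ u := le_add_of_nonneg_left (Nat.cast_nonneg _)
  set T := u ^ ((K + 1) * 2)
  have hA : 1 ≤ A := le_add_of_nonneg_left (Nat.cast_nonneg K)
  have hT : 1 ≤ T := one_le_pow₀ hu
  have hAT : 1 ≤ A * T := one_le_mul_of_one_le_of_one_le hA hT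
  have hθ : pen K N ≤ 33 * A * T := by
    have h1 : u ^ K ≤ T := pow_le_pow_right₀ hu (by omega)
    have h2 := (cnum_le K N).trans (mul_le_mul_of_nonneg_left h1 (zero_le_one.trans hA))
    unfold pen
    linarith
  have hθ0 : 0 ≤ pen K N := by unfold pen; have := cnum_nonneg K N; positivity
  have hsq : Real.sqrt (2 * pen K N) ≤ 33 * A * T := by
    rw [Real.sqrt_le_iff]
    refine ⟨by positivity, ?_⟩
    nlinarith
  have hD : devB K C N ≤ (20 * C * A ^ 2 + 1) * T * b ^ 4 := by
    have hc := cnum_pow_le K N 2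
    have hq : (1 + (2 * scl N / Real.sqrt N) ^ 2) * Real.sqrt N + 2 * scl N + scl N ≤ 20 * b ^ 4 := by
      rw [sqrt_eq, scl, ← hbdef]
      have h1 : 2 * b ^ 3 / b ^ 4 ≤ 2 := by
        rw [div_le_iff₀ (by positivity)]
        gcongr; norm_num
      have h2 : (2 * b ^ 3 / b ^ 4) ^ 2 ≤ 2 ^ 2 := pow_le_pow_left₀ (by positivity) h1 2
      have h3 : b ^ 3 ≤ b ^ 4 := pow_le_pow_right₀ hb (by norm_num)
      nlinarith [pow_nonneg hb0.le 4]
    have h0 : 0 ≤ (1 + (2 * scl N / Real.sqrt N) ^ 2) * Real.sqrt N + 2 * scl N + scl N := by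
      have : 0 ≤ scl N := by unfold scl; positivity
      positivity
    have h4 : 1 ≤ T * b ^ 4 := one_le_mul_of_one_le_of_one_le hT (one_le_pow₀ hb)
    calc devB K C N ≤ C * (20 * b ^ 4) * (A ^ 2 * T) + T * b ^ 4 := by
          refine add_le_add (mul_le_mul (mul_le_mul_of_nonneg_left hq hC) hc (sq_nonneg _) ?_) h4
          positivity
      _ = _ := by ring
  have key : pinErr (scl N) (pen K N) (devB K C N) (rad N) ≤
      (3 * 33 * A + 3 * (20 * C * A ^ 2 + 1)) * T / b := by
    unfold pinErr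
    rw [scl, rad, ← hbdef, div_le_div_iff₀ (by positivity) hb0]
    have hd : 3 * devB K C N / b ^ 2 ≤ 3 * (20 * C * A ^ 2 + 1) * T * b ^ 2 := by
      rw [div_le_iff₀ (by positivity)]
      calc 3 * devB K C N ≤ 3 * ((20 * C * A ^ 2 + 1) * T * b ^ 4) := by linarith
        _ = _ := by ring
    have hb2 : 1 ≤ b ^ 2 := one_le_pow₀ hb
    have h1 : Real.sqrt (2 * pen K N) + 2 * pen K N * b ^ 2 + 3 * devB K C N / b ^ 2 ≤
        (3 * 33 * A + 3 * (20 * C * A ^ 2 + 1)) * T * b ^ 2 := by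
      nlinarith [mul_le_mul_of_nonneg_right hθ (sq_nonneg b), mul_le_mul_of_nonneg_left hb2
        (by positivity : (0 : ℝ) ≤ 33 * A * T)]
    refine (mul_le_mul_of_nonneg_right h1 hb0.le).trans (le_of_eq ?_)
    ring
  calc u * pinErr (scl N) (pen K N) (devB K C N) (rad N)
      ≤ u * ((3 * 33 * A + 3 * (20 * C * A ^ 2 + 1)) * T / b) :=
        mul_le_mul_of_nonneg_left key (by positivity)
    _ = _ := by simp only [T, pow_succ]; ring

lemma stp_pos (N : ℕ) : 0 < stp N := by unfold stp; positivity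

lemma stp_le_one (N : ℕ) : stp N ≤ 1 := by
  unfold stp
  rw [div_le_one (by positivity)]
  exact one_le_pow₀ (le_add_of_nonneg_left (Nat.cast_nonneg N))

/-- The first-order gain dominates its remainder for small steps. -/
lemma tendsto_gain :
    Tendsto (fun N => 2 * gainRem (stp N * N) / (stp N * N)) atTop (𝓝 0) := by
  have hv : Tendsto (fun N => stp N * N) atTop (𝓝 0) := by
    refine squeeze_zero (fun N => mul_nonneg (stp_pos N).le (Nat.cast_nonneg N)) (fun N => ?_)
      tendsto_one_div_add_atTop_nhds_zero_nat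
    unfold stp
    rw [div_mul_eq_mul_div, div_le_div_iff₀ (by positivity) (by positivity)]
    nlinarith [(Nat.cast_nonneg N : (0 : ℝ) ≤ N)]
  have h : Tendsto (fun v : ℝ => 2 * (8 * gmom 3 * Real.sqrt v + 16 * gmom 4 * v +
      64 * gmom 6 * v ^ 2)) (𝓝 0) (𝓝 0) :=
    Continuous.tendsto' (by fun_prop) _ _ (by simp)
  refine (h.comp hv).congr' ?_
  filter_upwards [eventually_ge_atTop 1] with N hN
  have hN' : (0 : ℝ) < N := by exact_mod_cast hN
  have hv0 : 0 < stp N * N := mul_pos (stp_pos N) hN'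
  simp only [Function.comp_apply, gainRem]
  set v := stp N * (N : ℝ)
  have e := Real.mul_self_sqrt hv0.le
  rw [eq_div_iff hv0.ne']
  have e3 : Real.sqrt v ^ 3 = Real.sqrt v * v := by rw [pow_succ, sq, e]; ring
  have e4 : Real.sqrt v ^ 4 = v ^ 2 := by rw [show 4 = 2 * 2 from rfl, pow_mul, sq (Real.sqrt v), e]
  have e6 : Real.sqrt v ^ 6 = v ^ 3 := by rw [show 6 = 2 * 3 from rfl, pow_mul, sq (Real.sqrt v), e]
  simp only [mul_pow, e3, e4, e6]
  ring

end Vale.Agent.P166F
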